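import Vale.Agent.P269.Fg.Defs
import Vale.Agent.P269.Base.Vers
import Vale.Agent.P269.Vir.Sd
import Vale.Agent.P269.Map.W
import Vale.Agent.P269.Prop.TopA

/-!
# The universal curve over a part of a chart
-/

set_option linter.unusedSectionVars false

namespace Vale.Agent.P269

open P291Z Set Function Topology Filter Holo Base Module

section fam

variable {ι : Type} [Fintype ι] {M : ι → ℕ} {o : ι} {P : Type} [NormedAddCommGroup P]
  [NormedSpace ℂ P] [FiniteDimensional ℂ P] {T : Set P} {C : P → Set (V M)} {x : P} {c : V M}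

/-- The total space of a family of multicones. -/
def Base.tot (T : Set P) (C : P → Set (V M)) : Set (P × V M) := {z | z.1 ∈ T ∧ z.2 ∈ C z.1}

theorem Base.ev_tot {E : Type} [TopologicalSpace E] {e : E} (hx : x ∈ T) {p : T × E → Prop}
    (h : ∀ᶠ q in 𝓝 ((⟨x, hx⟩ : T), e), p q) :
    ∀ᶠ q : P × E in 𝓝 (x, e), ∀ hq : q.1 ∈ T, p (⟨q.1, hq⟩, q.2) := by
  rw [nhds_prod_eq] at h ⊢
  obtain ⟨a, ha, b, hb, h⟩ := eventually_prod_iff.1 h
  rw [nhds_subtype_eq_comap, eventually_comap] at ha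
  exact eventually_prod_iff.2 ⟨_, ha, b, hb, fun h1 _ h2 hq => h (h1 _ rfl) h2⟩

/-- a chart identifies the total space with a subset of `T × (ι → ℂ) × E` -/
theorem Base.Chart.mfdAt_tot {E : Type} [NormedAddCommGroup E] [NormedSpace ℂ E]
    [FiniteDimensional ℂ E] (hx : x ∈ T) (hf : LocFam o (fun y : T => C y) Subtype.val ⟨x, hx⟩)
    (hc : c ∈ C x) {σ : P × E → V M} {X : P → Set E}
    (h : Chart o (fun y : T => C y) Subtype.val ⟨x, hx⟩ σ X) (h0 : σ (x, 0) = c) {N : ℕ}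
    (hm : MfdAt {z : P × (ι → ℂ) × E | z.1 ∈ T ∧ z.2.2 ∈ X z.1} N (x, 1, 0)) :
    MfdAt (tot T C) N (x, c) := by
  have := FiniteDimensional.complete ℂ P
  have := FiniteDimensional.complete ℂ E
  subst h0
  have n0 := hf.ne_zero.self_of_nhds _ hc
  obtain ⟨ρ, h1, h2, h3, h4⟩ := h.exists_mem_iff continuous_subtype_val.continuousAt n0 hf.cone
  have l1 : AnalyticAt ℂ (fun p : P × (ι → ℂ) × E => (p.1, p.2.2)) (x, 1, 0) :=
    analyticAt_fst.prod (analyticAt_snd.comp analyticAt_snd)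
  have := hm.iso (S' := tot T C) (F := fun p => (p.1, p.2.1 • σ (p.1, p.2.2)))
    (G := fun q => (q.1, ρ q)) (analyticAt_fst.prod (an_smul (analyticAt_fst.comp analyticAt_snd)
      (h.an.comp_of_eq l1 rfl))) (by simpa using analyticAt_fst.prod h1) ?_ ?_
  · simpa using this
  · filter_upwards [h3, l1.continuousAt.eventually (ev_tot hx h.mem),
      continuousAt_fst.eventually ((ev_sub (p := fun y => ∀ s : ι → ℂ, (∀ i, s i ≠ 0) → ∀ c ∈ C y,
        s • c ∈ C y) hx).1 hf.cone), eventually_all.2 fun i =>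
        ContinuousAt.eventually_ne (g := fun p : P × (ι → ℂ) × E => p.2.1 i) (by fun_prop)
          one_ne_zero] with p e1 e2 e3 e4 hp
    exact ⟨⟨hp.1, e3 hp.1 _ e4 _ (e2 hp.1 hp.2)⟩, Prod.ext rfl e1⟩
  · simp only [one_smul]
    filter_upwards [ev_tot hx h4] with q e hq
    obtain ⟨e1, e2⟩ := (e hq.1).1 hq.2
    exact ⟨⟨hq.1, e1⟩, Prod.ext rfl e2.symm⟩

theorem Base.SmAt.mfdAt_tot (hx : x ∈ T) (hf : LocFam o (fun y : T => C y) Subtype.val ⟨x, hx⟩)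
    (h : SmAt o (fun y : T => C y) Subtype.val ⟨x, hx⟩ c) {N : ℕ} (hm : MfdAt T N x) :
    MfdAt (tot T C) (N + Fintype.card ι + 1) (x, c) := by
  have := FiniteDimensional.complete ℂ P
  obtain ⟨σ, h1, h2⟩ := id h
  refine h2.mfdAt_tot hx hf h.mem h1 ?_
  have := (hm.prod (MfdAt.univ ((1, 0) : (ι → ℂ) × ℂ))).congr
    (Z := {z : P × (ι → ℂ) × ℂ | z.1 ∈ T ∧ z.2.2 ∈ univ}) (.of_forall fun _ => Iff.rfl)
  simpa only [finrank_prod, finrank_self, finrank_fintype_fun_eq_card, add_assoc] using this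

theorem Base.NdAt.mfdAt_tot (hx : x ∈ T) (hf : LocFam o (fun y : T => C y) Subtype.val ⟨x, hx⟩)
    {τ : P → ℂ} (h : NdAt o (fun y : T => C y) Subtype.val ⟨x, hx⟩ c τ) {γ : ℂ → P}
    (hγ : Arc T x γ) (hd : deriv (fun ε => τ (γ ε)) 0 ≠ 0) {N : ℕ} (hm : MfdAt T N x) :
    MfdAt (tot T C) (N + Fintype.card ι + 1) (x, c) := by
  have := FiniteDimensional.complete ℂ P
  obtain ⟨σ, h1, h2, h3, h4⟩ := id h
  refine h4.mfdAt_tot hx hf h.mem h1 ?_
  refine (hm.prod (MfdAt.univ ((1, 0) : (ι → ℂ) × ℂ × ℂ))).sub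
    (Φ := fun z => z.2.2.1 * z.2.2.2 - τ z.1) (((analyticAt_fst.comp (analyticAt_snd.comp
      analyticAt_snd)).mul (analyticAt_snd.comp (analyticAt_snd.comp analyticAt_snd))).sub
      (h2.comp_of_eq analyticAt_fst rfl)) (by simpa using h3) (fun b _ => ?_)
    (.of_forall fun z => by simp [sub_eq_zero]) (by
      simp only [finrank_prod, finrank_self, finrank_fintype_fun_eq_card]
      omega)
  have : b = (b / -deriv (fun ε => τ (γ ε)) 0) • -deriv (fun ε => τ (γ ε)) 0 :=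
    (div_mul_cancel₀ _ (neg_ne_zero.2 hd)).symm
  rw [this]
  refine Submodule.smul_mem _ _ (Submodule.subset_span ⟨fun ε => (γ ε, 1, 0),
    ⟨hγ.an.prod analyticAt_const, by rw [hγ.zero], hγ.mem.mono fun _ e => ⟨e, trivial⟩⟩, ?_⟩)
  simp

/-- points of the curve are limits of points of the nearby curves -/
theorem Base.LocFam.lsc {T' : Type} [TopologicalSpace T'] {C : T' → Set (V M)} {π : T' → P} {t : T'}
    (h : LocFam o C π t) (hc : c ∈ C t) {U : Set (V M)} (hU : U ∈ 𝓝 c) :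
    ∀ᶠ s in 𝓝 t, ∃ c' ∈ C s, c' ∈ U := by
  have hπ := h.cont.self_of_nhds
  rcases h.chart c hc with ⟨σ, rfl, k⟩ | ⟨τ, σ, rfl, a, b, k⟩
  · filter_upwards [(Continuous.prodMk_left (0 : ℂ)).continuousAt.eventually
      (k.mem.and ((k.tendsto hπ).eventually hU))] with s e
    exact ⟨_, e.1 trivial, e.2⟩
  · have e := k.mem.and ((k.tendsto hπ).eventually hU)
    rw [nhds_prod_eq] at e
    obtain ⟨p, hp, q, hq, e⟩ := eventually_prod_iff.1 e
    obtain ⟨ε, h1, h2⟩ := Metric.eventually_nhds_iff.1 hq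
    have t1 : Tendsto (fun s => τ (π s)) (𝓝 t) (𝓝 0) := b ▸ a.continuousAt.tendsto.comp hπ
    filter_upwards [hp, t1.eventually (Metric.ball_mem_nhds 0 (mul_pos h1 h1))] with s e1 e2
    obtain ⟨z, hz⟩ := IsAlgClosed.exists_eq_mul_self (τ (π s))
    have e3 : dist (z, z) (0 : ℂ × ℂ) < ε := by
      rw [dist_zero_right, hz, norm_mul] at e2
      simpa using abs_lt_of_sq_lt_sq' (by simpa [sq] using e2) h1.le |>.2
    exact ⟨_, (e e1 (h2 e3)).1 hz.symm, (e e1 (h2 e3)).2⟩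

end fam

/-- scalars are determined by their action on a non-zero vector -/
theorem tendsto_scalar {α E : Type*} [NormedAddCommGroup E] [NormedSpace ℂ E] {l : Filter α}
    [l.NeBot] {c : α → ℂ} {v : α → E} {a b : E} (hv : Tendsto v l (𝓝 a)) (ha : a ≠ 0)
    (h : Tendsto (fun q => c q • v q) l (𝓝 b)) (hb : b ≠ 0) : ∃ t ≠ 0, Tendsto c l (𝓝 t) := by
  obtain ⟨f, hf⟩ := SeparatingDual.exists_ne_zero (R := ℂ) ha
  have k := (f.continuous.tendsto _).comp hv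
  have h6 : Tendsto c l (𝓝 (f b / f a)) := by
    refine (((f.continuous.tendsto _).comp h).div k hf).congr' ?_
    filter_upwards [k.eventually_ne hf] with q e
    simp only [Pi.div_apply, comp_apply, map_smul, smul_eq_mul] at e ⊢
    exact mul_div_cancel_right₀ _ e
  refine ⟨_, fun e => hb ?_, h6⟩
  rw [tendsto_nhds_unique h (h6.smul hv), e, zero_smul]

theorem exists_tendsto_of_properSMul {G X α : Type*} [Group G] [MulAction G X] [TopologicalSpace G]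
    [TopologicalSpace X] [ProperSMul G X] {U : Ultrafilter α} {g : α → G} {z : α → X} {x y : X}
    (h1 : Tendsto (fun q => g q • z q) U (𝓝 x)) (h2 : Tendsto z U (𝓝 y)) :
    ∃ g₀, Tendsto g U (𝓝 g₀) :=
  let ⟨g₀, _, h⟩ := (properSMul_iff_continuousSMul_ultrafilter_tendsto.1 ‹_›).2
    (U.map fun q => (g q, z q)) x y (h1.prodMk_nhds h2)
  ⟨g₀, h⟩

namespace Ch

variable {S Λ R J K ν κ ι : Type} [Fintype S] [Fintype Λ] [Fintype R] [Fintype J] [Fintype K]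
  [Fintype ν] [Fintype κ] [Fintype ι] [DecidableEq ι] {ch : Ch ι J}

section act

variable {F : Wt S Λ R J} {Z O : Set (ch.WF ν κ Λ)} {s t : ch.AU ν κ S} {x : ch.WC ν κ Λ}

theorem isUnitU_iff : IsUnit s ↔ IsUnit s.1 ∧ ∀ i, s.2 i ≠ 0 := by
  rw [Prod.isUnit_iff, isUnit_pi_iff]

theorem finrank_AU : finrank ℂ (ch.AU ν κ S) = finrank ℂ (ch.AF ν κ S) + Fintype.card ι := by
  have : Module.Free ℂ (ch.AF ν κ S) := Module.Free.of_divisionRing _ _
  rw [finrank_prod, finrank_fintype_fun_eq_card]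

theorem actC_fst : (actC F s x).1 = actF F s.1 x.1 := rfl

theorem actC_snd : (actC F s x).2 = s.2 • fun i => s.1.2.1 i (x.2 i) := rfl

theorem actC_one (x : ch.WC ν κ Λ) : actC F 1 x = x :=
  Prod.ext (actF_one _) (funext fun _ => one_smul _ _)

theorem actC_mul (s t : ch.AU ν κ S) (x : ch.WC ν κ Λ) :
    actC F (s * t) x = actC F s (actC F t x) :=
  Prod.ext (actF_mul _ _ _) (funext fun i => (mul_smul _ _ _).trans
    (congrArg (s.2 i • ·) (map_smul (s.1.2.1 i) _ _).symm))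

theorem an_actC {P : Type*} [NormedAddCommGroup P] [NormedSpace ℂ P] {s : P → ch.AU ν κ S}
    {x : P → ch.WC ν κ Λ} {q : P} (hs : AnalyticAt ℂ s q) (hx : AnalyticAt ℂ x q)
    (h : ∀ i, (s q).1.1 i ≠ 0) : AnalyticAt ℂ (fun y => actC F (s y) (x y)) q :=
  (an_actF (analyticAt_fst.comp hs) (analyticAt_fst.comp hx) h).prod
    (an_smul (analyticAt_snd.comp hs) (analyticAt_pi_iff.2 fun i =>
      an_apply (analyticAt_pi_iff.1 (analyticAt_fst.comp (analyticAt_snd.comp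
        (analyticAt_fst.comp hs))) i) (analyticAt_pi_iff.1 (analyticAt_snd.comp hx) i)))

theorem actC_mem_crv (hs : IsUnit s) (hx : x.2 ∈ crv x.1.2) :
    (actC F s x).2 ∈ crv (actC F s x).1.2 :=
  crv_smul ((mem_crv_actF (isUnitU_iff.1 hs).1).2 ⟨_, hx, rfl⟩) (isUnitU_iff.1 hs).2

theorem ivt_unv (h : Ivt (actF F) Z) : Ivt (actC F) (unv Z) := fun _ hs _ hx =>
  ⟨h _ (isUnitU_iff.1 hs).1 _ hx.1, actC_mem_crv hs hx.2⟩

theorem isActC_of {Y : Set (ch.WC ν κ Λ)} (h : Ivt (actC F) Y) : IsAct (actC F) Y :=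
  ⟨fun x _ => actC_one x, fun a b _ _ x _ => actC_mul a b x, h,
    fun _ ha _ _ => an_actC analyticAt_fst analyticAt_snd (ne_S (isUnitU_iff.1 ha).1)⟩

instance isActC_univ : IsAct (actC F) (univ : Set (ch.WC ν κ Λ)) :=
  isActC_of fun _ _ _ _ => trivial

instance isActC_unv [h : IsAct (actF F) Z] : IsAct (actC F) (unv Z) := isActC_of (ivt_unv h.mem)

theorem unv_mono (h : Z ⊆ O) : unv Z ⊆ unv O := fun _ hx => ⟨h hx.1, hx.2⟩

theorem unv_inter (U : Set (ch.WF ν κ Λ)) : unv (Z ∩ U) = unv Z ∩ Prod.fst ⁻¹' U :=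
  Set.ext fun _ => ⟨fun h => ⟨⟨h.1.1, h.2⟩, h.1.2⟩, fun h => ⟨⟨h.1.1, h.2⟩, h.1.2⟩⟩

theorem unv_opn (h : ∃ U, IsOpen U ∧ O = Z ∩ U) : ∃ U, IsOpen U ∧ unv O = unv Z ∩ U :=
  let ⟨U, a, b⟩ := h
  ⟨_, a.preimage continuous_fst, b ▸ unv_inter U⟩

theorem unv_eq_tot : unv Z = tot Z fun x => crv x.2 := rfl

theorem fre_actC (hx : x.2 ∈ crv x.1.2) (h : Fre (actF F) x.1) : Fre (actC F) x := fun a ha e => by
  have e1 := h _ (isUnitU_iff.1 ha).1 (congrArg Prod.fst e)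
  refine Prod.ext e1 (funext fun i => ?_)
  have e2 := congrFun (congrArg Prod.snd e) i
  rw [actC_snd, e1] at e2
  exact smul_left_injective ℂ (crv_ne hx i) (e2.trans (one_smul _ _).symm)

/-- the group homomorphism to the group of the chart -/
noncomputable def θU : (ch.AU ν κ S)ˣ →* (ch.AF ν κ S)ˣ := Units.map (MonoidHom.fst _ _)

theorem continuous_θU : Continuous (θU : (ch.AU ν κ S)ˣ → (ch.AF ν κ S)ˣ) :=
  Continuous.units_map _ continuous_fst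

theorem prC_mk (x : unv Z) : prC F Z (Quo.mk _ x) = Quo.mk _ ⟨x.1.1, x.2.1⟩ := rfl

theorem continuous_prC : Continuous (prC F Z) :=
  continuous_quot_lift _ (continuous_quot_mk.comp
    ((continuous_fst.comp continuous_subtype_val).subtype_mk _))

theorem prC_incl (h : Z ⊆ O) (z : Quo (actC F) (unv Z)) :
    prC F O (Quo.incl _ (unv_mono h) z) = Quo.incl _ h (prC F Z z) := by
  obtain ⟨z, rfl⟩ := Quot.mk_surjective z
  rfl

variable (hZ : ∀ x ∈ Z, x.2 ∈ ch.base (Mk ν κ))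

theorem secC_mk (n : Mk ν κ) (x : Z) : secC F hZ n (Quo.mk _ x) =
    Quo.mk _ (⟨(x.1, x.1.2.p n), x.2, ((hZ _ x.2).2.2.2.1 n).1⟩ : unv Z) := rfl

theorem prC_secC (n : Mk ν κ) (z : Quo (actF F) Z) : prC F Z (secC F hZ n z) = z := by
  obtain ⟨z, rfl⟩ := Quot.mk_surjective z
  rfl

theorem continuous_secC (n : Mk ν κ) : Continuous (secC F hZ n) := by
  have h : Continuous fun x : Z => x.1.2.p n := (continuous_iff_continuousAt.2 fun y =>
    (W.an_p (analyticAt_id (z := y)) n).continuousAt).comp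
      (continuous_snd.comp continuous_subtype_val)
  exact continuous_quot_lift _ (continuous_quot_mk.comp
    ((continuous_subtype_val.prodMk h).subtype_mk _))

theorem isClosedEmbedding_secC [T2Space (Quo (actC F) (unv Z))] (n : Mk ν κ) :
    IsClosedEmbedding (secC F hZ n) :=
  LeftInverse.isClosedEmbedding (prC_secC hZ n) continuous_prC (continuous_secC hZ n)

theorem secC_incl (hO : ∀ x ∈ O, x.2 ∈ ch.base (Mk ν κ)) (h : Z ⊆ O) (n : Mk ν κ)
    (z : Quo (actF F) Z) :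
    secC F hO n (Quo.incl _ h z) = Quo.incl _ (unv_mono h) (secC F hZ n z) := by
  obtain ⟨z, rfl⟩ := Quot.mk_surjective z
  rfl

theorem mk_mem_range_secC [IsAct (actF F) Z] (n : Mk ν κ) (x : unv Z) :
    Quo.mk _ x ∈ range (secC F hZ n) ↔ ∃ t : ι → ℂ, x.1.2 = t • x.1.1.2.p n := by
  refine ⟨fun ⟨z, hz⟩ => ?_, fun ⟨t, ht⟩ => ⟨Quo.mk _ ⟨x.1.1, x.2.1⟩, Quot.sound ⟨(1, t),
    isUnitU_iff.2 ⟨isUnit_one, ne_of_smul_ne (ht ▸ crv_ne x.2.2)⟩,
    Prod.ext (actF_one _).symm ht⟩⟩⟩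
  obtain ⟨z, rfl⟩ := Quot.mk_surjective z
  obtain ⟨g, hg⟩ := (Holo.Sp.mk_eq_iff (act := actC F) (S := unv Z)).1 hz
  have e := congrArg Holo.Sp.val hg
  obtain rfl : x = ⟨_, (g • _ : Holo.Sp (actC F) (unv Z)).val_mem⟩ := Subtype.ext e.symm
  have a := (Cv.isUnit_iff.1 (isUnit_dupF (isUnitU_iff.1 g.isUnit).1)).2.2 n
  refine ⟨(g : ch.AU ν κ S).2 * ((dup (g : ch.AU ν κ S).1.2).2.2 n)⁻¹, ?_⟩
  rw [mul_smul]
  exact congrArg ((g : ch.AU ν κ S).2 • ·) (inv_smul_smul' a _).symm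

theorem disjoint_secC [IsAct (actF F) Z] {n n' : Mk ν κ} (h : n ≠ n') :
    Disjoint (range (secC F hZ n)) (range (secC F hZ n')) := by
  refine disjoint_left.2 ?_
  rintro _ ⟨z, rfl⟩ e
  obtain ⟨z, rfl⟩ := Quot.mk_surjective z
  obtain ⟨t, ht⟩ := (mk_mem_range_secC hZ n' _).1 e
  exact h ((hZ _ z.2).2.2.2.2.1 _ _ _ ht)

variable (hc : ch.Cuts)
include hc hZ

theorem Cuts.locFamF (x : Z) : LocFam ch.o (fun y : Z => crv y.1.2) Subtype.val x :=
  hc.cut.elim fun _ hl => locFam_of_hol (x := fun y : Z => y.1.2) hl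
    (.of_forall fun _ => continuous_subtype_val.continuousAt) (HolAt.of_an analyticAt_snd)
    (.of_forall fun y => hZ _ y.2)

theorem Cuts.isOpen_not_crv :
    IsOpen {x : Z × V ch.M | (∀ i, x.2 i ≠ 0) ∧ x.2 ∉ crv x.1.1.2} :=
  isOpen_iff_mem_nhds.2 fun y hy => (continuous_snd.continuousAt.eventually
    (Base.eventually_ne hy.1)).and ((hc.locFamF hZ y.1).usc _ hy.1 hy.2)

theorem Cuts.isLocallyClosed_crv : IsLocallyClosed {x : Z × V ch.M | x.2 ∈ crv x.1.1.2} :=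
  ⟨{x | ∀ i, x.2 i ≠ 0}, _, isOpen_iff_mem_nhds.2 fun _ hy =>
    continuous_snd.continuousAt.eventually (Base.eventually_ne hy),
    (hc.isOpen_not_crv hZ).isClosed_compl, Set.ext fun _ =>
      ⟨fun h => ⟨crv_ne h, fun h' => h'.2 h⟩, fun h => by_contra fun h' => h.2 ⟨h.1, h'⟩⟩⟩

theorem Cuts.locallyCompact_unv [LocallyCompactSpace Z] : LocallyCompactSpace (unv Z) := by
  have := FiniteDimensional.proper ℂ (V ch.M)
  have := (hc.isLocallyClosed_crv hZ).locallyCompactSpace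
  exact (Homeomorph.mk ⟨fun x : unv Z => (⟨(⟨x.1.1, x.2.1⟩, x.1.2), x.2.2⟩ :
    {x : Z × V ch.M | x.2 ∈ crv x.1.1.2}), fun x => ⟨(x.1.1.1, x.1.2), x.1.1.2, x.2⟩,
    fun _ => rfl, fun _ => rfl⟩ (by fun_prop) (by fun_prop)).isClosedEmbedding.locallyCompactSpace

theorem Cuts.isLocallyClosed_unv (h : IsLocallyClosed Z) : IsLocallyClosed (unv Z) := by
  have := (hc.isLocallyClosed_crv hZ).image (f := Prod.map Subtype.val id)
    (IsInducing.subtypeVal.prodMap .id) (by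
      rw [range_prodMap, Subtype.range_coe, range_id, prod_univ]
      exact h.preimage continuous_fst)
  refine (congrArg IsLocallyClosed (Set.ext fun x => ?_)).mp this
  exact ⟨by
    rintro ⟨y, hy, rfl⟩
    exact ⟨y.1.2, hy⟩, fun hx => ⟨(⟨_, hx.1⟩, x.2), hx.2, rfl⟩⟩

omit hc hZ in
theorem properSMul_unv [IsAct (actF F) Z] [ProperSMul (ch.AF ν κ S)ˣ (Holo.Sp (actF F) Z)] :
    ProperSMul (ch.AU ν κ S)ˣ (Holo.Sp (actC F) (unv Z)) := by
  have : T2Space (Holo.Sp (actC F) (unv Z)) := Holo.Sp.isEmbedding_val.t2Space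
  refine properSMul_iff_continuousSMul_ultrafilter_tendsto_t2.2 ⟨inferInstance, fun U x y h => ?_⟩
  let p : Holo.Sp (actC F) (unv Z) → Holo.Sp (actF F) Z := fun z =>
    Holo.Sp.of _ z.val.1 z.val_mem.1
  have hp : Continuous p := (continuous_fst.comp Holo.Sp.continuous_val).subtype_mk _
  have h1 := (continuousAt_fst (p := (x, y))).tendsto.comp h
  have h2 := (continuousAt_snd (p := (x, y))).tendsto.comp h
  have e1 : ∀ (g : (ch.AU ν κ S)ˣ) z, p (g • z) = θU g • p z := fun _ _ => rfl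
  obtain ⟨g, hg⟩ := exists_tendsto_of_properSMul (g := fun q => θU q.1)
    (((hp.tendsto _).comp h1).congr fun q => e1 q.1 q.2) ((hp.tendsto _).comp h2)
  have h3 : Tendsto (fun q : (ch.AU ν κ S)ˣ × Holo.Sp (actC F) (unv Z) => (q.1 : ch.AU ν κ S).1) U
      (𝓝 g) := (Units.continuous_val.tendsto _).comp hg
  have h4 : Continuous fun z : Holo.Sp (actC F) (unv Z) => z.val.2 :=
    continuous_snd.comp Holo.Sp.continuous_val
  have h5 := fun i => tendsto_scalar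
    (c := fun q : (ch.AU ν κ S)ˣ × Holo.Sp (actC F) (unv Z) => (q.1 : ch.AU ν κ S).2 i)
    (((isBoundedBilinearMap_apply (𝕜 := ℂ)).continuous.tendsto (_, _)).comp
      (((((continuous_apply i).comp (continuous_fst.comp continuous_snd)).tendsto _).comp
        h3).prodMk_nhds ((((continuous_apply i).comp h4).tendsto _).comp h2)))
    (crv_ne ((mem_crv_actF (F := F) g.isUnit).2 ⟨_, y.val_mem.2, rfl⟩) i)
    ((((continuous_apply i).comp h4).tendsto _).comp h1) (crv_ne x.val_mem.2 i)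
  choose t ht h5 using h5
  have h7 : IsUnit ((g, t) : ch.AU ν κ S) := isUnitU_iff.2 ⟨g.isUnit, ht⟩
  exact ⟨h7.unit, Units.isOpenEmbedding_val.isEmbedding.tendsto_nhds_iff.2
    (h3.prodMk_nhds (tendsto_pi_nhds.2 h5))⟩

theorem Cuts.orb_unv [IsAct (actF F) Z] (ho : Orb.Orb (ch.AF ν κ S)ˣ (Holo.Sp (actF F) Z)) :
    Orb.Orb (ch.AU ν κ S)ˣ (Holo.Sp (actC F) (unv Z)) :=
  haveI := ho.proper
  haveI : LocallyCompactSpace Z := ho.nice.lc
  haveI := hc.locallyCompact_unv hZ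
  haveI := properSMul_unv (F := F) (Z := Z)
  prp_of_properSMul.orb

theorem Cuts.isPr_prC [IsAct (actF F) Z] (ho : Orb.Orb (ch.AF ν κ S)ˣ (Holo.Sp (actF F) Z)) :
    IsPr (prC F Z) := by
  have := nice_of_orb ho
  have := ho.nice
  refine ⟨continuous_prC, fun K hK => ?_⟩
  obtain ⟨L, hL, hKL⟩ := exists_isCompact_lift (Holo.Sp.isOpenQuotientMap_mk (act := actF F) (S := Z)) hK
  have h0 : ∀ {c : V ch.M}, (∀ i, ‖c i‖ = 1) → ∀ i, c i ≠ 0 := fun h i e => by simpa [e] using h i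
  have h1 : IsCompact {x : unv Z | Holo.Sp.of (actF F) x.1.1 x.2.1 ∈ L ∧ ∀ i, ‖x.1.2 i‖ = 1} := by
    refine IsInducing.subtypeVal.isCompact_iff.2 ?_
    have := ((hL.prod (isCompact_sph (M := ch.M))).diff (hc.isOpen_not_crv hZ)).image
      (f := Prod.map Subtype.val id) (continuous_subtype_val.prodMap continuous_id)
    refine (congrArg IsCompact (Set.ext fun x => ?_)).mp this
    exact ⟨by
      rintro ⟨y, hy, rfl⟩
      exact ⟨⟨(y.1.1, y.2), y.1.2, by_contra fun h => hy.2 ⟨h0 hy.1.2, h⟩⟩, hy.1, rfl⟩, by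
      rintro ⟨y, hy, rfl⟩
      exact ⟨(⟨_, y.2.1⟩, y.1.2), ⟨hy, fun h => h.2 y.2.2⟩, rfl⟩⟩
  refine (h1.image continuous_quot_mk).of_isClosed_subset (hK.isClosed.preimage continuous_prC)
    fun x hx => ?_
  obtain ⟨x, rfl⟩ := Quot.mk_surjective x
  obtain ⟨t, ht, e⟩ := hKL hx
  obtain ⟨s, hs⟩ := Holo.Sp.mk_eq_iff.1 e.symm
  have n0 : ∀ i, ((‖(s : ch.AF ν κ S).2.1 i (x.1.2 i)‖ : ℝ) : ℂ) ≠ 0 := fun i =>
    Complex.ofReal_ne_zero.2 (norm_ne_zero_iff.2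
      (crv_ne ((mem_crv_actF (F := F) s.isUnit).2 ⟨_, x.2.2, rfl⟩) i))
  have u : IsUnit ((s, fun i => ((‖(s : ch.AF ν κ S).2.1 i (x.1.2 i)‖ : ℝ) : ℂ)⁻¹) : ch.AU ν κ S) :=
    isUnitU_iff.2 ⟨s.isUnit, fun i => inv_ne_zero (n0 i)⟩
  refine ⟨⟨_, IsAct.mem (act := actC F) _ u _ x.2⟩, ⟨(congrArg (· ∈ L) hs).mpr ht, fun i => ?_⟩,
    (Quot.sound ⟨_, u, rfl⟩).symm⟩
  change ‖_ • _‖ = 1
  rw [norm_smul, norm_inv, Complex.norm_real, norm_norm]
  exact inv_mul_cancel₀ (Complex.ofReal_ne_zero.1 (n0 i))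

theorem Cuts.closure_unv {D : Set (ch.WF ν κ Λ)} (hD : D ⊆ Z) (h : Z ⊆ closure D) :
    unv Z ⊆ closure (unv D) := fun x hx => mem_closure_iff_nhds.2 fun U hU => by
  obtain ⟨A, hA, B, hB, e⟩ := mem_nhds_prod_iff.1 hU
  have k : ∀ᶠ y in 𝓝 x.1, y ∈ Z → ∃ c ∈ crv y.2, c ∈ B :=
    (ev_sub (p := fun y : ch.WF ν κ Λ => ∃ c ∈ crv y.2, c ∈ B) hx.1).1
      (LocFam.lsc (hc.locFamF hZ ⟨_, hx.1⟩) hx.2 hB)
  obtain ⟨y, a, b⟩ := mem_closure_iff_nhds.1 (h hx.1) _ (inter_mem hA k)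
  obtain ⟨c, h1, h2⟩ := a.2 (hD b)
  exact ⟨(y, c), e (mk_mem_prod a.1 h2), b, h1⟩

end act

/-- Near `x` the set `T` is cut out by conditions on the parameters and the fields only. -/
def Ver (B : Set (Λ → ℂ)) (T : Set (ch.WF ν κ Λ)) : Prop :=
  T ⊆ ch.baseF ν κ B ∧ ∀ x ∈ T, ∀ᶠ y in 𝓝 x, y ∈ ch.baseF ν κ B → y.1 = x.1 → y.2.X = x.2.X → y ∈ T

section mfd

variable {B : Set (Λ → ℂ)} {T O : Set (ch.WF ν κ Λ)} {F : Wt S Λ R J} {d : ℕ}

theorem Ver.base (h : Ver B T) : ∀ x ∈ T, x.2 ∈ ch.base (Mk ν κ) := fun _ hx => (h.1 hx).2.1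

theorem Ver.opn (h : Ver B T) (ho : ∃ U, IsOpen U ∧ O = T ∩ U) : Ver B O := by
  obtain ⟨U, a, rfl⟩ := ho
  exact ⟨inter_subset_left.trans h.1, fun x hx => ((h.2 x hx.1).and (a.mem_nhds hx.2)).mono
    fun y e e1 e2 e3 => ⟨e.1 e1 e2 e3, e.2⟩⟩

theorem ver_baseF : Ver B (ch.baseF ν κ B) := ⟨subset_rfl, fun _ _ => .of_forall fun _ h _ _ => h⟩

theorem ver_adm {F : Fam S Λ R J K} (h : F.Abs) : Ver F.B (ch.adm ν κ F) :=
  ⟨fun _ hx => hx.1, fun x hx => .of_forall fun y h1 _ h2 => by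
    have z : ∀ j ∉ F.mov, y.2.X j = 0 := fun j hj => h2 ▸ hx.2.2.2.1 j (h.1 hj)
    have p := fun n => (h1.2.1.2.2.2.1 n).1
    exact ⟨h1, fun j hj c _ => ⟨0, fun u _ μ => by simp [z j hj]⟩, fun _ _ => h.2 ▸ trivial,
      fun j hj => h2 ▸ hx.2.2.2.1 j hj,
      fun j hj q => by rw [fld_of_zero (p _) (z j hj), fld_of_zero (p _) (z j hj)]⟩⟩

/-- **The universal curve is smooth.** -/
theorem Num₀.mfdAt_unv (h : Num₀ ch) (hT : Ver B T) {x : ch.WC ν κ Λ} (hx : x ∈ unv T) {N : ℕ}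
    (hm : MfdAt T N x.1) : MfdAt (unv T) (N + Fintype.card ι + 1) x := by
  have hf := h.cuts.locFamF hT.base ⟨_, hx.1⟩
  by_cases hn : IsNode ch.o (crv x.1.2) x.2
  · obtain ⟨τ, h1, h2⟩ := h.exists_tauF hT.1 hx.1 (hT.2 _ hx.1) (c := fun _ : Unit => x.2)
      (fun _ => hn) fun _ _ _ => rfl
    obtain ⟨γ, h3, -, h4⟩ := h2 1
    exact NdAt.mfdAt_tot (C := fun y : ch.WF ν κ Λ => crv y.2) hx.1 hf (h1 ()) h3
      ((h4 ()).trans_ne one_ne_zero) hm
  · exact SmAt.mfdAt_tot (C := fun y : ch.WF ν κ Λ => crv y.2) hx.1 hf (hf.smAt hx.2 hn) hm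

theorem Num₀.mf_unv (h : Num₀ ch) (hT : Ver B T) (hm : KD.Mf (ch.AF ν κ S) T d) :
    KD.Mf (ch.AU ν κ S) (unv T) (d + 1) := fun x hx => by
  have := h.mfdAt_unv hT hx (hm _ hx.1)
  rwa [add_right_comm _ d, ← finrank_AU, add_assoc] at this

theorem Num₀.str_unv (h : Num₀ ch) (hT : Ver B T) (hs : Str (actF F) T d) :
    Str (actC F) (unv T) (d + 1) :=
  ⟨ivt_unv hs.inv, fun x => (h.mf_unv hT (fun y hy => ⟨hy, hs.mfd ⟨y, hy⟩⟩) _ x.2).isMfd _,
    (h.cuts.closure_unv hT.base (fun _ a => a.1) hs.free).trans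
      (closure_mono fun _ a => ⟨⟨a.1.1, a.2⟩, fre_actC a.2 a.1.2⟩)⟩

theorem _root_.Vale.Agent.P269.Str.cyc_self {A W : Type} [NormedRing A] [NormedAlgebra ℂ A]
    [NormedAddCommGroup W] [NormedSpace ℂ W] [FiniteDimensional ℂ W] {act : A → W → W} {O : Set W}
    (h : Str act O d) (hl : IsLocallyClosed O) : Cyc act O O d :=
  ⟨⟨h, hl, subset_rfl, ⟨univ, isOpen_univ, (inter_univ _).symm⟩, sdiff_self (s := O) ▸ dimLt_empty _⟩,
    subset_closure⟩

theorem Num₀.cyc_unv (h : Num₀ ch) (hT : Ver B T) (hs : Cyc (actF F) T T d) :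
    Cyc (actC F) (unv T) (unv T) (d + 1) :=
  (h.str_unv hT hs.toStr).cyc_self (h.cuts.isLocallyClosed_unv hT.base hs.lc)

end mfd

end Ch

end Vale.Agent.P269
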