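import Vale.Agent.P269.Fg.Pt
import Vale.Agent.P269.Bas.Supp

/-!
# Forgetting a marked point: the map on points
-/

set_option linter.unusedSectionVars false

namespace Vale.Agent.P269

open P291Z Set Function Topology Filter Cv

variable {S Λ R J K ν κ ν' κ' : Type} [Fintype S] [Fintype Λ] [Fintype R] [Fintype J] [Fintype K]
  [Fintype ν] [Fintype κ] [Fintype ν'] [Fintype κ']

namespace Ch

variable {ι : Type} [Fintype ι] [DecidableEq ι] {ch : Ch ι J} {W : Wt S Λ R J}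
  {Z : Set (ch.WF ν κ Λ)} {ℓ : R → ι → ℤ}

theorem actC_one₀ (x : ch.WC ν κ Λ) : actC W 1 x = x :=
  Prod.ext (actF_one _) (funext fun i => one_smul ℂ (x.2 i))

theorem actC_mul₀ (s t : ch.AU ν κ S) (x : ch.WC ν κ Λ) :
    actC W (s * t) x = actC W s (actC W t x) :=
  Prod.ext (actF_mul _ _ _) (funext fun i => by
    show (s.2 i * t.2 i) • s.1.2.1 i (t.1.2.1 i (x.2 i)) =
      s.2 i • s.1.2.1 i (t.2 i • t.1.2.1 i (x.2 i))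
    rw [map_smul, mul_smul])

theorem mkC_exact {Y : Set (ch.WC ν κ Λ)} {x x' : Y} :
    Quo.mk (actC W) x = Quo.mk (actC W) x' ↔ ∃ a, IsUnit a ∧ x'.1 = actC W a x.1 :=
  Quot.eq.trans (Equivalence.eqvGen_iff ⟨fun _ => ⟨1, isUnit_one, (actC_one₀ _).symm⟩,
    fun ⟨_, ⟨u, rfl⟩, e⟩ => ⟨_, u⁻¹.isUnit, by rw [e, ← actC_mul₀, u.inv_mul, actC_one₀]⟩,
    fun ⟨_, a, e⟩ ⟨_, b, e'⟩ => ⟨_, b.mul a, by rw [e', e, actC_mul₀]⟩⟩)

theorem RepD.mkC_eq_iff (hl : ch.Lat W ℓ) (hc : ∀ l, ch.a l ≠ 0) (ht : ch.Tight) {x x₂ : Z}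
    {m m₂ : AM Λ R J ν κ} {B B₂ π π₂ u u₂ s s₂} (h : RepD ℓ univ x.1 m B π u s)
    (h₂ : RepD ℓ univ x₂.1 m₂ B₂ π₂ u₂ s₂) {z z₂} :
    Quo.mk (actC W) (⟨(x.1, π z), x.2, h.cr.par.mem z⟩ : unv Z) =
      Quo.mk (actC W) (⟨(x₂.1, π₂ z₂), x₂.2, h₂.cr.par.mem z₂⟩ : unv Z) ↔
    ∃ f t τ, AM.IsoD W univ m m₂ f t τ ∧ (f z = z₂ ∨ Jn m₂.N (f z) z₂) := by
  rw [mkC_exact]
  constructor
  · rintro ⟨a, ha, e⟩
    have a1 := (Prod.isUnit_iff.1 ha).1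
    have b := h.actF (W := W) a1
    rw [← show x₂.1 = Ch.actF W a.1 x.1 from congrArg Prod.fst e] at b
    obtain ⟨f, c, k, c0, d⟩ := b.isoD hl.wd h₂
    refine ⟨f, _, a.1.1, ⟨d.liso, isUnit_S a1, d.node, d.mark, d.mem, d.ne, d.mt,
      d.l.trans (W.actL_one _), fun j hj y => (d.y j hj y).trans (by
        simp [Wt.actT, AM.vl, AM.scl, mul_left_comm, mul_assoc])⟩,
      h₂.cr.par.inj _ _ (a.2 * (c z)⁻¹) ?_⟩
    exact (congrArg Prod.snd e).trans ((congrArg (a.2 • ·) (Dict.inv_smul (c0 z) _).symm).trans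
      ((mul_smul _ _ _).symm.trans (congrArg _ (k z).symm)))
  · rintro ⟨f, t, τ, b, hz⟩
    have u1 : IsUnit ((τ, 1) : ch.AF ν κ S) := Prod.isUnit_iff.2 ⟨b.unit, isUnit_one⟩
    obtain ⟨_, c, _, _, c0, -, d₂⟩ := h₂.of_isoD (m := m.scl W τ) (e := f) (t := t) hl
      ⟨b.liso, isUnit_one, b.node, b.mark, b.mem, b.ne, b.mt, b.l.trans (W.actL_one _).symm,
        fun j hj y => (b.y j hj y).trans (by
          simp [Wt.actT, AM.vl, AM.scl, mul_left_comm, mul_assoc])⟩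
    obtain ⟨a, a0, a2, -, -, a1⟩ := (h.actF (W := W) u1).exists_unit hl hc ht d₂
    rw [actF_snd, dup_one, act_one] at a1
    have k : π₂ z₂ = π₂ (f z) := hz.elim (fun e => e ▸ rfl) fun e =>
      e.elim (fun e => (node_eq h₂.cr.par.sec e).symm) fun e => node_eq h₂.cr.par.sec e
    refine ⟨((τ, a), (c z)⁻¹), Prod.isUnit_iff.2 ⟨Prod.isUnit_iff.2 ⟨b.unit, a0⟩,
      isUnit_pi_iff.2 fun i => inv_ne_zero (c0 z i)⟩, Prod.ext (Prod.ext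
        (d₂.l.trans (congrArg (W.actL τ) h.l.symm)) (Ch.W.ext (congrFun a1.1) (congrFun a1.2.1)
          a1.2.2.1 fun j => a1.2.2.2 j trivial)) (k.trans (funext fun i => ?_))⟩
    exact ((congrArg ((c z i)⁻¹ • ·) (a2 z i)).trans (inv_smul_smul₀ (c0 z i) _)).symm

end Ch

namespace Fam

variable {F : Fam S Λ R J K} [DecidableEq R] {k D D' : ℕ} {g : ℤ} {d : R → ℤ}

theorem sel_un {u : ν → J → ℕ} (q : Ch.Mk ν κ) : F.Sel k g d u (AM.Un F.θ q) :=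
  Sel.of_same fun _ _ h => h.un

theorem Abs.mem_cyc (hA : F.Abs) (hF : F.Inv) {ι : Type} [Fintype ι] [DecidableEq ι] {ch : Ch ι J}
    {x : ch.WF ν κ Λ} : x ∈ ch.cyc κ F (0 : ν → J → ℕ) ↔
      x ∈ ch.baseF ν κ F.B ∧ ∀ j ∉ F.mov, x.2.X j = 0 := by
  refine ⟨fun h => ⟨h.2, fun j hj => closure_minimal (t := {x : ch.WF ν κ Λ | x.2.X j = 0})
    (fun y b => b.1.2.2.2.1 j (hA.1 hj)) (isClosed_eq ?_ continuous_const) h.1⟩, fun ⟨a, b⟩ =>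
      ⟨subset_closure ⟨⟨a, fun j hj c _ => ⟨0, fun u _ μ => by simp [b j hj]⟩,
        fun _ _ => hA.2 ▸ mem_univ _, fun j hj => b j (disjoint_left.1 hF.zer_base hj),
        fun j hj q => ?_⟩, fun j c e => (e (hA.1 c)).elim⟩, a⟩⟩
  · exact (continuous_apply j).comp
      (continuous_snd.comp (continuous_snd.comp (continuous_snd.comp continuous_snd)))
  · rw [Ch.fld_of_zero (a.2.1.2.2.2.1 _).1 (b j hj), Ch.fld_of_zero (a.2.1.2.2.2.1 _).1 (b j hj)]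

theorem Abs.sol_subset (hA : F.Abs) (hF : F.Inv) {ι : Type} [Fintype ι] [DecidableEq ι]
    {ch : Ch ι J} : ch.solF ν κ F ⊆ ch.cyc κ F (0 : ν → J → ℕ) := fun x h =>
  (hA.mem_cyc hF).2 ⟨h.1, fun j hj => by
    obtain ⟨X, _, _, _, Q, N, A, π, u, p, ξ, a⟩ := exists_cr h.2.1
    obtain ⟨s, b, c⟩ := a.mem_sol.1 h.2
    refine a.ind_zero.1 ((show s j = 0 from funext fun y => ?_) ▸ b j)
    simpa using (c y 1 fun _ => one_ne_zero).1.2.2 j (hA.1 hj)⟩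

theorem Abs.Z0_eq (hA : F.Abs) (hF : F.Inv) :
    F.Z0 ν κ k D g d = (F.sch ν κ k D g d).solF ν κ F := inter_eq_left.2 (hA.sol_subset hF)

/-- The field `pt` of `Fgt`. -/
def FgPt (e : Option (Ch.Mk ν κ) ≃ Ch.Mk ν' κ')
    (Φ : F.ModC ν κ k D g d → F.Mod κ' k D' g d (0 : ν' → J → ℕ)) : Prop :=
  ∀ (x : F.Z0 ν κ k D g d) m B π u s (h : Ch.RepD ℓs univ x.1 m B π u s) z
    (x' : F.Z0 ν' κ' k D' g d) m' j r, AM.Fg e m z m' j r → Ch.Rep ℓs univ x'.1 m' →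
    Φ (Quo.mk _ ⟨(x.1, π z), x.2, h.cr.par.mem z⟩) = Quo.mk _ x'

theorem Abs.exists_Z0 (hA : F.Abs) (hF : F.Inv) (hk : F.Big k) (hD : F.BigD k D)
    {m : AM Λ R J ν κ} (hs : m.Sol F) (hb : m.Stable F.θ) (ht : m.Typ g d) :
    ∃ x : F.Z0 ν κ k D g d, Ch.Rep ℓs univ x.1 m :=
  let ⟨x, a, b⟩ := exists_rep hF hk hD hs hb ht
  ⟨⟨x, a, hA.sol_subset hF a⟩, b⟩

theorem Z0_sol (hF : F.Inv) {x : F.Z0 ν κ k D g d} {m} (h : Ch.Rep ℓs univ x.1 m) : m.Sol F :=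
  (h.mem_solF (Z0_base _ x.2) hF chart_wd').1 x.2.1

theorem Z0_eq_iff (hD : F.BigD k D) {x x' : F.Z0 ν κ k D g d} {m m'} (h : Ch.Rep ℓs univ x.1 m)
    (h' : Ch.Rep ℓs univ x'.1 m') :
    (Quo.mk _ x : F.Mod κ k D g d (0 : ν → J → ℕ)) = Quo.mk _ x' ↔ AM.Iso F.toWt univ m m' :=
  Ch.mk_eq_iff_iso (chart_lat hD) (chart_cuts hD).ne chart_tight Z0_base h h'

variable [IsEmpty κ] [IsEmpty κ'] {e : Option (Ch.Mk ν κ) ≃ Ch.Mk ν' κ'}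

/-- every point of the universal curve comes from a point of an abstract map -/
theorem exists_mkC (hD : F.BigD k D) (y : F.ModC ν κ k D g d) :
    ∃ (x : F.Z0 ν κ k D g d) (m : _) (B : _) (π : _) (u : _) (s : _)
      (h : Ch.RepD ℓs univ x.1 m B π u s) (z : m.X),
      y = Quo.mk _ (⟨(x.1, π z), x.2, h.cr.par.mem z⟩ : Ch.unv (F.Z0 ν κ k D g d)) := by
  obtain ⟨⟨⟨x, c⟩, hx, hc⟩, rfl⟩ := Quot.exists_rep y
  obtain ⟨m, a⟩ := (chart_lat hD).exists_rep_sol hx.1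
  obtain ⟨B, π, u, s, h⟩ := a.exists_data (Z0_base _ hx)
  obtain ⟨z, t, ht, rfl⟩ := h.mem_crv.1 hc
  refine ⟨⟨x, hx⟩, m, B, π, u, s, h, z, Eq.symm (Quot.sound ⟨(1, t),
    Prod.isUnit_iff.2 ⟨isUnit_one, isUnit_pi_iff.2 ht⟩, ?_⟩)⟩
  exact Prod.ext (Ch.actF_one _).symm rfl

/-- **the points of the universal curve** are the isomorphism classes of maps with a point -/
theorem mkC_eq_iff (hD : F.BigD k D) {x x₂ : F.Z0 ν κ k D g d} {m m₂ B B₂ π π₂ u u₂ s s₂}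
    (h : Ch.RepD ℓs univ x.1 m B π u s) (h₂ : Ch.RepD ℓs univ x₂.1 m₂ B₂ π₂ u₂ s₂) {z z₂} :
    (Quo.mk _ (⟨(x.1, π z), x.2, h.cr.par.mem z⟩ : Ch.unv (F.Z0 ν κ k D g d)) : F.ModC ν κ k D g d) =
      Quo.mk _ (⟨(x₂.1, π₂ z₂), x₂.2, h₂.cr.par.mem z₂⟩ : Ch.unv (F.Z0 ν κ k D g d)) ↔
    ∃ f t τ, AM.IsoD F.toWt univ m m₂ f t τ ∧ (f z = z₂ ∨ Jn m₂.N (f z) z₂) :=
  h.mkC_eq_iff (chart_lat hD) (chart_cuts hD).ne chart_tight h₂

theorem exists_fg (e : Option (Ch.Mk ν κ) ≃ Ch.Mk ν' κ') (hF : F.Good) (hA : F.Abs) (hk : F.Big k)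
    (hD : F.BigD k D) (hD' : F.BigD k D') {x : F.Z0 ν κ k D g d} {m} (h : Ch.Rep ℓs univ x.1 m)
    (z : m.X) : ∃ (x' : F.Z0 ν' κ' k D' g d) (m' : _) (j : _) (r : _),
      AM.Fg e m z m' j r ∧ Ch.Rep ℓs univ x'.1 m' :=
  let ⟨m', j, r, a⟩ := AM.exists_fg_up e m z
  let ⟨x', b⟩ := hA.exists_Z0 hF.toInv hk hD' (a.sol.2 (Z0_sol hF.toInv h))
    (a.stable (rep_stable hD h (Z0_base _ x.2))) (a.typ.2 (rep_typ h (Z0_base _ x.2)))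
  ⟨x', m', j, r, a, b⟩

/-- **the map on points** -/
theorem exists_fgPt (e : Option (Ch.Mk ν κ) ≃ Ch.Mk ν' κ') (hF : F.Good) (hA : F.Abs) (hk : F.Big k)
    (hD : F.BigD k D) (hD' : F.BigD k D') :
    ∃ Φ : F.ModC ν κ k D g d → F.Mod κ' k D' g d (0 : ν' → J → ℕ), FgPt e Φ := by
  choose x m B π u s h z hy using exists_mkC (ν := ν) (κ := κ) (g := g) (d := d) hD
  choose x' m' j r a b using fun y => exists_fg e hF hA hk hD hD' (h y).rep (z y)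
  refine ⟨fun y => Quo.mk _ (x' y), fun x₂ m₂ _ _ _ _ h₂ z₂ x₂' m₂' _ _ a₂ b₂ => ?_⟩
  obtain ⟨f, t, τ, c, o⟩ := (mkC_eq_iff hD (h _) h₂).1 (hy _).symm
  obtain ⟨_, l, -⟩ := (a _).isoD_up a₂ c o fun i _ => (Z0_sol hF.toInv h₂.rep).2.1 i
  exact (Z0_eq_iff hD' (b _) b₂).2 l.iso

variable {Φ Φ' : F.ModC ν κ k D g d → F.Mod κ' k D' g d (0 : ν' → J → ℕ)} (h : FgPt e Φ)
  (hF : F.Good) (hA : F.Abs) (hk : F.Big k) (hD : F.BigD k D) (hD' : F.BigD k D')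
include h hF hA hk hD hD'

theorem FgPt.unique (h' : FgPt e Φ') : Φ = Φ' := funext fun y => by
  obtain ⟨x, m, B, π, u, s, a, z, rfl⟩ := exists_mkC hD y
  obtain ⟨x', m', j, r, b, c⟩ := exists_fg e hF hA hk hD hD' a.rep z
  exact (h _ _ _ _ _ _ a z _ _ _ _ b c).trans (h' _ _ _ _ _ _ a z _ _ _ _ b c).symm

theorem FgPt.injective : Injective Φ := fun y y₂ f => by
  obtain ⟨x, m, B, π, u, s, a, z, rfl⟩ := exists_mkC hD y
  obtain ⟨x₂, m₂, B₂, π₂, u₂, s₂, a₂, z₂, rfl⟩ := exists_mkC hD y₂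
  obtain ⟨x', m', j, r, b, c⟩ := exists_fg e hF hA hk hD hD' a.rep z
  obtain ⟨x₂', m₂', j₂, r₂, b₂, c₂⟩ := exists_fg e hF hA hk hD hD' a₂.rep z₂
  rw [h _ _ _ _ _ _ a z _ _ _ _ b c, h _ _ _ _ _ _ a₂ z₂ _ _ _ _ b₂ c₂] at f
  obtain ⟨f', t, τ, l⟩ := AM.iso_iff.1 ((Z0_eq_iff hD' c c₂).1 f)
  obtain ⟨_, o, p, -⟩ := b.isoD_down b₂ (rep_stable hD a.rep (Z0_base _ x.2))
    (rep_stable hD a₂.rep (Z0_base _ x₂.2)) l
  exact (mkC_eq_iff hD a a₂).2 ⟨_, _, _, o, p⟩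

theorem FgPt.range : range Φ = (F.sel (AM.Un F.θ (e none)))ᶜ := Set.ext fun y' => by
  constructor
  · rintro ⟨y, rfl⟩
    obtain ⟨x, m, B, π, u, s, a, z, rfl⟩ := exists_mkC hD y
    obtain ⟨x', m', j, r, b, c⟩ := exists_fg e hF hA hk hD hD' a.rep z
    rw [h _ _ _ _ _ _ a z _ _ _ _ b c]
    exact mt (mem_sel (AM.ivt_un _) c).1 (b.not_un (rep_stable hD a.rep (Z0_base _ x.2)))
  · intro a
    obtain ⟨x', m', rfl, b⟩ := exists_mk hD' y'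
    have c := Z0_sol hF.toInv b
    obtain ⟨m, z, m'', j, r, f, l, o⟩ := AM.exists_fg_down (e := e) hF c
      (rep_stable hD' b (Z0_base _ x'.2)) (mt (mem_sel (AM.ivt_un _) b).2 a)
    have c' := l.symm.sol hF.toInv c
    have t' := l.symm.typ (rep_typ b (Z0_base _ x'.2))
    obtain ⟨x, p⟩ := hA.exists_Z0 hF.toInv hk hD (f.sol.1 c') o (f.typ.1 t')
    obtain ⟨B, π, u, s, q⟩ := p.exists_data (Z0_base _ x.2)
    obtain ⟨x'', v⟩ := hA.exists_Z0 hF.toInv hk hD' c' (f.stable o) t'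
    exact ⟨_, (h _ _ _ _ _ _ q z _ _ _ _ f v).trans ((Z0_eq_iff hD' v b).2 l)⟩

theorem FgPt.clopen : IsClopen (Set.range Φ) := by
  rw [h.range hF hA hk hD hD']
  exact (isClopen_sel_of_same hD' fun _ _ a => a.un).compl

end Fam

end Vale.Agent.P269
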