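import Vale.Agent.P269.Fg.Jc
import Vale.Agent.P269.Fg.PtB
import Vale.Agent.P269.Qrr.Nod
import Vale.Agent.P269.Map.E5

/-!
# Smooth domains for the absolute theory and its universal curve
-/

set_option linter.unusedSectionVars false

namespace Vale.Agent.P269

open P291Z Set Function Topology Filter Cv Holo Module

variable {S Λ R J K ι ν κ : Type} [Fintype S] [Fintype Λ] [Fintype R] [Fintype J] [Fintype K]
  [Fintype ι] [DecidableEq ι] [Fintype ν] [Fintype κ] [DecidableEq R]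

namespace Ch

variable {ch : Ch ι J} {F : Fam S Λ R J K} {e : K → ι → ℕ} {K₀ : Set K} {ℓ : R → ι → ℤ} {b d n r : ℕ}
  {U O : Set (ch.WF ν κ Λ)}

theorem abs_cyc (hA : F.Abs) (hF : F.Inv) : ch.cyc κ F (0 : ν → J → ℕ) = ch.adm ν κ F ∧
    ch.main κ F (0 : ν → J → ℕ) = ch.adm ν κ F := by
  have a : ch.main κ F (0 : ν → J → ℕ) = ch.adm ν κ F :=
    Subset.antisymm (fun _ h => h.1) fun _ h => ⟨h, fun j c e => (e (hA.1 c)).elim⟩
  refine ⟨Subset.antisymm (fun x h => ?_) fun x h => ⟨subset_closure (a.ge h), h.1⟩, a⟩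
  obtain ⟨h1, h2⟩ := (hA.mem_cyc hF).1 h
  exact ⟨h1, fun j hj c _ => ⟨0, fun u _ μ => by simp [h2 j hj]⟩, fun _ _ => hA.2 ▸ mem_univ _,
    fun j hj => h2 j (disjoint_left.1 hF.zer_base hj), fun j hj q => by
      rw [fld_of_zero (h1.2.1.2.2.2.1 _).1 (h2 j hj), fld_of_zero (h1.2.1.2.2.2.1 _).1 (h2 j hj)]⟩

theorem abs_gr (hA : F.Abs) (hF : F.Inv) (h : Num₀ ch) :
    Gr ch F (0 : ν → J → ℕ) (Empty.elim : Empty → J) 0 1 where
  zer := hF.zer_base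
  free i := i.elim
  li := by
    refine linearIndependent_unique_iff.2 fun a => h.chi ?_
    have : ch.χ = 0 := a
    simp [this]
  neg _ i := i.elim
  an _ _ _ := ⟨analyticAt_const, one_ne_zero⟩
  wd j a c := (c (hA.1 a)).elim
  ord j a c := (c (hA.1 a)).elim
  E _ _ _ _ _ := ⟨fun _ j a c => (c (hA.1 a)).elim, fun _ => hA.2 ▸ mem_univ _⟩

variable (F e) in
/-- `O` is a smooth domain of dimension `d` for the absolute theory. -/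
structure Dmn (O : Set (ch.WF ν κ Λ)) (d n r : ℕ) : Prop where
  num : Num₀ ch
  gd : (ch.kd ν κ F e).Gd (actF F.toWt) (Z0 F ch ν κ) O n r
  opn : ∃ U, IsOpen U ∧ O = ch.cyc κ F (0 : ν → J → ℕ) ∩ U
  inv : Ivt (actF F.toWt) (ch.cyc κ F (0 : ν → J → ℕ))
  ver : Ver F.B O
  str : Str (actF F.toWt) O d

namespace Dmn

variable (h : Dmn F e O d n r)
include h

theorem gdC : (ch.kdC ν κ F e).Gd (actC F.toWt) (unv (Z0 F ch ν κ)) (unv O) n r :=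
  h.num.cuts.gd_unv h.ver.base h.gd

theorem strC : Str (actC F.toWt) (unv O) (d + 1) := h.num.str_unv h.ver h.str

theorem mf : KD.Mf (ch.AF ν κ S) O d := fun x hx => ⟨hx, h.str.mfd ⟨x, hx⟩⟩

theorem mfC : KD.Mf (ch.AU ν κ S) (unv O) (d + 1) := h.num.mf_unv h.ver h.mf

theorem isW : (ch.kd ν κ F e).IsW (actF F.toWt) (Z0 F ch ν κ) (ch.cyc κ F (0 : ν → J → ℕ)) d
    (virF F e _) :=
  let ⟨_, _, a, _⟩ := (h.gd.dom' h.opn).exists_isKP h.gd.ok subset_rfl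
  KD.IsV.isW (Dom.isV_virF (h.gd.dom' h.opn) a h.inv (h.gd.isFund_fu h.mf)) h.gd h.opn h.str

theorem isWC : (ch.kdC ν κ F e).IsW (actC F.toWt) (unv (Z0 F ch ν κ))
    (unv (ch.cyc κ F (0 : ν → J → ℕ))) (d + 1) (virC F e _) :=
  (Classical.epsilon_spec ⟨_, h.gdC.isV (unv_opn h.opn) (h.gdC.isFund_fu h.mfC)⟩ :
    (ch.kdC ν κ F e).IsV _ _ _ (virC F e _)).isW h.gdC (unv_opn h.opn) h.strC

theorem virF_eq : virF F e _ = (ch.kd ν κ F e).vr (actF F.toWt) (Z0 F ch ν κ) O (h.gd.fu d) :=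
  h.isW.eq_vr h.gd h.opn h.mf

theorem virC_eq : virC F e _ = (ch.kdC ν κ F e).vr (actC F.toWt) (unv (Z0 F ch ν κ)) (unv O)
    (h.gdC.fu (d + 1)) := h.isWC.eq_vr h.gdC (unv_opn h.opn) h.mfC

theorem reg : (ch.kd ν κ F e).Reg (actF F.toWt) (Z0 F ch ν κ) (ch.cyc κ F (0 : ν → J → ℕ)) O n r :=
  ⟨h.gd.dom.sub, h.opn, h.gd.ivt, h.gd.lc, h.gd.dom.zero, h.gd.ok⟩

theorem regC : (ch.kdC ν κ F e).Reg (actC F.toWt) (unv (Z0 F ch ν κ))
    (unv (ch.cyc κ F (0 : ν → J → ℕ))) (unv O) n r :=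
  ⟨h.gdC.dom.sub, unv_opn h.opn, h.gdC.ivt, h.gdC.lc, h.gdC.dom.zero, h.gdC.ok⟩

end Dmn

theorem Ok.exists_dm (h : ch.Ok F e K₀ ℓ b U) (hA : F.Abs) :
    ∃ (O : Set (ch.WF ν κ Λ)) (d n r : ℕ), O ⊆ U ∧ Dmn F e O d n r := by
  obtain ⟨a, a'⟩ := abs_cyc (ch := ch) (ν := ν) (κ := κ) hA h.inv
  have L := lev_cyc (ν := ν) (κ := κ) h.inv h.cuts 0
  have m : ∀ x ∈ ch.cyc κ F (0 : ν → J → ℕ), MfdAt (ch.cyc κ F (0 : ν → J → ℕ))
      (ch.dimM ν κ F b (Fintype.card Empty)).toNat x := by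
    rw [a, ← a']
    exact fun x hx => (h.num.mfd_main h.sm (abs_gr hA h.inv h.num) hx).2
  have l : IsLocallyClosed (ch.cyc κ F (0 : ν → J → ℕ)) :=
    isLocallyClosed_of_mfd fun x => ⟨_, (m x x.2).2⟩
  have D := h.toStd.dom_lev h.pr L l
  obtain ⟨n, g⟩ := h.toStd.reg' a.le L.inv l
  obtain ⟨V, hV, eV⟩ := D.opn
  have s := h.pr.str L m
  have c : ch.cyc κ F (0 : ν → J → ℕ) ∩ U ∩ ch.dom ν κ F e = ch.cyc κ F (0 : ν → J → ℕ) ∩ U ∩ V :=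
    Subset.antisymm (fun x hx => ⟨hx.1, (eV.le hx).2⟩) fun x hx => eV.ge ⟨hx.1.1, hx.2⟩
  refine ⟨_, _, n, _, fun x hx => hx.1.2, h.num, ⟨D.self, g.ok.mono fun x hx => ⟨hx.1.1, hx.2⟩⟩,
    D.opn, L.inv, Ver.opn (a ▸ ver_adm hA) D.opn, c ▸ s.inter hV fun a ha x hx => ?_⟩
  exact c.le (D.isAct.mem a ha x (c.ge hx))

end Ch

end Vale.Agent.P269
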