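import Vale.Agent.P269.Qrr.Stm

/-!
# Integrals over the universal curve with a selector: the statements
-/

namespace Vale.Agent.P269

open P291Z Set Function Topology Filter

/-- Integrals over the universal curve, with selectors that correspond under forgetting. -/
def St.UcS : Prop :=
  ∀ {Λ R J K : Type} [Fintype Λ] [Fintype R] [Fintype J] [Fintype K] [DecidableEq R]
    (F : Fam Empty Λ R J K) (k : ℕ) (Θ) (d : R → ℤ) (j : ℤ) {n : ℕ} (f : Fin n → ℕ × H (F.X F.cone))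
    (r : ℕ) (c : H (F.X F.cone)) (P : AM Λ R J (Fin n ⊕ Fin 0) (Fin 0) → Prop)
    (P' : AM Λ R J (Fin (n + 1) ⊕ Fin 0) (Fin 0) → Prop), F.One k → c ∈ Ch.Hev _ →
    F.Sel k (j + 1) d 0 P → F.Sel k (j + 1) d 0 P' →
    (∀ m', m'.Sol F → m'.Stable F.θ → m'.Typ (j + 1) d → P' m' → ¬m'.Un F.θ (mk0 0)) →
    (∀ e m z m' i q, e none = mk0 0 → AM.Fg e m z m' i q → m.Sol F → m.Stable F.θ →
      m.Typ (j + 1) d → (P' m' ↔ P m)) → ∀ᶠ D in atTop,
    F.intg (Ch.pshC F (F.tdeg (F.sch (Fin n ⊕ Fin 0) (Fin 0) k D (j + 1) d))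
      (F.cy0 (Fin n ⊕ Fin 0) (Fin 0) k D (j + 1) d) (((k : ℂ)⁻¹ •
        Ch.oC _ _ (F.sch (Fin n ⊕ Fin 0) (Fin 0) k D (j + 1) d).χ) ^ r * Ch.eC F _ c)) P
      (F.fsF _ Θ f) = F.corP k P' Θ d j (Fin.cons (r, c) f) -
      if r = 0 then ∑ s, if (f s).1 = 0 then 0 else
        F.corP k P Θ d j (update f s ((f s).1 - 1, c * (f s).2)) else 0

/-- Integration of a class of degree two of the target along the fibres of the universal curve. -/
def St.FbI : Prop :=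
  ∀ {R J K ν : Type} [Fintype R] [Fintype J] [Fintype K] [Fintype ν] [DecidableEq R]
    (F : Fam Empty Empty R J K) (k : ℕ) (g : ℤ) (d : R → ℤ) (β : BM (F.X F.cone))
    (γ : H (F.X F.cone)), F.Tg → F.One k → H.IsDeg 2 γ → ∀ᶠ D in atTop,
    cap (hcls (ind (F.sel fun m => m.Conn ∧ m.cls F.toWt F.cone = β)))
      (Ch.pshC F (F.tdeg (F.sch ν (Fin 0) k D g d)) (F.cy0 ν (Fin 0) k D g d) (Ch.eC F _ γ)) =
    ev β (rep γ) • cap (hcls (ind (F.sel fun m => m.Conn ∧ m.cls F.toWt F.cone = β)))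
      (F.vir (Fin 0) k D g d (0 : ν → J → ℕ))

end Vale.Agent.P269
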