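import Vale.Agent.P269.Fg.Jc
import Vale.Agent.P269.Fg.Pt

/-!
# The joint chart: the joint embedding of a curve and of its contraction
-/

set_option linter.unusedSectionVars false

namespace Vale.Agent.P269

open P291Z Set Function Topology Filter Cv Ch Jc

namespace FgL

section cv

variable {X X' : Type} [TopologicalSpace X] [TopologicalSpace X'] [T2Space X] [CompactSpace X]
  [T2Space X'] [CompactSpace X'] {ν : Type} [Fintype ν] {R : RS X} {R' : RS X'}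
  {N : Finset (X × X)} {N' : Finset (X' × X')} {p : ν → X} {p' : Option ν → X'} {c : X}
  {j : X → X'} {r : X' → X} {L L' B : LB R}

theorem eqv_up (h : Ctr R R' N N' p p' c j r) (e : Eqv L L') : Eqv (h.up L) (h.up L') := by
  rw [Eqv, ← map_div]
  exact (h.mem_up.2 ⟨1, e.mem0, rfl⟩).1

theorem eqv_div {B' : LB R} (e : Eqv L L') (e' : Eqv B B') : Eqv (L / B) (L' / B') := by
  simpa only [zpow_neg_one, ← div_eq_mul_inv] using e.mul (e'.zpow (-1))

theorem near_eqv (e : Eqv L L') {k n : ℕ} (h : Near L' B k n) : Near L B k n :=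
  ⟨fun U a b => by simpa only [degOn_div, degOn_mul, e.degOn] using h.1 U a b,
    fun U a b => by simpa only [degOn_div, degOn_mul, e.degOn] using h.2 U a b⟩

theorem bz_elim {α β : Type} [Fintype α] [Fintype β] (A : α → LB R) (A' : β → LB R) (a : α → ℤ)
    (a' : β → ℤ) : bz (Sum.elim A A') (Sum.elim a a') = bz A a * bz A' a' :=
  Fintype.prod_sum_type _

theorem bz_up (h : Ctr R R' N N' p p' c j r) {α : Type} [Fintype α] (A : α → LB R) (a : α → ℤ) :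
    bz (fun i => h.up (A i)) a = h.up (bz A a) := by
  simp only [bz, map_prod, map_zpow]

theorem ord_pow {s : X → ℂ} {x : X} (h : L.Sec s x) (n : ℕ) :
    (L ^ n).ord (s ^ n) x = n * L.ord s x := by
  induction n with
  | zero => simpa using (LB.ord_eq_zero (h.pow 0)).2 one_ne_zero
  | succ n ih => rw [pow_succ, pow_succ, LB.ord_mul (h.pow n) h, ih, Nat.cast_succ, add_one_mul]

theorem ge_sq (h : Ge B 1) (N : Finset (X × X)) (P : Finset X) : Ge (omega R N P * B ^ 2) 0 := by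
  refine (ge_iff_comp le_rfl).2 fun x => ?_
  have a := (exists_comp (R := R) x).1
  have := (degOn_K_ge (R := R) a isConnected_connectedComponent).1
  have := degOn_K_le_omega (R := R) N P (connectedComponent x)
  have := h _ a ⟨x, mem_connectedComponent⟩
  simp only [degOn_mul, degOn_pow]
  omega

theorem par_cone {ι : Type} [Fintype ι] {M : ι → ℕ} {o : ι} {C : Set (V M)} {A : ι → LB R}
    {π : X → V M} (h : Par o C N A π) : Par o (cone π) N A π :=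
  ⟨h.nd, h.sec, h.ne, fun _ => Iff.rfl, h.inj, h.imm, h.cross⟩

end cv

variable {S Λ R J K ν κ ν' κ' : Type} [Fintype S] [Fintype Λ] [Fintype R] [Fintype J] [Fintype K]
  [Fintype ν] [Fintype κ] [Fintype ν'] [Fintype κ'] [DecidableEq R]

theorem sg_pow [IsEmpty κ] (c : AC ν κ) (k : ℕ) : c.sg ^ k = 1 := by
  rw [show c.sg = 1 from funext fun _ => by simp [AC.sg], one_pow]

section std

variable {F : Fam S Λ R J K} {k D : ℕ} {g : ℤ} {d : R → ℤ} {ch : Ch (Option R) J}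
  (e : ch = F.sch ν κ k D g d) (hD : F.BigD k D) {m : AM Λ R J ν κ}
include e hD

theorem std_of {x : ch.WF ν κ Λ} {B π u s} (h : RepD ℓs univ x m B π u s) :
    m.Stable F.θ ∧ m.Typ g d ∧ ∀ o, Eqv (B o) (stdA ((m.ω * bz m.L F.θ) ^ k) m.L o) := by
  subst e
  exact ⟨Fam.rep_stable hD h.rep h.cr.mem, Fam.rep_typ h.rep h.cr.mem, Fam.repD_eqv hD h⟩

theorem exists_std (hk : F.Big k) (hs : m.Sol F) (hb : m.Stable F.θ) (ht : m.Typ g d) :
    ∃ (x : ch.WF ν κ Λ) (B π u : _), RepD ℓs univ x m B π u 1 := by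
  subst e
  obtain ⟨x, π, u, h⟩ := Fam.exists_repD hk hD hs hb ht (s := 1) fun _ _ => one_ne_zero
  exact ⟨x, _, π, u, h⟩

end std

variable [IsEmpty κ] [IsEmpty κ'] {c : Jc J R} {W : Wt S Λ R J} {e : Option (Mk ν κ) ≃ Mk ν' κ'}
  {m : AM Λ R J ν κ} {m' : AM Λ R J ν' κ'} {z : m.X} {j : m.X → m'.X} {r : m'.X → m.X}
  {x₁ : c.D₁.ch.WF ν' κ' Λ} {B₁ : Option R → LB m'.R} {π₁ : m'.X → V c.D₁.ch.M} {u₁ s₁}
  {x₂ : c.D₂.ch.WF ν κ Λ} {B₂ : Option R → LB m.R} {π₂ : m.X → V c.D₂.ch.M} {u₂ s₂}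

/-- the bundles of the joint embedding -/
noncomputable def jB (f : AM.Fg e m z m' j r) (B₁ : Option R → LB m'.R) (B₂ : Option R → LB m.R) :
    O2 R → LB m'.R := Sum.elim B₁ fun i => f.ctr.up (B₂ i)

/-- the joint embedding -/
def jπ {X X' : Type} (π₁ : X' → V c.D₁.ch.M) (π₂ : X → V c.D₂.ch.M) (r : X' → X) (y : X') :
    V c.ch.M := Sum.rec (motive := fun i => Fin (c.ch.M i) → ℂ) (π₁ y) (π₂ (r y))

variable (c) in
/-- the abstract map of the joint chart -/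
@[reducible] noncomputable def jm (m' : AM Λ R J ν' κ') (B : O2 R → LB m'.R) (l : m'.X → ℂ) :
    AM Λ (R3 R) (J3 J R) ν' κ' :=
  ⟨m'.toAC, fun r => bz B (c.ℓ r), m'.l,
    Sum.elim (Sum.elim m'.y m'.y) (Sum.elim (fun o => o.elim l 1) 0)⟩

variable (f : AM.Fg e m z m' j r)

theorem bz_jB (a a' : Option R → ℤ) :
    bz (jB f B₁ B₂) (Sum.elim a a') = bz B₁ a * f.ctr.up (bz B₂ a') := by
  rw [jB, bz_elim, bz_up]

theorem bz_jB_div (a a' : Option R → ℤ) :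
    bz (jB f B₁ B₂) (Sum.elim a (-a')) = bz B₁ a / f.ctr.up (bz B₂ a') := by
  rw [bz_jB, ← zero_sub, bz_sub, bz_zero, map_div, map_one, mul_one_div]

variable (H₁ : RepD ℓs univ x₁ m' B₁ π₁ u₁ s₁) (H₂ : RepD ℓs univ x₂ m B₂ π₂ u₂ s₂)
include H₁ H₂

theorem full : Full m'.N (jB f B₁ B₂) (jπ π₁ π₂ r) := by
  refine ⟨fun
    | .inl i => H₁.cr.full.sec i
    | .inr i => fun a => f.ctr.mem_up.2 ⟨_, H₂.cr.full.sec i a, rfl⟩, fun
    | .inl i => H₁.cr.full.span i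
    | .inr i => fun s hs => ?_⟩
  obtain ⟨t, a, rfl⟩ := f.ctr.mem_up.1 hs
  exact (H₂.cr.full.span i t a).imp fun l b y => b (r y)

theorem deg_jB : (fun i => deg (jB f B₁ B₂ i)) = c.ch.m := funext fun
  | .inl i => H₁.cr.deg_eq i
  | .inr i => f.ctr.deg_up.trans (H₂.cr.deg_eq i)

omit H₁ H₂ in
theorem ge_up (θ : R → ℤ) : Ge (m'.ω * bz m'.L θ / f.ctr.up (m.ω * bz m.L θ)) 0 := fun U p _ => by
  rw [degOn_div, f.degOn_ω p, f.ctr.degOn_up p]
  split_ifs <;> omega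

theorem curve {F : Fam S Λ R J K} (ho : c.ch.o = .inl none) {k : ℕ} (hk : F.Big k) (hs : m.Sol F)
    (hb : m.Stable F.θ) (e₁ : ∀ o, Eqv (B₁ o) (stdA ((m'.ω * bz m'.L F.θ) ^ k) m'.L o))
    (e₂ : ∀ o, Eqv (B₂ o) (stdA ((m.ω * bz m.L F.θ) ^ k) m.L o)) :
    Par c.ch.o (cone (jπ π₁ π₂ r)) m'.N (jB f B₁ B₂) (jπ π₁ π₂ r) ∧
      IsCurve c.ch.o c.ch.g c.ch.m (cone (jπ π₁ π₂ r)) := by
  obtain ⟨θ₀, n, ha, hn⟩ := hk
  have hs' : m'.Sol F := f.sol.2 hs
  have hb' : m'.Stable F.θ := f.stable hb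
  obtain ⟨a, b⟩ := near_of_ample ha hs.2.1 hs.2.2 AC.degOn_ω hb k
  obtain ⟨a', b'⟩ := near_of_ample ha hs'.2.1 hs'.2.2 AC.degOn_ω hb' k
  have g : gen m'.R m'.N = c.ch.g := H₁.cr.gen_eq
  have n₁ : ∀ i, Near (jB f B₁ B₂ (.inl i)) (m'.ω * bz m'.L F.θ) k n := fun i =>
    near_eqv (e₁ i) (b' i)
  rw [ho, ← g, ← deg_jB f H₁ H₂]
  refine f.ctr.isCurve (full f H₁ H₂) hb a hb' a' (ge_up f _) (k := fun _ => k) (n := n)
    (fun _ => by omega) (n₁ _) ?_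
  rintro (i | i)
  exacts [.inl (n₁ i), .inr ⟨_, rfl, near_eqv (e₂ i) (b i)⟩]

theorem eqv_lk (h : c.Ok W) : Eqv (bz (jB f B₁ B₂) (c.ch.wd (lk none)))
    ((m'.ω / m'.R.pt (m'.p (e none)) / f.ctr.up m.ω * m'.R.pt (m'.p (e none))) ^ c.ch.k) := by
  rw [h.wd, bz_jB_div, div_right_comm, div_mul_cancel, div_pow, ← map_pow]
  exact eqv_div H₁.crep.eqv (eqv_up f.ctr H₂.crep.eqv)

theorem one_mem (h : c.Ok W) (a : R) :
    (1 : m'.X → ℂ) ∈ H0 m'.N (bz (jB f B₁ B₂) (c.ch.wd (lk (some a)))) := by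
  rw [h.wd, bz_jB_div]
  exact ((H₁.L a).trans (f.L a ▸ (eqv_up f.ctr (H₂.L a)).symm)).mem0

end FgL

end Vale.Agent.P269
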