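import Vale.Agent.P269.Fg.Hol
import Vale.Agent.P269.Fg.LiftA

/-!
# The joint chart: every point of the universal curve lifts
-/

set_option linter.unusedSectionVars false

namespace Vale.Agent.P269

open P291Z Set Function Topology Filter Cv Ch MvPolynomial Jc Holo

variable {S Λ R J K K' ν κ ν' κ' : Type} [Fintype S] [Fintype Λ] [Fintype R] [Fintype J] [Fintype K]
  [Fintype K'] [Fintype ν] [Fintype κ] [Fintype ν'] [Fintype κ'] [DecidableEq R]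

namespace FgL

variable [IsEmpty κ] [IsEmpty κ'] {c : Jc J R} {W : Wt S Λ R J} {F : Fam S Λ R J K}
  {e : Option (Mk ν κ) ≃ Mk ν' κ'} {m : AM Λ R J ν κ} {m' : AM Λ R J ν' κ'} {z : m.X}
  {j : m.X → m'.X} {r : m'.X → m.X} {x : c.ch.WF ν' κ' Λ} {l : m'.X → ℂ}

theorem gd_of (h : c.Ok W) {A : Set (J3 J R)} {m₀ : AM Λ (R3 R) (J3 J R) ν' κ'} {B₀ π₀ u₀ s₀}
    (h₀ : RepD c.ℓ A x m₀ B₀ π₀ u₀ s₀) (hg : ∀ U, IsClopen U →
      (degOn (B₀ (.inr none)) U = 0 → U.Nonempty → ¬m₀.Sat U ∧ m₀.p (e none) ∈ U ∧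
        degOn m₀.ω U = 1 ∧ ∀ i, degOn (B₀ (.inr i)) U = 0) ∧
      (degOn (B₀ (.inr none)) U ≠ 0 → 3 ≤ degOn (B₀ (.inr none)) U ∧
        degOn m₀.ω U + 3 ≤ degOn (B₀ (.inr none)) U ∧
          1 ≤ degOn (B₀ (.inr none)) U + degOn m₀.ω U)) : c.Gd e x := fun m B π u s H V hV => by
  obtain ⟨r, z, z₀, -, -, a⟩ := h₀.exists_spec h.num.cuts finite_empty
  obtain ⟨w, -, k, -⟩ := a.self_of_nhds ∅ m B π u s H
  obtain ⟨V₀, d1, -, d2, d3, d4, d5⟩ := k V hV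
  obtain ⟨a1, a2⟩ := hg V₀ d1
  simp only [d2, d3, (SpecP.deg_eq h.k_ne H h₀ d3).1]
  exact ⟨fun a3 a4 => (a1 a3 (d4 a4)).imp_left (mt d5), a2⟩

section fld

variable {B : O2 R → LB m'.R} {π u s} (h : c.Ok F.toWt) (hF : F.Inv)
  (H : RepD c.ℓ univ x (jm c m' B l) B π u s)
include h hF H

theorem sol (hA : F.Abs) (hs : m'.Sol F) : (jm c m' B l).Sol F.j3 :=
  ⟨hs.1, fun _ => H.sec h.lat.wd trivial, fun y => (Fam.cone_j3 hF hA).2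
    ⟨hs.2.2 y, fun _ => one_ne_zero, fun _ => by simp [AM.vl], fun _ => rfl⟩⟩

theorem main (hs : (jm c m' B l).Sol F.j3) (h0 : ∀ y ≠ m'.p (e none), l y ≠ 0)
    (h1 : (bz B (c.ch.wd (lk none))).ord l (m'.p (e none)) = c.ch.k) :
    x ∈ c.ch.main κ' F.j3 (c.ord e) := by
  have mt : ∀ a ∉ F.j3.mov, (jm c m' B l).Mt ((jm c m' B l).y a) := fun _ _ q => isEmptyElim q
  have ad : x ∈ c.ch.adm ν' κ' F.j3 := (H.mem_adm (Fam.inv_j3 hF) h.lat.wd (subset_univ _)).2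
    ⟨hs.1, fun _ => trivial, fun a ha => funext fun y => (hs.2.2 y).2.1.2.2 a ha, mt⟩
  refine (H.mem_main h.lat.wd (subset_univ _) ad).2 ⟨mt, fun a h2 h3 => ?_⟩
  obtain ⟨o, rfl⟩ : a ∈ range lk := (not_not.1 h3).resolve_left h2
  have sec := fun y => (H.cr.ind_mem (H.ind (lk o) trivial)).1 y
  simp only [← (H.eqv_wd (W := F.j3.toWt) h.lat.wd _).ord, Jc.ord]
  rcases o with _ | o
  · refine ⟨fun n => ?_, fun y hy => h0 y (e_none e ▸ hy _)⟩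
    split_ifs with a
    · rw [a.1, ← e_none]
      exact h1
    · exact (LB.ord_eq_zero (sec _)).2 (h0 _ fun b =>
        a ⟨Sum.inl_injective ((m'.inj b).trans (e_none e)), rfl⟩)
  · refine ⟨fun n => ?_, fun _ _ => one_ne_zero⟩
    rw [if_neg (by simp)]
    exact (LB.ord_eq_zero (sec _)).2 one_ne_zero

end fld

variable {x₁ : c.D₁.ch.WF ν' κ' Λ} {B₁ : Option R → LB m'.R} {π₁ : m'.X → V c.D₁.ch.M} {u₁ s₁}
  {x₂ : c.D₂.ch.WF ν κ Λ} {B₂ : Option R → LB m.R} {π₂ : m.X → V c.D₂.ch.M} {u₂ s₂}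
  (f : AM.Fg e m z m' j r)

theorem gd {θ : R → ℤ} {k : ℕ} (hk : 20 ≤ k) (hb : m.Stable θ) (h0 : ∀ U, 0 ≤ degOn (bz m.L θ) U)
    (q : Eqv (B₂ none) (stdA ((m.ω * bz m.L θ) ^ k) m.L none)) (U : Set m'.X) (hU : IsClopen U) :
    (degOn (jB f B₁ B₂ (.inr none)) U = 0 → U.Nonempty → ¬m'.Sat U ∧ m'.p (e none) ∈ U ∧
      degOn m'.ω U = 1 ∧ ∀ i, degOn (jB f B₁ B₂ (.inr i)) U = 0) ∧
    (degOn (jB f B₁ B₂ (.inr none)) U ≠ 0 → 3 ≤ degOn (jB f B₁ B₂ (.inr none)) U ∧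
      degOn m'.ω U + 3 ≤ degOn (jB f B₁ B₂ (.inr none)) U ∧
        1 ≤ degOn (jB f B₁ B₂ (.inr none)) U + degOn m'.ω U) := by
  have a : ∀ i, degOn (jB f B₁ B₂ (.inr i)) U = degOn (B₂ i) (j ⁻¹' U) := fun i =>
    f.ctr.degOn_up hU
  have w := f.degOn_ω (θ := 0) hU
  rw [bz_zero, bz_zero, mul_one, mul_one] at w
  have V := hU.preimage f.ctr.liso.cont
  rcases (j ⁻¹' U).eq_empty_or_nonempty with d | d
  · simp only [a, w, d, degOn_empty]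
    refine ⟨fun _ ⟨y, hy⟩ => ?_, fun b => (b rfl).elim⟩
    have o : y ∉ range j := fun ⟨v, b⟩ => d.le (show j v ∈ U from b ▸ hy)
    have sub : (range j)ᶜ ⊆ U := (f.ctr.conn_out o).isPreconnected.subset_isClopen hU ⟨y, o, hy⟩
    have ns : ¬Surjective j := fun b => o (b y)
    obtain ⟨v, q1, -, -, -, q2, -⟩ := f.ctr.bubble ns
    have t := sub (f.ctr.of_not_surj ns).2
    exact ⟨fun s => d.le (s.2 v (sub q1) _ q2.symm), t, by rw [if_pos t, add_zero], fun _ => trivial⟩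
  · have d1 := hb _ V d
    have d2 := h0 (j ⁻¹' U)
    have d3 := ge_sq hb m.N m.P _ V d
    have d4 := mul_le_mul_of_nonneg_right (Int.ofNat_le.2 hk) (zero_le_one.trans d1)
    rw [a, w, q.degOn, stdA, Option.elim_none, mul_one, degOn_pow]
    rw [degOn_mul, degOn_pow, ← AC.degOn_ω] at d3
    have d5 := degOn_mul m.ω (bz m.L θ) (j ⁻¹' U)
    split_ifs <;> omega

variable (H₂ : RepD ℓs univ x₂ m B₂ π₂ u₂ s₂) (h : c.Ok W)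
include H₂ h

theorem exists_pt (H₁ : RepD ℓs univ x₁ m' B₁ π₁ u₁ s₁) {C : Set (V c.ch.M)}
    (P : Par c.ch.o C m'.N (jB f B₁ B₂) (jπ π₁ π₂ r)) (hC : IsCurve c.ch.o c.ch.g c.ch.m C)
    (hl : l ∈ H0 m'.N (bz (jB f B₁ B₂) (c.ch.wd (lk none)))) : ∃ (x : c.ch.WF ν' κ' Λ) (u : _),
      RepD c.ℓ univ x (jm c m' (jB f B₁ B₂) l) (jB f B₁ B₂) (jπ π₁ π₂ r) u 1 := by
  have a : ∀ a ∈ univ, (jm c m' (jB f B₁ B₂) l).y a ∈ H0 m'.N (bz (jB f B₁ B₂) (c.ch.wd a)) := by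
    rintro ((a | a) | (_ | a) | a) -
    · rw [wd_y1, bz_jB, bz_zero, map_one, mul_one]
      exact H₁.cr.ind_mem (H₁.ind a trivial)
    · rw [wd_y2, bz_jB, bz_zero, one_mul]
      exact f.sec_iff.2 (H₂.cr.ind_mem (H₂.ind a trivial))
    exacts [hl, one_mem f H₁ H₂ h a, zero_mem _]
  have b : Eqv (bz (jB f B₁ B₂) c.ch.χ) (m'.ω ^ c.ch.k) := by
    rw [h.χ, bz_jB, bz_zero, map_one, mul_one]
    exact H₁.crep.eqv
  obtain ⟨x, u, -, d⟩ := Ch.exists_repD (ℓ := c.ℓ) (m := jm c m' (jB f B₁ B₂) l) (s := 1) h.num.cuts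
    (fun l => by
      rw [h.h]
      exact Int.toNat_of_nonneg ((Nat.cast_nonneg _).trans_eq (P.finrank hC (h.num.a_ne l))))
    P hC b (fun _ => .refl _) a fun _ _ => one_ne_zero
  exact ⟨x, u, d⟩

theorem img {u} (H : RepD c.ℓ univ x (jm c m' (jB f B₁ B₂) l) (jB f B₁ B₂) (jπ π₁ π₂ r) u 1)
    (h0 : ∀ y ≠ m'.p (e none), l y ≠ 0) (h1 : ∀ y ≠ z, Sm m.N y → y ∉ m.P →
      l (j y) * m.R.d (fun w => m'.R.e (j y) (j w)) y ^ c.ch.k = 1) :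
    (∃ u', RepD ℓs univ (h.f₂ e x).1 m B₂ π₂ u' 1) ∧ (h.f₂ e x).2 = π₂ z := by
  have fl : ∀ y, fld x.2 (jπ π₁ π₂ r y) (lk none) = l y := H.cr.fld_π (H.ind _ trivial)
  have mk : ∀ n, rV .inr (x.2.p (e n)) = π₂ (n.elim z m.p) := fun n => by
    rw [H.mark, Pi.one_apply, one_smul, ← f.r_p]
    rfl
  have cr : Cr m'.N (jB f B₁ B₂) x.2 (jπ π₁ π₂ r) u m'.p 1 := sg_pow m'.toAC c.ch.k ▸ H.cr
  obtain ⟨-, u', a, b⟩ := h.cr_of (C' := m'.toAC) (C := m.toAC) cr f.ctr (fun _ => rfl)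
    (fun _ => rfl) (par_cone H₂.cr.par) H₂.crep.eqv (fun _ => H.exists_val trivial)
    (by simpa only [fl] using h1) (by simpa only [fl] using h0)
  refine ⟨⟨u', H.l.trans f.l, (sg_pow m.toAC _).symm ▸ a,
    fun n => (mk (some n)).trans (one_smul _ _).symm, H₂.L, fun i _ y μ => ?_⟩, mk none⟩
  have d : u (j y) (c.D₂.τ (some i)) ((h.f₂ e x).1.2.X i μ) = m'.y i (j y) * val μ (π₂ (r (j y))) :=
    H.ind (y2 i) trivial (j y) (c.D₂.rb i μ)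
  rwa [b, f.y, f.ctr.left] at d

end FgL

namespace Jc

open FgL

variable {c : Jc J R} {W : Wt S Λ R J} {F : Fam S Λ R J K} [IsEmpty κ] [IsEmpty κ']
  {e : Option (Mk ν κ) ≃ Mk ν' κ'} {x y : c.ch.WF ν' κ' Λ} {K₀ : Set K} {b : ℕ}
  {U₁ : Set (c.D₁.ch.WF ν' κ' Λ)} {U₂ : Set (c.D₂.ch.WF ν κ Λ)}
  {Φ : Quo (actC F.toWt) (unv (Z0 F c.D₂.ch ν κ)) → Quo (actF F.toWt) (Z0 F c.D₁.ch ν' κ')}

theorem Ok.lift_rep (h : c.Ok F.toWt) (hF : F.Inv) (hA : F.Abs) {k D D' : ℕ} {g : ℤ} {d : R → ℤ}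
    (hk : F.Big k) (hD : F.BigD k D) (hD' : F.BigD k D') (e₁ : c.D₁.ch = F.sch ν' κ' k D' g d)
    (e₂ : c.D₂.ch = F.sch ν κ k D g d) {x : c.D₂.ch.WF ν κ Λ} {m : AM Λ R J ν κ} {B π u s}
    (H₂ : RepD ℓs univ x m B π u s) (hs : m.Sol F) (z : m.X) : ∃ y ∈ c.Z e F.j3,
      (∃ u', RepD ℓs univ (h.f₂ e y).1 m B π u' 1) ∧ (h.f₂ e y).2 = π z := by
  obtain ⟨m', j, r, f⟩ := AM.exists_fg_up e m z
  obtain ⟨hb, ty, q₂⟩ := std_of e₂ hD H₂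
  obtain ⟨x₁, B₁, π₁, u₁, H₁⟩ := exists_std e₁ hD' hk (f.sol.2 hs) (f.stable hb) (f.typ.2 ty)
  obtain ⟨P, C⟩ := curve f H₁ H₂ h.o hk hs hb (std_of e₁ hD' H₁).2.2 q₂
  obtain ⟨w, w1, w0, w2⟩ := f.exists_ω
  have c1 := can_mem0 (R := m'.R) (m'.sm (e none))
  have q := eqv_lk f H₁ H₂ h
  obtain ⟨y, v, H⟩ := exists_pt f H₂ h H₁ P C (q.H0.2 (H0.pow_mem (H0.mul_mem w1 c1) c.ch.k))
  have l0 : ∀ a ≠ m'.p (e none), ((w * RS.can (m'.p (e none))) ^ c.ch.k) a ≠ 0 := fun a b =>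
    pow_ne_zero _ (mul_ne_zero (w0 a) (can_ne b ▸ one_ne_zero))
  have s3 := sol h hF H hA (f.sol.2 hs)
  obtain ⟨θ₀, n, ha, hn⟩ := hk
  refine ⟨y, ⟨(H.mem_solF (Fam.inv_j3 hF) h.lat.wd).2 s3, FgL.main h hF H s3 l0 ?_,
    gd_of h H (gd f (by omega) hb (fun U => ?_) (q₂ none))⟩, img f H₂ h H l0 fun a b a1 a2 => ?_⟩
  · rw [q.ord, ord_pow ((H0.mul_mem w1 c1).1 _), LB.ord_mul (w1.1 _) (c1.1 _), RS.ord_can,
      (LB.ord_eq_zero (w1.1 _)).2 (w0 _), zero_add, mul_one]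
  · rw [ha.1, AM.degOn_nsmul]
    exact mul_nonneg (Nat.cast_nonneg _) (hs.degOn_nonneg ha U)
  · have : j a ≠ m'.p (e none) := fun t => b (by rw [← f.ctr.left a, t, f.r_p]; rfl)
    rw [Pi.pow_apply, Pi.mul_apply, can_ne this, mul_one, ← mul_pow, w2 a b a1 a2, one_pow]

theorem Ok.lift (h : c.Ok F.toWt) (hF : F.Good) (hA : F.Abs) {k D D' : ℕ} {g : ℤ} {d : R → ℤ}
    (hk : F.Big k) (hD : F.BigD k D) (hD' : F.BigD k D') (e₁ : c.D₁.ch = F.sch ν' κ' k D' g d)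
    (e₂ : c.D₂.ch = F.sch ν κ k D g d) :
    SurjOn (h.f₂ e) (c.Z e F.j3) (unv (Z0 F c.D₂.ch ν κ)) := by
  rintro ⟨x, p⟩ ⟨hx, hp⟩
  obtain ⟨m, a⟩ := h.lat₂.exists_rep_sol hx.1
  obtain ⟨B, π, u, s, H⟩ := a.exists_data (Z0_base _ hx)
  obtain ⟨z, t, ht, rfl⟩ := H.mem_crv.1 hp
  obtain ⟨y, hy, ⟨u', H'⟩, q⟩ := h.lift_rep (e := e) hF.toInv hA hk hD hD' e₁ e₂ H
    ((H.mem_solF hF.toInv h.lat₂.wd).1 hx.1) z
  obtain ⟨a, a0, a1⟩ := mkC_exact.1 ((RepD.mkC_eq_iff (Z := univ) (x := ⟨_, trivial⟩)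
    (x₂ := ⟨x, trivial⟩) h.lat₂ h.num₂.a_ne h.num₂.M_eq H' H (z := z) (z₂ := z)).2
    ⟨.refl _, fun _ => 1, 1, ⟨.id _, isUnit_one, fun _ _ => Iff.rfl, fun _ => rfl,
      fun i => (div_self' (m.L i)).symm ▸ H0.one_mem, fun _ _ => one_ne_zero, fun _ _ => rfl,
      (F.actL_one _).symm, fun _ _ _ => by simp [Wt.actT, AM.vl]⟩, .inl rfl⟩)
  obtain ⟨s, s0, s1⟩ := θ₂_unit (c := c) (e := e) (a := (1, t) * a)
    ((isUnitU_iff.2 ⟨isUnit_one, ht⟩).mul a0)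
  refine ⟨_, ivt_Z (Fam.inv_j3 hF.toInv) s s0 _ hy, ?_⟩
  have a2 : (x, π z) = actC F.toWt a (h.f₂ e y) := a1.trans (congrArg _ (Prod.ext rfl q.symm))
  refine (h.eqv₂ hF.toInv ((mem_T ?_).1 hy.2).1 s0).trans ?_
  · rw [disjoint_union_left]
    exact ⟨disjoint_left.2 fun _ ⟨_, _, b⟩ ⟨_, d⟩ => by simp [← b] at d,
      disjoint_left.2 fun _ ⟨_, _, b⟩ ⟨_, d⟩ => by simp [← b] at d⟩
  · rw [s1, actC_mul, ← a2]
    exact Prod.ext (actF_one _) rfl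

end Jc

end Vale.Agent.P269
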