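import Vale.Agent.P269.G3.Line
import Vale.Agent.P269.Grr.Line
import Vale.Agent.P269.Prj.Quo

/-!
# Line bundles with a trivialised power
-/

set_option linter.unusedSectionVars false

namespace Vale.Agent.P269.Ch

open Set Function Topology Filter P291Z

variable {A A' W W' P : Type} [NormedRing A] [NormedAlgebra ℂ A] [NormedAddCommGroup W]
  [NormedSpace ℂ W] [NormedRing A'] [NormedAlgebra ℂ A'] [NormedAddCommGroup W'] [NormedSpace ℂ W']
  [NormedAddCommGroup P] [NormedSpace ℂ P] {act : A → W → W} {S : Set W} [Holo.IsAct act S]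
  {act' : A' → W' → W'} {S' : Set W'} [Holo.IsAct act' S'] (ho : Orb.Orb Aˣ (Holo.Sp act S))
include ho

theorem lcq_spA {c : A → ℂ} {χ : Aˣ →ₜ* ℂˣ} (h : ∀ g, (χ g : ℂ) = c g) :
    Tq.lcq act S c = (c1 (Y := spA ho) χ).1 :=
  (Tq.lcq_eq (presA ho) (χ := χ) h).trans (H.map_id (fun _ => rfl) _)

theorem lcq_inv {χ : A → ℂ} (hχ : Tq.Hm χ) :
    Tq.lcq act S (fun a => (χ a)⁻¹) = -Tq.lcq act S χ := by
  rw [lcq_spA ho (χ := hχ.ρ) fun _ => rfl,
    lcq_spA ho (χ := hχ.ρ⁻¹) fun g => Units.val_inv_eq_inv_val _]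
  exact congrArg Subtype.val (c1_inv (Y := spA ho) hχ.ρ)

theorem EqM.map_lcq (ho' : Orb.Orb A'ˣ (Holo.Sp act' S')) {θ : A → A'} {f : W → W'}
    (hf : EqM act act' S S' θ f) {χ : A' → ℂ} (hχ : Tq.Hm χ) :
    H.map hf.map (Tq.lcq act' S' χ) = Tq.lcq act S fun a => χ (θ a) := by
  obtain ⟨θ', h1, h2⟩ := hf.hom
  let m : Mor (spA ho) (spA ho') := ⟨θ', fun x => Holo.Sp.of act' (f x.val) (hf.maps x.val_mem), h1,
    (hf.cont.domRestrict.subtype_mk _ :), fun g x => Holo.Sp.ext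
      ((hf.eqv _ (Units.isUnit g) _ x.val_mem).trans (congrArg (act' · _) (h2 g).symm))⟩
  have h3 : m.map = hf.map :=
    (DFunLike.coe_injective (m.map_eq (φ := hf.map) fun _ => rfl)).symm
  rw [lcq_spA ho' (χ := hχ.ρ) fun _ => rfl,
    lcq_spA ho (c := fun a => χ (θ a)) (χ := m.chr hχ.ρ) fun g => congrArg χ (h2 g), ← h3]
  exact congrArg Subtype.val (map_c1 m hχ.ρ)

/-- `φ` identifies the `k`-th power of the line bundle `E` with the bundle of the character `χ`. -/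
theorem SD.Ok.line {E : SD A W P} {r : ℕ} (h : E.Ok act S (r + 1) r) {k : ℕ} {χ : A → ℂ}
    (hχ : Tq.Hm χ) {φ : W → P → ℂ}
    (hom : ∀ x ∈ S, ∀ v ∈ E.B x, ∀ w ∈ E.N x, ∀ z : ℂ, φ x (z • v + w) = z ^ k * φ x v)
    (eqv : ∀ a, IsUnit a → ∀ x ∈ S, ∀ v ∈ E.B x, φ (act a x) (E.ρ a v) = χ a * φ x v)
    (loc : ∀ x₀ ∈ S, ∃ (b : W → P) (u : W → ℂ), b x₀ ∉ E.N x₀ ∧ u x₀ ≠ 0 ∧
      ContinuousWithinAt b S x₀ ∧ ContinuousWithinAt u S x₀ ∧
      ∀ᶠ x in 𝓝[S] x₀, b x ∈ E.B x ∧ φ x (b x) = u x) :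
    (k : ℂ) • hcls (E.eu act S) = Tq.lcq act S χ := by
  classical
  obtain ⟨E₀, E₁, ι, M, -, h1, h2, -, h3⟩ := h.exists_isMod ho
  rw [Nat.add_sub_cancel_left] at h1
  obtain ⟨σ, s1, s2⟩ := h2.hom.exists_sect h2.surj
  obtain ⟨q, hq⟩ := Grr.Ln.exists_dual E₁.W
  let p := presA ho
  let Φ : (spA ho).T → E₁.W → ℂ := fun t l => φ (p.i t) (ι (σ t l))
  have key : ∀ t₀ (l : (spA ho).T → E₁.W), ContinuousAt l t₀ → (∀ t, l t ∈ E₁.F t) → l t₀ ≠ 0 →
      ContinuousAt (fun t => Φ t (l t)) t₀ ∧ Φ t₀ (l t₀) ≠ 0 := fun t₀ l a1 a2 a3 => by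
    obtain ⟨b, u, b1, b2, b3, b4, b5⟩ := loc _ (p.mem t₀)
    have t1 : Tendsto p.i (𝓝 t₀) (𝓝[S] (p.i t₀)) :=
      tendsto_nhdsWithin_iff.2 ⟨p.emb.continuous.continuousAt, .of_forall p.mem⟩
    choose! w w1 w2 using fun t (e : b (p.i t) ∈ E.B (p.i t)) => (h2.map t).ge e
    have b6 := t1.eventually b5
    have c1 : ContinuousAt w t₀ := h2.emb.isInducing.continuousAt_iff.2
      (ContinuousAt.congr (f := fun t => b (p.i t)) (b3.tendsto.comp t1)
        (b6.mono fun t e => (w2 t e.1).symm))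
    have c2 : ContinuousAt (fun t => h2.hom.clm t (w t)) t₀ :=
      h2.hom.continuous_clm.continuousAt.clm_apply c1
    have c3 : h2.hom.clm t₀ (w t₀) ≠ 0 := fun e => b1 (w2 t₀ b6.self_of_nhds.1 ▸
      (h2.ker _ _ (w1 _ b6.self_of_nhds.1)).1 ((h2.hom.clm_eq (w1 _ b6.self_of_nhds.1)).symm.trans e))
    have c4 : ∀ᶠ t in 𝓝 t₀, l t = q (h2.hom.clm t (w t)) (l t) • h2.hom.clm t (w t) ∧
        q (h2.hom.clm t (w t)) (l t) ^ k * u (p.i t) = Φ t (l t) := by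
      filter_upwards [b6, c2.eventually_ne c3] with t e1 e2
      have e3 := h2.hom.clm_eq (w1 t e1.1)
      have e4 := Grr.Ln.eq_smul ((E₁.rank t).trans h1) (e3 ▸ h2.hom.mem t _ (w1 t e1.1))
        (hq _ e2).1 (a2 t)
      have e5 := (h2.map_eq_iff (s1.mem t _ (a2 t)) (Submodule.smul_mem _
        (q (h2.hom.clm t (w t)) (l t)) (w1 t e1.1))).1
          ((s2 _ _ (a2 t)).trans (e4.trans ((congrArg _ e3).trans (map_smul _ _ _).symm)))
      refine ⟨e4, ?_⟩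
      rw [← e1.2, ← hom _ (p.mem t) _ e1.1 _ e5, map_smul, w2 t e1.1, add_sub_cancel]
    refine ⟨(((((hq _ c3).2.comp (f := fun t => h2.hom.clm t (w t)) c2).clm_apply a1).pow k).mul (b4.tendsto.comp t1)).congr
      (c4.mono fun _ e => e.2), c4.self_of_nhds.2 ▸ mul_ne_zero (pow_ne_zero _ fun e => a3 ?_) b2⟩
    rw [c4.self_of_nhds.1, e, zero_smul]
  have := Grr.eu_of_div (ν := Empty) h1 (L := Empty.elim) nofun (s := nofun) nofun
    (dense_univ.mono fun _ _ => nofun) (k := k) (χ := hχ.ρ⁻¹) (φ := fun t l => (Φ t l)⁻¹)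
    (fun t l a _ z c => by
      have := hom _ (p.mem t) _ (h2.mem (s1.mem t _ a)) 0 (zero_mem _) z
      simp only [Φ, map_smul]
      rw [add_zero] at this
      rw [this, mul_inv, mul_right_comm, inv_mul_cancel₀ (pow_ne_zero k c), one_mul])
    (fun g t l a _ => by
      have e : Φ (g • t) (g • l) = χ (p.u g) * Φ t l := by
        simp only [Φ, s1.eqv g t l a]
        exact (congrArg (φ _) (h3 g _)).trans
          (eqv _ (p.unit g) _ (p.mem t) _ (h2.mem (s1.mem t _ a)))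
      rw [e, mul_inv]
      exact congrArg (· * _) (Units.val_inv_eq_inv_val (hχ.ρ g)).symm)
    fun t₀ => by
      obtain ⟨w, a1, a2⟩ := Grr.Ln.exists_ne E₁ h1 t₀
      have a3 := E₁.continuous_P continuous_id (continuous_const (y := w))
      have a4 : E₁.P t₀ w ≠ 0 := (E₁.P_eq a1).trans_ne a2
      have a5 := fun t => key t _ a3.continuousAt fun t => E₁.P_mem t w
      exact ⟨fun t => E₁.P t w, nofun, nofun, fun t => (Φ t (E₁.P t w))⁻¹, a4, nofun,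
        inv_ne_zero (a5 _ a4).2, (a3.continuousAt.eventually_ne a4).mono fun t e =>
          ⟨a3.continuousAt, E₁.P_mem t w, (a5 t e).1.inv₀ (a5 t e).2, nofun, by simp⟩⟩
  rw [Finset.univ_eq_empty, Finset.sum_empty, smul_zero] at this
  rw [lcq_spA ho (χ := hχ.ρ) fun _ => rfl, ← add_neg_eq_zero.1
    ((congrArg _ (c1_inv (Y := spA ho) hχ.ρ)).symm.trans this), Nat.cast_smul_eq_nsmul, SD.eu,
    SD.hcls_presA ho h2]
  rfl

end Vale.Agent.P269.Ch
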