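import Vale.Agent.P269.Fg.Hol

/-!
# The joint chart: solutions
-/

set_option linter.unusedSectionVars false

namespace Vale.Agent.P269

open P291Z Set Function Topology Filter Cv Ch MvPolynomial Jc Holo

variable {S Λ R J K K' ν κ ν' κ' : Type} [Fintype S] [Fintype Λ] [Fintype R] [Fintype J] [Fintype K]
  [Fintype K'] [Fintype ν] [Fintype κ] [Fintype ν'] [Fintype κ'] [DecidableEq R]

namespace Jc

variable {c : Jc J R} {W : Wt S Λ R J} {F : Fam S Λ R J K} [IsEmpty κ] [IsEmpty κ']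
  {e : Option (Mk ν κ) ≃ Mk ν' κ'} {x y : c.ch.WF ν' κ' Λ} {K₀ : Set K} {b : ℕ}
  {U₁ : Set (c.D₁.ch.WF ν' κ' Λ)} {U₂ : Set (c.D₂.ch.WF ν κ Λ)}
  {Φ : Quo (actC F.toWt) (unv (Z0 F c.D₂.ch ν κ)) → Quo (actF F.toWt) (Z0 F c.D₁.ch ν' κ')}

theorem disj_inl {T : Set (J3 J R)} (h : T ⊆ range .inl) : Disjoint T (range lk) :=
  disjoint_left.2 fun _ a ⟨_, b⟩ => let ⟨_, d⟩ := h a; nomatch d.trans b.symm

theorem Z_T0 : c.Z e F.j3 ⊆ c.T e F.j0 := fun _ h =>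
  ((mem_T (disj_inl (by rintro _ (⟨_, -, rfl⟩ | ⟨_, -, rfl⟩) <;> exact ⟨_, rfl⟩))).1 h.2).1

theorem Z₁_T0 : c.Z e F.j1 ⊆ c.T e F.j0 := fun _ h =>
  ((mem_T (disj_inl (by rintro _ ⟨_, -, rfl⟩; exact ⟨_, rfl⟩))).1 h.2).1

theorem Z₂_T0 : c.Z e F.j2 ⊆ c.T e F.j0 := fun _ h =>
  ((mem_T (disj_inl (by rintro _ ⟨_, -, rfl⟩; exact ⟨_, rfl⟩))).1 h.2).1

/-- restriction of solutions -/
theorem mem_Z0 {D : c.ch.Res (Option R) J} {ν₀ κ₀ : Type} [Fintype ν₀] [Fintype κ₀]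
    {x' : D.ch.WF ν₀ κ₀ Λ} {H : Fam S Λ (R3 R) (J3 J R) K'} (hF : F.Inv) (hA : F.Abs)
    (r : D.Rel x.2 x'.2) (hb : x' ∈ D.ch.baseF ν₀ κ₀ F.B) (hx : x ∈ c.ch.solF ν' κ' H)
    (h : ∀ v, (x.1, v) ∈ H.cone → (x'.1, v ∘ D.φ) ∈ F.cone) : x' ∈ Z0 F D.ch ν₀ κ₀ := by
  have k : x' ∈ D.ch.solF ν₀ κ₀ F := mem_solF.2 ⟨hb, fun z hz => by
    obtain ⟨w, a, rfl⟩ := r.crv ▸ hz
    obtain ⟨b, d⟩ := (mem_solF.1 hx).2 w a
    exact ⟨fun j => (b _).imp fun _ => (r.val_iff (hb.2.1.1 _) a).2,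
      (funext fun j => r.fld (hb.2.1.1 _) a : fld x'.2 (rV D.σ w) = fld x.2 w ∘ D.φ) ▸ h _ d⟩⟩
  exact ⟨k, hA.sol_subset hF k⟩

/-- the abstract map of a solution on the joint chart is represented by its first restriction -/
theorem Ct.rep₁ {h : c.Ok F.toWt} (t : Ct e h x) (hF : F.Inv) (hA : F.Abs) (hx : x ∈ c.Z e F.j3) :
    Rep ℓs univ (h.L₁.fF x) t.am' := by
  have d := h.dom₁ (Z_T0 hx)
  have a := d.cr h.num₁.cuts t.cr'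
  have b := fun y => (mem_solF.1 hx.1).2 _ (t.cr'.par.mem y)
  choose s _ hs using a.mark
  rw [show (fun y => (1 : t.C'.X → ℂ) y ^ h.L₁.r * ∏ j, fld x.2 (t.π y) j ^ h.L₁.n j) =
    t.C'.sg ^ c.D₁.ch.k from funext fun y => by simp [AC.sg]] at a
  refine ⟨rfl, _, _, .of a (s := fun n => s (n.map id fun q => (q, false))) ?_, fun r => ?_,
    fun j _ y => (d.val_iff h.num₁.cuts (t.cr'.par.mem y)).2 ?_⟩
  · rintro (n | n)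
    exacts [hs _, isEmptyElim n.1]
  · have k := (t.cr'.ind_mem (Res.Lnk.FibP.ind_fld t.cr' fun z hz =>
      ((mem_solF.1 hx.1).2 z hz).1 (lk (some r)))).1
    rw [funext (t.lam r), h.wd] at k
    refine (congrArg (fun L => 1 ∈ LB.Γ L) ?_).mp k
    simp [bz, Fintype.prod_sum_type, t.B_eq, div_eq_mul_inv, -Fintype.prod_option]
  · have k := ((Fam.cone_j3 hF hA).1 (b y).2).2.2.1 j
    simp only [t.lam, one_zpow, Finset.prod_const_one, one_mul] at k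
    exact (congrArg (Val x.2 (y1 j) (t.π y)) (k.trans (t.fld_y2 y j).symm)).mp
      (val_fld ((b y).1 _))

variable (P : c.Pk e F K₀ b U₁ U₂)
include P

theorem Pk.maps₁ : MapsTo P.ok.L₁.fF (c.Z e F.j1) (Z0 F c.D₁.ch ν' κ') := fun _ hx =>
  have d := P.ok.dom₁ (Z₁_T0 hx)
  mem_Z0 P.ok₁.inv P.abs (d.rel P.ok.num₁.cuts)
    ⟨hx.1.1.1, d.mem_base P.ok.num₁.cuts, fun q => isEmptyElim q⟩ hx.1 fun _ a =>
      ((Fam.cone_j1 P.ok₁.inv P.abs).1 a).1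

theorem Pk.maps₂ : MapsTo (P.ok.f₂ e) (c.Z e F.j2) (unv (Z0 F c.D₂.ch ν κ)) :=
  fun _ hx =>
  have d := P.ok.maps₂ (Z₂_T0 hx)
  ⟨mem_Z0 P.ok₁.inv P.abs (P.ok.rel₂ (Z₂_T0 hx)) d.1 hx.1 fun _ a =>
    ((Fam.cone_j2 P.ok₁.inv P.abs).1 a).1, d.2⟩

theorem Pk.zr₁ : MapsTo (zr (y2 '' F.mov)) (c.Z e F.j3) (c.Z e F.j1) := fun _ hx =>
  ⟨det_maps (Fam.det_j1 P.ok₁.inv P.abs) hx.1, (T₃_eq₁ P.ok₁.inv P.abs).le hx.2⟩

theorem Pk.zr₂ : MapsTo (zr (y1 '' F.mov)) (c.Z e F.j3) (c.Z e F.j2) := fun _ hx =>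
  ⟨det_maps (Fam.det_j2 P.ok₁.inv P.abs) hx.1, (T₃_eq₂ P.ok₁.inv P.abs).le hx.2⟩

theorem Pk.zr₂_surj : SurjOn (zr (y1 '' F.mov)) (c.Z e F.j3) (c.Z e F.j2) := fun _ hx =>
  let ⟨y, a, b⟩ := det_surjOn (Fam.det_j2 P.ok₁.inv P.abs) P.std₃ hx.1
  ⟨y, ⟨a, (T₃_eq₂ P.ok₁.inv P.abs).ge (mem_preimage.2 (mem_of_eq_of_mem b hx.2))⟩, b⟩

theorem Pk.eqM₁ : EqM (actF F.toWt.jc) (actF F.toWt) (c.Z e F.j3) (Z0 F c.D₁.ch ν' κ') c.D₁.θF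
    P.ok.L₁.fF := by
  refine ⟨⟨Units.map ⟨⟨c.D₁.θF, rfl⟩, fun _ _ => rfl⟩, Units.continuous_map c.D₁.θF.continuous,
    fun _ => rfl⟩, fun x hx => P.ok.fF_zr (x := x) (A := y2 '' F.mov) (by simp) ▸ P.maps₁ (P.zr₁ hx),
    fun x hx => ?_, fun s hs x hx => Prod.ext rfl ?_⟩
  · obtain ⟨Ψ, a, b⟩ := (P.ok.dom₁ (Z_T0 hx)).hol P.ok.num₁.cuts P.ok.num.cuts
    refine (continuousAt_fst.prodMk (a.continuousAt.comp
      continuousAt_snd)).continuousWithinAt.congr_of_eventuallyEq_of_mem ?_ hx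
    filter_upwards [nhdsWithin_le_nhds (continuousAt_snd.eventually b), self_mem_nhdsWithin]
      with y d k
    exact Prod.ext rfl (d (P.ok.dom₁ (Z_T0 k)))
  · have d := P.ok.dom₁ (Z_T0 hx)
    have a := fun j => prod_zpow_ne (ne_S hs) (F.toWt.jc.wt j)
    exact ((d.scl a).f_act P.ok.num₁.cuts (isUnit_dupF hs)).trans
      (congrArg _ (d.f_scl P.ok.num₁.cuts a (by simp)))

theorem Pk.eqM₂ : EqM (actF F.toWt.jc) (actC F.toWt) (c.Z e F.j3) (unv (Z0 F c.D₂.ch ν κ))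
    (c.θ₂ S e) (P.ok.f₂ e) :=
  ⟨⟨Units.map ⟨⟨c.θ₂ S e, θ₂_one⟩, θ₂_mul⟩, Units.continuous_map (c.θ₂ S e).continuous,
    fun _ => rfl⟩, fun x hx =>
      P.ok.f₂_zr (e := e) (x := x) (A := y1 '' F.mov) (by simp) (by simp) ▸ P.maps₂ (P.zr₂ hx), fun _ hx =>
    let ⟨_, a, b⟩ := P.ok.hol₂ (Z_T0 hx)
    a.continuousAt.continuousWithinAt.congr_of_eventuallyEq_of_mem
      (b.filter_mono (nhdsWithin_mono _ (Z_T0 (e := e)))) hx,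
    fun _ hs _ hx => P.ok.eqv₂ P.ok₁.inv (Z_T0 hx) hs⟩

theorem Pk.comm (hΦ : FgP F e Φ) (z) : Φ (P.eqM₂.map z) = P.eqM₁.map z := by
  obtain ⟨x, rfl⟩ := Quot.exists_rep z
  obtain ⟨t⟩ := P.ok.exists_ct (Z_T0 x.2)
  have a := P.eqM₂.maps x.2
  obtain ⟨s, b⟩ := t.repD (A := univ) fun j _ z hz => ((mem_solF.1 a.1.1).2 z hz).1 j
  refine .trans (congrArg Φ (mkC_exact.2 ?_).symm) (hΦ ⟨_, a.1⟩ _ _ _ _ _ b t.z
    ⟨_, P.eqM₁.maps x.2⟩ _ _ _ t.fg (t.rep₁ P.ok₁.inv P.abs x.2))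
  obtain ⟨w, d, k⟩ := t.orb_z
  exact ⟨(1, w), Prod.isUnit_iff.2 ⟨isUnit_one, isUnit_pi_iff.2 d⟩,
    Prod.ext (actF_one _).symm k⟩

end Jc

end Vale.Agent.P269
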