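import Vale.Agent.P269.Grr.Line
import Vale.Agent.P269.Map.SQ

/-!
# Maps of line bundles that vanish along a divisor
-/

set_option linter.unusedSectionVars false

namespace Vale.Agent.P269

open P291Z Set Function Topology Filter Ch

theorem Grr.eu_of_hom {Y : Ch.Sp} {E E' Λ : VB Y} (hE : E.r = 1) (hE' : E'.r = 1) (hΛ : Λ.r = 1)
    {Φ : Y.T → E.W →ₗ[ℂ] E'.W} (hΦ : Ch.Hom (Mor.id Y) E E' Φ) {s : Y.T → Λ.W} (hs : Λ.IsSec s)
    (hd : Dense {t | s t ≠ 0}) (inj : ∀ t, s t ≠ 0 → ∀ w ∈ E.F t, Φ t w = 0 → w = 0)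
    (loc : ∀ t₀, s t₀ = 0 → ∃ (y : Y.T → E'.W →ₗ[ℂ] ℂ) (b : Y.T → E.W) (l : Y.T → Λ.W)
      (f u : Y.T → ℂ), Continuous (fun z : E'.V => y z.1.1 z.1.2) ∧ (∃ w ∈ E'.F t₀, y t₀ w ≠ 0) ∧
      b t₀ ≠ 0 ∧ l t₀ ≠ 0 ∧ u t₀ ≠ 0 ∧ ∀ᶠ t in 𝓝 t₀, ContinuousAt b t ∧ b t ∈ E.F t ∧
        ContinuousAt l t ∧ l t ∈ Λ.F t ∧ ContinuousAt u t ∧ s t = f t • l t ∧
        y t (Φ t (b t)) = u t * f t) : E'.eu = E.eu + Λ.eu := by
  obtain ⟨Y', m, h1, h2, h3⟩ := Grr.Ln.exists_tr [E, E', Λ] (by simp [hE, hE', hΛ])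
  simp only [List.forall_mem_cons] at h3
  obtain ⟨⟨α, v, hv⟩, ⟨β, v', hv'⟩, ⟨γ, w, hw⟩, -⟩ := h3
  obtain ⟨p, p1, p2, -⟩ := hv.exists_coord hE
  obtain ⟨p', p1', p2', p3'⟩ := hv'.exists_coord hE'
  obtain ⟨q, q1, q2, q3⟩ := hw.exists_coord hΛ
  have q0 : ∀ t, ∀ l ∈ Λ.F (m.f t), l ≠ 0 → q t l ≠ 0 := fun t l hl h0 e =>
    h0 (by rw [q2 t l hl, e, zero_smul])
  have m1 : ∀ t, Φ (m.f t) (v t) ∈ E'.F (m.f t) := fun t => hΦ.mem _ _ (hv.mem t)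
  have c1 : Continuous fun t => p' t (Φ (m.f t) (v t)) :=
    p1'.clm_apply (hΦ.continuous m.cf hv.cont hv.mem)
  have c2 : Continuous fun t => q t (s (m.f t)) := q1.clm_apply (hs.cont.comp m.cf)
  have key : Ch.c1 (β / α) = Ch.c1 γ := by
    refine Grr.Ln.c1_eq (Φ := fun t => p' t (Φ (m.f t) (v t))) (A := fun t => q t (s (m.f t)))
      ((h2 _ hd).mono fun t ht => q0 t _ (hs.mem _) ht) (fun g t _ => ?_) (fun g t => ?_)
      fun t₀ => ?_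
    · have e := p3' g t _ (m1 t)
      have e' : Φ _ _ = m.ρ g • _ := hΦ.eqv (m.ρ g) _ _ (hv.mem t)
      rw [← e', hv.eqv, ← m.eqv, map_smul, map_smul, smul_eq_mul] at e
      refine mul_left_cancel₀ (α g).ne_zero (e.trans ?_)
      rw [← mul_assoc, ← Units.val_mul]
      exact congrArg (fun χ : Y'.G →ₜ* ℂˣ => ((χ g : ℂˣ) : ℂ) * _) (mul_div_cancel α β).symm
    · rw [m.eqv, hs.eqv, q3 g t _ (hs.mem _)]
    by_cases h0 : s (m.f t₀) = 0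
    · obtain ⟨y, b, l, f, u, a1, ⟨z, a2, a3⟩, a4, a5, a6, a7⟩ := loc _ h0
      have a8 := m.cf.continuousAt.eventually a7
      have a9 := a8.self_of_nhds
      have c3 : Continuous fun t => y (m.f t) (v' t) :=
        a1.comp ((m.cf.prodMk hv'.cont).subtype_mk (p := fun x => x ∈ E'.V) hv'.mem)
      have c4 : ∀ t, ContinuousAt b (m.f t) → ContinuousAt (fun t => p t (b (m.f t))) t :=
        fun t h => p1.continuousAt.clm_apply (h.comp m.cf.continuousAt)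
      have c5 : ∀ t, ContinuousAt l (m.f t) → ContinuousAt (fun t => q t (l (m.f t))) t :=
        fun t h => q1.continuousAt.clm_apply (h.comp m.cf.continuousAt)
      have b1 : y (m.f t₀) (v' t₀) ≠ 0 := fun e => a3 (by rw [p2' t₀ z a2, map_smul, e, smul_zero])
      have b2 : p t₀ (b (m.f t₀)) ≠ 0 := fun e => a4 (by rw [p2 t₀ _ a9.2.1, e, zero_smul])
      have b3 := q0 t₀ _ a9.2.2.2.1 a5
      refine ⟨fun t => u (m.f t) / (p t (b (m.f t)) * y (m.f t) (v' t) * q t (l (m.f t))),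
        div_ne_zero a6 (mul_ne_zero (mul_ne_zero b2 b1) b3), ?_⟩
      filter_upwards [a8, c3.continuousAt.eventually_ne b1, (c4 _ a9.1).eventually_ne b2,
        (c5 _ a9.2.2.1).eventually_ne b3] with t ⟨d1, d2, d3, _, d5, d6, d7⟩ e1 e2 e3
      refine ⟨(d5.comp m.cf.continuousAt).div (((c4 _ d1).mul c3.continuousAt).mul (c5 _ d3))
        (mul_ne_zero (mul_ne_zero e2 e1) e3), ?_⟩
      rw [p2 t _ d2, map_smul, p2' t _ (m1 t), map_smul, map_smul, smul_eq_mul, smul_eq_mul] at d7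
      rw [d6, map_smul, smul_eq_mul]
      field_simp
      linear_combination d7
    · have b1 := q0 t₀ _ (hs.mem _) h0
      refine ⟨fun t => p' t (Φ (m.f t) (v t)) / q t (s (m.f t)), div_ne_zero (fun e => hv.ne t₀
        (inj _ h0 _ (hv.mem _) (by rw [p2' t₀ _ (m1 t₀), e, zero_smul]))) b1, ?_⟩
      filter_upwards [c2.continuousAt.eventually_ne b1] with t e
      exact ⟨c1.continuousAt.div c2.continuousAt e, (div_mul_cancel₀ _ e).symm⟩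
  refine Hev.map_injective h1 ?_
  rw [map_add, hv.eu hE, hv'.eu hE', hw.eu hΛ, ← key, c1_div, add_sub_cancel]

theorem Ch.SD.Ok.eu_div {A W P P' : Type} [NormedRing A] [NormedAlgebra ℂ A] [NormedAddCommGroup W]
    [NormedSpace ℂ W] [NormedAddCommGroup P] [NormedSpace ℂ P] [NormedAddCommGroup P']
    [NormedSpace ℂ P'] {act : A → W → W} {T : Set W} [Holo.IsAct act T] {E : SD A W P}
    {E' : SD A W P'} {r r' : ℕ} (ho : Orb.Orb Aˣ (Holo.Sp act T)) (h : E.Ok act T (r + 1) r)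
    (h' : E'.Ok act T (r' + 1) r') {L : W → P →ₗ[ℂ] P'} (hL : E.Hom E' act T id id L)
    {Λ : VB (spA ho)} (hΛ : Λ.r = 1) {s : Holo.Sp act T → Λ.W} (hs : Λ.IsSec s)
    (hd : Dense {t | s t ≠ 0})
    (inj : ∀ t, s t ≠ 0 → ∀ v ∈ E.B t.val, L t.val v ∈ E'.N t.val → v ∈ E.N t.val)
    (loc : ∀ t₀, s t₀ = 0 → ∃ (y : Holo.Sp act T → P' →ₗ[ℂ] ℂ) (b : Holo.Sp act T → P)
      (l : Holo.Sp act T → Λ.W) (f u : Holo.Sp act T → ℂ),
      Continuous (fun z : Holo.Sp act T × P' => y z.1 z.2) ∧ (∀ t, ∀ w ∈ E'.N t.val, y t w = 0) ∧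
      (∃ w ∈ E'.B t₀.val, y t₀ w ≠ 0) ∧ b t₀ ∉ E.N t₀.val ∧ l t₀ ≠ 0 ∧ u t₀ ≠ 0 ∧
      ∀ᶠ t in 𝓝 t₀, ContinuousAt b t ∧ b t ∈ E.B t.val ∧ ContinuousAt l t ∧ l t ∈ Λ.F t ∧
        ContinuousAt u t ∧ s t = f t • l t ∧ y t (L t.val (b t)) = u t * f t)
    {a : H (Quo act T)} (ha : a = Λ.eu.1) : hcls (E'.eu act T) = hcls (E.eu act T) + a := by
  obtain ⟨U, V, ι, M, -, e, m, c, -⟩ := h.exists_isMod ho
  obtain ⟨U', V', ι', M', -, e', m', -⟩ := h'.exists_isMod ho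
  obtain ⟨Φ, f₁, g₁⟩ := m.exists_hom m' (m := Mor.id _) (L := fun t : Holo.Sp act T => L t.val)
    (hL.continuous c (Holo.Sp.continuous_val.comp (by fun_prop)) (fun y => y.1.1.val_mem)
      (by fun_prop)) (fun t => hL.mapB _ ((presA ho).mem t)) (fun t => hL.mapN _ ((presA ho).mem t))
    fun (g : Aˣ) (t : Holo.Sp act T) => hL.eqv _ t.val_mem _ g.isUnit
  obtain ⟨R, r1, r2⟩ := m'.hom.exists_sect m'.surj
  obtain ⟨κ, hκ⟩ := ι.exists_leftInverse_of_injective (LinearMap.ker_eq_bot.2 m.emb.injective)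
  have k : ∀ t, ∀ w ∈ E.B ((presA ho).i t), κ w ∈ U.F t ∧ ι (κ w) = w := fun t w hw => by
    obtain ⟨v, a, rfl⟩ := (m.map t).ge hw
    rw [show κ (ι v) = v from LinearMap.congr_fun hκ v]
    exact ⟨a, rfl⟩
  rw [SD.eu, SD.eu, SD.hcls_presA ho m, SD.hcls_presA ho m', ha]
  refine congrArg Subtype.val (Grr.eu_of_hom (by omega) (by omega) hΛ f₁ hs hd
    (fun t ht w hw a => ?_) fun t₀ ht => ?_)
  · obtain ⟨u, hu, rfl⟩ := m.surj t w hw
    obtain ⟨v, h1, h2, h3⟩ := g₁ t u hu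
    exact (m.ker t u hu).2 (inj t ht _ (m.mem hu) (h2 ▸ (m'.ker _ v h1).1 (h3.symm.trans a)))
  obtain ⟨y, b, l, f, u, a1, a2, ⟨w, a3, a4⟩, a5, a6, a7, a8⟩ := loc t₀ ht
  have y1 : ∀ t, ∀ v ∈ U'.F t, y t (ι' (R t (M' t v))) = y t (ι' v) := fun t v hv =>
    have a := m'.hom.mem t v hv
    sub_eq_zero.1 ((map_sub _ _ _).symm.trans
      (a2 t _ ((m'.map_eq_iff (r1.mem t _ a) hv).1 (r2 t _ a))))
  have y2 : Continuous fun z : V'.V => ((z.1.1, ι' (R z.1.1 z.1.2)) : Holo.Sp act T × P') :=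
    Continuous.prodMk (continuous_fst.comp continuous_subtype_val)
      (m'.emb.continuous.comp r1.cont)
  refine ⟨fun t => y t ∘ₗ ι' ∘ₗ R t, fun t => M t (U.P t (κ (b t))), l, f, u, a1.comp y2,
    ?_, fun a => ?_, a6, a7, ?_⟩
  · obtain ⟨v, a, rfl⟩ := (m'.map t₀).ge a3
    exact ⟨_, m'.hom.mem _ v a, (y1 _ v a).trans_ne a4⟩
  · have := k t₀ _ a8.self_of_nhds.2.1
    replace a : M t₀ (U.P t₀ (κ (b t₀))) = 0 := a
    rw [U.P_eq this.1] at a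
    exact a5 (this.2 ▸ (m.ker _ _ this.1).1 a)
  filter_upwards [a8.eventually_nhds] with t d
  obtain ⟨d1, d2, d3, d4, d5, d6, d7⟩ := d.self_of_nhds
  have d8 : ContinuousAt (fun t => κ (b t)) t := m.emb.continuousAt_iff.2
    (d1.congr (d.mono fun x a => (k x _ a.2.1).2.symm))
  obtain ⟨v, h1, h2, h3⟩ := g₁ t _ (k t _ d2).1
  refine ⟨(m.hom.continuous continuous_fst (U.continuous_P continuous_fst continuous_snd)
    fun _ => U.P_mem _ _).continuousAt.comp (continuousAt_id.prodMk d8),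
    m.hom.mem _ _ (U.P_mem _ _), d3, d4, d5, d6, ?_⟩
  change y t (ι' (R t (Φ t (M t (U.P t (κ (b t))))))) = u t * f t
  rw [U.P_eq (k t _ d2).1, h3, ← d7]
  exact (y1 t v h1).trans (by rw [h2, (k t _ d2).2])

end Vale.Agent.P269
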