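import Vale.Agent.P269.Fg.Dm
import Vale.Agent.P269.Fg.DivA
import Vale.Agent.P269.Grr.ChC
import Vale.Agent.P269.G3.Line

/-!
# The divisor of a marked point in the universal curve
-/

set_option linter.unusedSectionVars false

namespace Vale.Agent.P269

open P291Z Set Function Topology Filter Cv Holo Module

variable {S Λ R J K ι ν κ : Type} [Fintype S] [Fintype Λ] [Fintype R] [Fintype J] [Fintype K]
  [Fintype ι] [DecidableEq ι] [Fintype ν] [Fintype κ] [DecidableEq R]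

theorem Grr.HolP.exists_mor {A A' W W' : Type} [NormedRing A] [NormedAlgebra ℂ A]
    [NormedAddCommGroup W] [NormedSpace ℂ W] [NormedRing A'] [NormedAlgebra ℂ A']
    [NormedAddCommGroup W'] [NormedSpace ℂ W'] {act : A → W → W} {act' : A' → W' → W'} {T : Set W}
    {T' : Set W'} {Y : Loc.HO} {q : Ch.Pres Y.toSp act' T'} {τ : Y.G →* A'ˣ} (h : Grr.HolP q τ)
    [IsAct act T] (ho : Orb.Orb Aˣ (Holo.Sp act T)) {θ : A → A'} {f : W → W'}
    (hf : Ch.EqM act act' T T' θ f) : ∃ μ : Ch.Mor (Ch.spA ho) Y.toSp,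
      (∀ t : Holo.Sp act T, q.i (μ.f t) = f t.val) ∧ ∀ z, μ.map z = q.e (hf.map z) := by
  obtain ⟨θ', c, e⟩ := hf.hom
  choose k hk using fun t : Holo.Sp act T => q.surj _ (hf.maps t.val_mem)
  let ρ := MulEquiv.ofBijective τ h.homeo.bijective
  let μ : Ch.Mor (Ch.spA ho) Y.toSp := ⟨ρ.symm.toMonoidHom.comp θ', k,
    h.homeo.homeomorph.symm.continuous.comp c, q.emb.continuous_iff.2
      ((hf.cont.comp_continuous Holo.Sp.continuous_val Holo.Sp.val_mem).congr fun t => (hk t).symm),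
    fun (g : Aˣ) (t : Holo.Sp act T) => q.emb.injective ((hk _).trans (by
      rw [q.eqv, hk, h.u]
      exact (hf.eqv _ g.isUnit _ t.val_mem).trans (congrArg (act' · _)
        ((congrArg Units.val (ρ.apply_symm_apply (θ' g))).trans (e g)).symm)))⟩
  exact ⟨μ, hk, fun z => Quot.inductionOn z fun t => (μ.map_π t).trans ((q.map _).symm.trans
    (congrArg (fun y => q.e (Quo.mk _ y)) (Subtype.ext (hk t))))⟩

namespace Ch

namespace DvA

section zq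

variable {ch : Ch ι J} (η η₀ : (Fin (ch.M ch.o) → ℂ) →L[ℂ] ℂ)

theorem zq_smul {s : ι → ℂ} (hs : ∀ i, s i ≠ 0) (c : V ch.M) : zq η η₀ (s • c) = zq η η₀ c := by
  rw [zq, Pi.smul_apply', map_smul, map_smul, smul_eq_mul, smul_eq_mul, mul_div_mul_left _ _ (hs _),
    zq]

theorem analyticAt_zq {c : V ch.M} (h : η₀ (c ch.o) ≠ 0) : AnalyticAt ℂ (zq η η₀) c :=
  have a : AnalyticAt ℂ (fun c : V ch.M => c ch.o) c := analyticAt_pi_iff.1 analyticAt_id _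
  ((η.analyticAt _).comp a).div ((η₀.analyticAt _).comp a) h

theorem hasDerivAt_zq {γ : ℂ → V ch.M} (h1 : AnalyticAt ℂ γ 0) (h : η₀ (γ 0 ch.o) ≠ 0) :
    HasDerivAt (fun z => zq η η₀ (γ z)) (dq η η₀ (γ 0) (deriv γ 0) / η₀ (γ 0 ch.o) ^ 2) 0 :=
  have a := hasDerivAt_pi.1 h1.differentiableAt.hasDerivAt ch.o
  (η.hasFDerivAt.comp_hasDerivAt 0 a).div (η₀.hasFDerivAt.comp_hasDerivAt 0 a) h

/-- The numerator of the differential as a linear map. -/
noncomputable def dqL (c : V ch.M) : V ch.M →ₗ[ℂ] ℂ :=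
  (η₀ (c ch.o) • η.toLinearMap - η (c ch.o) • η₀.toLinearMap) ∘ₗ LinearMap.proj ch.o

theorem dqL_apply (c v : V ch.M) : dqL η η₀ c v = dq η η₀ c v :=
  congrArg (· - η (c ch.o) * η₀ (v ch.o)) (mul_comm _ _)

theorem loc_zq {U : Loc.HO} {g : ℤ} {m : ι → ℤ} {F : Grr.CF U ch.M ch.o g m} {s : F.Sec}
    {L : VB F.US} {σ : F.UT → L.W} (hd : s.IsDv L σ) {x : F.UT} (hx : x ∈ s.D)
    (h0 : η₀ (s.p x.t ch.o) ≠ 0) (h1 : ∃ v ∈ Psi.Tg (F.C x.t) (s.p x.t), dq η η₀ (s.p x.t) v ≠ 0) :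
    ∃ l : F.UT → L.W, l x ≠ 0 ∧ ∀ᶠ y in 𝓝 x, ContinuousAt l y ∧ l y ∈ L.F y ∧
      σ y = (zq η η₀ y.c - zq η η₀ (s.p y.t)) • l y := by
  obtain ⟨τ, a1, a2⟩ := id hx
  obtain ⟨Ψ, a3, a4⟩ := s.hol x.t
  have a5 : s.p x.t = Ψ (U.ι x.t) := a4.self_of_nhds
  have a6 : AnalyticAt ℂ (fun a : U.A × V ch.M => zq η η₀ a.2 - zq η η₀ (Ψ a.1)) (F.ιU x) :=
    ((analyticAt_zq η η₀ (c := x.c) (by
      rw [a2, Pi.smul_apply', map_smul]
      exact smul_ne_zero (a1 _) h0)).comp_of_eq (analyticAt_snd (p := F.ιU x)) rfl).sub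
      ((analyticAt_zq η η₀ (a5 ▸ h0)).comp_of_eq
        (a3.comp_of_eq (analyticAt_fst (p := F.ιU x)) rfl) rfl)
  refine hd.loc x hx _ _ a6 ((Grr.CF.UT.continuous_t.continuousAt.eventually a4).mono
    fun y e => congrArg (fun c => _ - zq η η₀ c) e)
    (.of_forall fun y ⟨t, b1, b2⟩ => by rw [b2, zq_smul η η₀ b1, sub_self]) ?_
  obtain ⟨γ, b1, b2, b3, b4⟩ : ∃ γ : ℂ → V ch.M, AnalyticAt ℂ γ 0 ∧ (∀ᶠ t in 𝓝 0, γ t ∈ F.C x.t) ∧
      γ 0 = s.p x.t ∧ dq η η₀ (γ 0) (deriv γ 0) ≠ 0 := by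
    by_contra! b
    obtain ⟨v, b1, b2⟩ := h1
    refine b2 ((dqL_apply η η₀ _ _).symm.trans
      ((Submodule.span_le (p := LinearMap.ker (dqL η η₀ (s.p x.t)))).2 ?_ b1))
    rintro _ ⟨γ, c1, c2, c3, rfl⟩
    exact (dqL_apply η η₀ _ _).trans (c3 ▸ b γ c1 c2 c3)
  have b5 : AnalyticAt ℂ (fun z => τ • γ z) 0 := Base.an_smul analyticAt_const b1
  have b6 : τ • γ 0 = x.c := by rw [b3, a2]
  refine ⟨_, (Grr.CF.exists_vert b5 (b2.mono fun z => (F.crv _).cone _ a1 _) b6).1, fun e => ?_⟩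
  have b7 := a6.differentiableAt.hasFDerivAt.comp_hasDerivAt_of_eq 0
    ((hasDerivAt_const (0 : ℂ) (U.ι x.t)).prodMk b5.differentiableAt.hasDerivAt)
    (Prod.ext rfl b6.symm)
  rw [e] at b7
  have b8 := (hasDerivAt_zq η η₀ b1 (b3 ▸ h0)).sub_const (zq η η₀ (Ψ (U.ι x.t)))
  exact div_ne_zero b4 (pow_ne_zero _ (b3 ▸ h0)) (b8.unique
    (b7.congr_of_eventuallyEq (.of_forall fun z => congrArg (· - _) (zq_smul η η₀ a1 _).symm)))

end zq

section dv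

variable {ch : Ch ι J} {W : Wt S Λ R J} {O Z : Set (ch.WF ν κ Λ)}

section ch

variable {U : Loc.HO} {F : Grr.CF U ch.M ch.o ch.g ch.m} {p : Pres U.toSp (actF W) O}
  {τ : U.G →* (ch.AF ν κ S)ˣ} {pC : Pres F.US (actC W) (unv O)} (c : Grr.IsCh F p τ)
  (q : Grr.IsPC F p pC) {n : Mk ν κ} {L : VB F.US} {σ : F.UT → L.W} (hd : (c.sec n).IsDv L σ)
include q

theorem supp_dv {x : unv O} (hx : Quo.mk _ x ∈ supp (pull pC.e hd.sec.eul)) : OnD n x.1 := by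
  obtain ⟨t, rfl⟩ : ∃ t, ⟨_, pC.mem t⟩ = x := (pC.surj _ x.2).imp fun _ => Subtype.ext
  have a := hd.sec.isCo.supp (supp_pull pC.e.continuous _ hx)
  rw [pC.map, hd.sec.mem_zeros] at a
  obtain ⟨s, -, b⟩ := (hd.zero t).1 a
  exact (congrArg (OnD n) (q.i t)).mpr ⟨s, b⟩

theorem cap_dv {β βC} (hβ : push p.e β = U.fund) (hC : push pC.e βC = F.UC.fund) :
    cap (hcls (pull pC.e hd.sec.eul)) βC = push (secC W c.base n) β := by
  have := p.nice
  have := pC.nice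
  have a := Grr.push_sq pC.isHomeomorph_e p.isHomeomorph_e
    (.of_isClosedEmbedding (c.sec n).isClosedEmbedding) (c.secC_eq q n) 1 β
  have b := hd.cap 1
  rw [map_one, cap_one, hβ] at a
  rw [one_mul, map_one] at b
  refine Grr.push_injective pC.isHomeomorph_e ?_
  rw [← H.map_hcls _ hd.sec.isCo.cocycle, push_cap (Grr.isPr_homeo pC.isHomeomorph_e), hC,
    hd.sec.hcls_eul]
  exact b.trans a.symm

theorem dvU_of (hp : Grr.HolP p τ) (e : Z ⊆ O) [IsAct (actF W) Z]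
    (hZ : Orb.Orb (ch.AF ν κ S)ˣ (Holo.Sp (actF W) Z)) :
    DvU W Z n (pull (Quo.incl _ (unv_mono e)) (pull pC.e hd.sec.eul)) := by
  intro A W' P _ _ _ _ _ _ _ _ act T _ θ f hf E r L' ho hE hL hT inj ml
  obtain ⟨μ, m1, m2⟩ := (q.holP hp).exists_mor ho ((EqM.incl (unv_mono e)).comp hf)
  have m3 : ∀ t : Holo.Sp act T, p.i (Grr.CF.UT.t (μ.f t)) = (f t.val).1 := fun t =>
    congrArg Prod.fst ((q.i _).symm.trans (m1 t))
  have m4 : ∀ t : Holo.Sp act T, Grr.CF.UT.c (μ.f t) = (f t.val).2 := fun t =>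
    congrArg Prod.snd ((q.i _).symm.trans (m1 t))
  have m5 : ∀ t : Holo.Sp act T, σ (μ.f t) = 0 ↔ OnD n (f t.val) := fun t => by
    rw [OnD, ← m3, ← m4]
    exact (hd.zero _).trans ⟨fun ⟨s, _, a⟩ => ⟨s, a⟩, fun ⟨s, a⟩ => .of_smul (Grr.CF.UT.ne _) a⟩
  have hf' := (eqM_unv W Z).comp hf
  have o := c.cuts.okψ (S := S) (F := W) (fun x hx => c.base x (e hx)) n
  have o' := o.pb hf'
  have z : ∀ (N : Submodule ℂ (V ch.M)) v, v - v ∈ N := fun N v => by simp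
  rw [pull_pull, show prC W Z ∘ hf.map = hf'.map from hf'.eq_map fun _ => rfl,
    ← (o'.pull ho hZ o hf' (L := fun _ => .id) ⟨fun _ _ => continuousOn_const, fun _ _ _ a => a,
      fun _ _ _ a => a, fun _ _ _ _ _ _ => z _ _⟩ (fun _ _ _ _ a => a)
      fun _ _ w a => ⟨w, a, z _ _⟩).1]
  refine SD.Ok.eu_div ho hE o' ⟨hL.cont, hL.mapB, hL.mapN, hL.eqv⟩ (Λ := L.pb μ) hd.rank
    (hd.sec.pb μ) (Subtype.dense_iff.2 (hT.trans (closure_mono fun y hy =>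
      ⟨⟨y, hy.1⟩, fun a => hy.2 ((m5 _).1 a), rfl⟩)))
    (fun t ht => inj _ t.val_mem fun a => ht ((m5 t).2 a)) (fun t₀ h0 => ?_) ?_
  · obtain ⟨η, η₀, ⟨a1, a2⟩, b, u, a3, a4, a5⟩ := ml _ t₀.val_mem ((m5 _).1 h0)
    obtain ⟨l, l1, l2⟩ := loc_zq η η₀ hd ((hd.zero _).1 h0) (by rwa [c.sec_p, m3])
      (by rwa [c.C, c.sec_p, m3])
    have v : ∀ t : Holo.Sp act T, Tendsto Holo.Sp.val (𝓝 t) (𝓝[T] t.val) := fun t =>
      tendsto_nhdsWithin_iff.2 ⟨Holo.Sp.continuous_val.tendsto _, .of_forall Holo.Sp.val_mem⟩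
    have c1 : Continuous fun t : Holo.Sp act T => (f t.val).1.2.p n :=
      (Ch.W.pL (ch := ch) n).continuous.comp
        (hf.cont.comp_continuous Holo.Sp.continuous_val Holo.Sp.val_mem).fst.snd
    refine ⟨fun t => dqL η η₀ ((f t.val).1.2.p n), fun t => b t.val, fun t => l (μ.f t),
      fun t => zq η η₀ (f t.val).2 - zq η η₀ ((f t.val).1.2.p n), fun t => u t.val, ?_,
      fun t w hw => ?_, a2.imp fun v a => ⟨a.1, (dqL_apply η η₀ _ _).trans_ne a.2⟩, a3, l1, a4, ?_⟩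
    · simp only [dqL_apply]
      exact (show Continuous fun z : V ch.M × V ch.M => dq η η₀ z.1 z.2 by
        unfold dq; fun_prop).comp (c1.prodMap continuous_id)
    · obtain ⟨s, rfl⟩ : ∃ s : ι → ℂ, w = s • (f t.val).1.2.p n := Psi.mem_Nr.1 hw
      rw [dqL_apply, dq, Pi.smul_apply', map_smul, map_smul, smul_eq_mul, smul_eq_mul]
      ring
    filter_upwards [(v t₀).eventually a5, μ.cf.continuousAt.eventually l2]
      with t ⟨d1, d2, d3, d4⟩ ⟨d5, d6, d7⟩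
    rw [c.sec_p, m3, m4] at d7
    exact ⟨d1.tendsto.comp (v t), d3, d5.comp μ.cf.continuousAt, d6, d2.tendsto.comp (v t), d7,
      (dqL_apply η η₀ _ _).trans d4⟩
  · rw [pull_pull, pull_pull, show pC.e ∘ Quo.incl _ (unv_mono e) ∘ hf.map = μ.map from
      funext fun z => Quot.inductionOn z fun x => (m2 (Quo.mk _ x)).symm]
    exact (H.map_hcls μ.map hd.sec.isCo.cocycle).symm.trans ((congrArg _ hd.sec.hcls_eul).trans
      (congrArg Subtype.val (L.eu_pb μ)).symm)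

end ch

variable (W) in
theorem eqM_sec (hZ : ∀ x ∈ Z, x.2 ∈ ch.base (Mk ν κ)) (n : Mk ν κ) :
    EqM (actF W) (actC W) Z (unv Z) (fun a => (a, (dup a.2).2.2 n)) fun x => (x, x.2.p n) :=
  ⟨⟨Units.map ((MonoidHom.id _).prod (MonoidHom.pi (Grr.mkM n))), Units.continuous_map
    (continuous_id.prodMk (continuous_pi fun i => (show Continuous
      fun s : ch.AF ν κ S => s.2.2.2 (n.map id Prod.fst) i by fun_prop))), fun _ => rfl⟩,
    fun _ hx => ⟨hx, ((hZ _ hx).2.2.2.1 n).1⟩, (continuous_id.prodMk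
      ((Ch.W.pL (ch := ch) n).continuous.comp continuous_snd)).continuousOn, fun _ _ _ _ => rfl⟩

theorem eqM_sec_map (hZ : ∀ x ∈ Z, x.2 ∈ ch.base (Mk ν κ)) (n : Mk ν κ) :
    ⇑(eqM_sec W hZ n).map = secC W hZ n := ((eqM_sec W hZ n).eq_map fun _ => rfl).symm

end dv

end DvA

open DvA

variable {ch : Ch ι J} {F : Fam S Λ R J K} {e : K → ι → ℕ} {d n r : ℕ} {O : Set (ch.WF ν κ Λ)}

theorem Dmn.push_secC (h : Dmn F e O d n r) (m : Mk ν κ) (β : BM (Quo (actF F.toWt) O)) :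
    push (secC _ Z0_base m) ((ch.kd ν κ F e).vr (actF F.toWt) (Z0 F ch ν κ) O β) =
      (ch.kdC ν κ F e).vr (actC F.toWt) (unv (Z0 F ch ν κ)) (unv O)
        (push (secC _ h.ver.base m) β) := by
  have := h.gdC.nice
  have p : IsPr (eqM_sec F.toWt h.ver.base m).map := by
    rw [eqM_sec_map h.ver.base]
    exact .of_isClosedEmbedding (isClosedEmbedding_secC _ m)
  have := (h.gdC.vr_push (eqM_sec _ h.ver.base m) h.gd p (eqM_sec F.toWt Z0_base m).maps β).2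
  rwa [eqM_sec_map Z0_base, eqM_sec_map h.ver.base] at this

theorem Dmn.exists_div (h : Dmn F e O d n r) (m : Mk ν κ) :
    ∃ t : Coch (Quo (actC F.toWt) (unv (Z0 F ch ν κ))), supp (δ t) = ∅ ∧
      supp t ⊆ range (secC _ Z0_base m) ∧
      cap (hcls t) (virC F e _) = push (secC _ Z0_base m) (virF F e _) ∧
      DvU F.toWt (Z0 F ch ν κ) m t := by
  have := h.gd.dom.isAct
  have := h.gdC.dom.isAct
  have := h.gd.isActZ
  have ho := h.gd.dom.orb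
  by_cases h3 : 3 ≤ ch.M ch.o
  · have c := Grr.isCh_cfF ho h.mf h.num h.ver h3
    have hp := Grr.holP_hoF ho h.mf
    obtain ⟨pC, q⟩ := c.exists_pC
    obtain ⟨L, σ, hd⟩ := (c.sec m).exists_dv
    have c1 := cocycle_pull pC.e.continuous hd.sec.isCo.cocycle
    have c2 := h.gdC.isClosedEmbedding.continuous
    refine ⟨_, cocycle_pull c2 c1, Quot.ind fun x hx => (mk_mem_range_secC _ m x).2
      (supp_dv c q hd (x := ⟨x.1, h.gdC.dom.sub x.2⟩) (supp_pull c2 _ hx)), ?_,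
      dvU_of c q hd hp h.gd.dom.sub h.gd.orbZ⟩
    rw [h.virC_eq, h.virF_eq, ← h.gdC.vr_cap c1, h.push_secC]
    exact congrArg _ (cap_dv c q hd hp.push_fnd (q.holP hp).push_fnd)
  have h0 : ∀ x, x ∉ Z0 F ch ν κ := fun x hx => by
    simpa [Grr.crv_empty h.num h.ver h3 (h.gd.dom.sub hx)] using ((Z0_base x hx).2.2.2.1 m).1
  have : IsEmpty (Quo (actC F.toWt) (unv (Z0 F ch ν κ))) := ⟨Quot.ind fun x => h0 _ x.2.1⟩
  refine ⟨0, eq_empty_of_isEmpty _, fun x => isEmptyElim x, Grr.NL.bm_eq _ _, ?_⟩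
  intro A W' P _ _ _ _ _ _ _ _ act T _ θ f hf E r L' _ _ _ _ _ _
  have : IsEmpty (Quo act T) := Function.isEmpty hf.map
  exact Subsingleton.elim _ _

end Ch

end Vale.Agent.P269
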