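import Vale.Agent.P269.Gen.Num
import Vale.Agent.P269.Vir.KP
import Vale.Agent.P269.Cv.Ctr
import Vale.Agent.P269.Pt.Sel

/-!
# Forgetting a marked point: the universal curve and the statement
-/

set_option linter.unusedSectionVars false

namespace Vale.Agent.P269

open P291Z Set Function Topology Filter Cv

variable {S Λ R J K ν κ ν' κ' : Type} [Fintype S] [Fintype Λ] [Fintype R] [Fintype J] [Fintype K]
  [Fintype ν] [Fintype κ] [Fintype ν'] [Fintype κ']

namespace Ch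

variable {ι : Type} [Fintype ι] [DecidableEq ι] (ch : Ch ι J) (ν κ)

/-- Points of the chart with a point of the multicone. -/
abbrev WC (Λ : Type) : Type := ch.WF ν κ Λ × V ch.M

/-- The group of the chart and one more torus. -/
abbrev AU (S : Type) : Type := ch.AF ν κ S × (ι → ℂ)

variable {ch ν κ}

noncomputable instance instNormedRingAU : NormedRing (ch.AU ν κ S) := inferInstance

noncomputable instance instNormedAlgebraAU :
    @NormedAlgebra ℂ (ch.AU ν κ S) _ NormedRing.toSeminormedRing := Prod.normedAlgebra ℂ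

instance : FiniteDimensional ℂ (ch.AU ν κ S) := inferInstance

instance : CompleteSpace (ch.AU ν κ S) := inferInstance

instance : FiniteDimensional ℂ (ch.WC ν κ Λ) := inferInstance

/-- The action on the universal curve. -/
noncomputable def actC (F : Wt S Λ R J) (s : ch.AU ν κ S) (x : ch.WC ν κ Λ) : ch.WC ν κ Λ :=
  (actF F s.1 x.1, fun i => s.2 i • s.1.2.1 i (x.2 i))

/-- The universal curve over `Z`. -/
def unv (Z : Set (ch.WF ν κ Λ)) : Set (ch.WC ν κ Λ) := {x | x.1 ∈ Z ∧ x.2 ∈ crv x.1.2}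

variable {F : Wt S Λ R J} {Z : Set (ch.WF ν κ Λ)}

variable (F Z) in
/-- The projection of the universal curve. -/
def prC : Quo (actC F) (unv Z) → Quo (actF F) Z :=
  Quot.map (fun x => ⟨x.1.1, x.2.1⟩) fun _ _ ⟨a, h, e⟩ =>
    ⟨a.1, h.map (RingHom.fst _ _), congrArg Prod.fst e⟩

variable (F) in
/-- The section of the universal curve given by a marked point. -/
def secC (hZ : ∀ x ∈ Z, x.2 ∈ ch.base (Mk ν κ)) (n : Mk ν κ) :
    Quo (actF F) Z → Quo (actC F) (unv Z) :=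
  Quot.map (fun x => ⟨(x.1, x.1.2.p n), x.2, ((hZ _ x.2).2.2.2.1 n).1⟩) fun _ _ ⟨a, h, e⟩ =>
    ⟨(a, (dup a.2).2.2 n), Prod.isUnit_iff.2 ⟨h, isUnit_pi_iff.2
      ((Cv.isUnit_iff.1 (isUnit_dupF h)).2.2 n)⟩, Prod.ext e (congrArg (·.2.p n) e)⟩

open Classical in
/-- Pull-back of a cochain along the universal map (junk if the values are not in `A`). -/
noncomputable def evC (A : Set ((Λ → ℂ) × (J → ℂ))) (a : Coch (F.X A)) :
    Coch (Quo (actC F) (unv Z)) :=
  if h : ∀ z : Quo (actC F) (unv Z),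
      ((Quo.out z).1.1.1, fld (Quo.out z).1.1.2 (Quo.out z).1.2) ∈ A
  then pull (fun z => Quo.mk F.actT ⟨_, h z⟩) a else 0

variable (F Z) in
/-- The first Chern class of `O(a)` on the universal curve. -/
noncomputable def oC (a : ι → ℤ) : H (Quo (actC F) (unv Z)) :=
  hcls (eulerC (actC F) (fun s (z : ℂ) => (∏ i, s.2 i ^ a i) * z) (unv Z) (fun _ => ⊤) fun _ => ⊥)

variable (F : Fam S Λ R J K) (e : K → ι → ℕ)

variable (ch ν κ) in
/-- The Kuranishi data of the universal curve. -/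
@[reducible] noncomputable def kdC : KD (ch.AU ν κ S) (ch.WC ν κ Λ) (ch.P K) :=
  (ch.kd ν κ F e).pb Prod.fst Prod.fst

/-- The universal curve over the moduli space. -/
abbrev ModC (S₀ : Set (ch.WF ν κ Λ)) : Type := Quo (actC F.toWt) (unv (ch.solF ν κ F ∩ S₀))

/-- The virtual class of the universal curve in terms of presentations. -/
abbrev IsVC (S₀ : Set (ch.WF ν κ Λ)) (v : BM (ModC F S₀)) : Prop :=
  (ch.kdC ν κ F e).IsV (actC F.toWt) (unv (ch.solF ν κ F ∩ S₀)) (unv S₀) v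

/-- The virtual class of the universal curve. -/
noncomputable def virC (S₀ : Set (ch.WF ν κ Λ)) : BM (ModC F S₀) := Classical.epsilon (IsVC F e S₀)

end Ch

/-- `m'` arises from `m` by marking the point `z` and stabilising; `e none` is the new marking. -/
structure AM.Fg (e : Option (Ch.Mk ν κ) ≃ Ch.Mk ν' κ') (m : AM Λ R J ν κ) (z : m.X)
    (m' : AM Λ R J ν' κ') (j : m.X → m'.X) (r : m'.X → m.X) : Prop where
  ctr : Ctr m.R m'.R m.N m'.N m.p (fun n => m'.p (e n)) z j r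
  L : ∀ i, m'.L i = ctr.up (m.L i)
  l : m'.l = m.l
  y : ∀ a x, m'.y a x = m.y a (r x)

/-- The connected component of the marked point `q` becomes unstable when `q` is forgotten. -/
def AM.Un (θ : R → ℤ) (q : Ch.Mk ν κ) (m : AM Λ R J ν κ) : Prop :=
  degOn (m.ω * bz m.L θ) (m.cmp (m.p q)) = 1

/-- The factors after adding a marked point. -/
def Fac.up {F : Wt S Λ R J} [IsEmpty κ] (e : Option (Ch.Mk ν κ) ≃ Ch.Mk ν' κ') :
    Fac F ν κ → Fac F ν' κ'
  | .psi n => .psi (e (some n))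
  | .ev n A c => .ev (e (some n)) A c
  | .par A c => .par A c
  | .dg q => isEmptyElim q
  | .tw Θ => .tw Θ

namespace Fam

variable (F : Fam S Λ R J K) [DecidableEq R]

variable (ν κ) in
/-- The solutions in the standard chart of the absolute theory. -/
abbrev Z0 (k D : ℕ) (g : ℤ) (d : R → ℤ) : Set ((F.sch ν κ k D g d).WF ν κ Λ) :=
  (F.sch ν κ k D g d).solF ν κ F ∩ (F.sch ν κ k D g d).cyc κ F (0 : ν → J → ℕ)

variable (ν κ) in
/-- The universal curve over the moduli space. -/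
abbrev ModC (k D : ℕ) (g : ℤ) (d : R → ℤ) : Type :=
  Ch.ModC F ((F.sch ν κ k D g d).cyc κ F (0 : ν → J → ℕ))

variable (ν κ) in
/-- Its virtual class. -/
noncomputable def virC (k D : ℕ) (g : ℤ) (d : R → ℤ) : BM (F.ModC ν κ k D g d) :=
  Ch.virC F (F.tdeg (F.sch ν κ k D g d)) _

variable {F}

theorem Z0_base {k D : ℕ} {g : ℤ} {d : R → ℤ} : ∀ x ∈ F.Z0 ν κ k D g d, x.2 ∈ Ch.base _ _ :=
  fun _ h => h.1.1.2.1

/-- `Φ` identifies the universal curve with the part of the moduli space with one more marked point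
where forgetting that point does not destabilise a connected component. -/
structure Fgt {k D D' : ℕ} {g : ℤ} {d : R → ℤ} (e : Option (Ch.Mk ν κ) ≃ Ch.Mk ν' κ')
    (Φ : F.ModC ν κ k D g d → F.Mod κ' k D' g d (0 : ν' → J → ℕ)) : Prop where
  emb : IsOpenEmbedding Φ
  range : range Φ = (F.sel (AM.Un F.θ (e none)))ᶜ
  clopen : IsClopen (Set.range Φ)
  pt : ∀ (x : F.Z0 ν κ k D g d) m B π u s (h : Ch.RepD ℓs univ x.1 m B π u s) z
    (x' : F.Z0 ν' κ' k D' g d) m' j r, AM.Fg e m z m' j r → Ch.Rep ℓs univ x'.1 m' →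
    Φ (Quo.mk _ ⟨(x.1, π z), x.2, h.cr.par.mem z⟩) = Quo.mk _ x'
  vir : ∀ [P291Z.Nice (F.Mod κ' k D' g d (0 : ν' → J → ℕ))],
    res Φ (F.vir κ' k D' g d 0) = F.virC ν κ k D g d
  tw : ∀ Θ, hcls (pull Φ (F.coch _ (.tw Θ))) = hcls (pull (Ch.prC _ _) (F.coch _ (.tw Θ)))
  new : (k : ℂ) • hcls (pull Φ (Ch.psiF (e none))) = Ch.oC _ _ (F.sch ν κ k D g d).χ
  old : ∀ n, ∃ t : Coch (F.ModC ν κ k D g d), supp (δ t) = ∅ ∧
    supp t ⊆ Set.range (Ch.secC _ Z0_base n) ∧
    hcls (pull Φ (Ch.psiF (e (some n)))) = hcls (pull (Ch.prC _ _) (Ch.psiF n)) + hcls t ∧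
    cap (hcls t) (F.virC ν κ k D g d) = push (Ch.secC _ Z0_base n) (F.vir κ k D g d 0)

end Fam

/-- **Forgetting a marked point.** -/
def St.Forget : Prop :=
  ∀ {S Λ R J K ν κ ν' κ' : Type} [Fintype S] [Fintype Λ] [Fintype R] [Fintype J] [Fintype K]
    [Fintype ν] [Fintype κ] [Fintype ν'] [Fintype κ'] [IsEmpty κ] [IsEmpty κ'] [DecidableEq R]
    (F : Fam S Λ R J K) (k : ℕ) (g : ℤ) (d : R → ℤ) (e : Option (Ch.Mk ν κ) ≃ Ch.Mk ν' κ'),
    F.Nice 0 → F.Abs → F.Cp → F.Big k → ∀ᶠ D in atTop, ∀ᶠ D' in atTop,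
    ∃ Φ : F.ModC ν κ k D g d → F.Mod κ' k D' g d (0 : ν' → J → ℕ), Fam.Fgt e Φ

end Vale.Agent.P269
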