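import Vale.Agent.P269.Fg.JcL
import Vale.Agent.P269.Cv.CtrB

/-!
# The joint chart: contraction of the curve
-/

set_option linter.unusedSectionVars false

namespace Vale.Agent.P269

open P291Z Set Function Topology Filter Cv Ch MvPolynomial Jc Holo

section gen

variable {ι ι' J J' ν X : Type} [Fintype ι] [Fintype ι'] [Fintype J] [Fintype J'] [DecidableEq ι]
  [DecidableEq ι'] [Fintype ν] [TopologicalSpace X] [T2Space X] [CompactSpace X] {R : RS X}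
  {N : Finset (X × X)}

/-- division by a power of the canonical section -/
theorem Cv.exists_div_pow {p : X} (hp : Sm N p) {L : LB R} (k : ℕ) {s : X → ℂ}
    (h : s ∈ H0 N (L * R.pt p ^ k)) (ho : (L * R.pt p ^ k).ord s p = k) :
    ∃ s' ∈ H0 N L, s' p ≠ 0 ∧ ∀ y ≠ p, s' y = s y := by
  induction k generalizing s with
  | zero =>
    rw [pow_zero, mul_one] at h ho
    exact ⟨s, h, (LB.ord_eq_zero (h.1 p)).1 ho, fun _ _ => rfl⟩
  | succ k ih =>
    rw [pow_succ, ← mul_assoc] at h ho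
    obtain ⟨s', a, b, c⟩ := exists_div0 hp h (by_contra fun e => Nat.succ_ne_zero k
      (Nat.cast_eq_zero.1 (ho.symm.trans ((LB.ord_eq_zero (h.1 p)).2 e))))
    rw [b, LB.ord_mul (a.1 p) (R.can_mem p p), R.ord_can, Nat.cast_succ] at ho
    obtain ⟨t, d, e, f⟩ := ih a (WithTop.add_right_cancel ENat.one_ne_top ho)
    exact ⟨t, d, e, fun y hy => (f y hy).trans (c y hy)⟩

theorem Cv.degOn_omega_le (N : Finset (X × X)) (P : Finset X) {U : Set X} (hU : IsClopen U) :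
    degOn (omega R N ∅) U ≤ degOn (omega R N P) U := by
  rw [degOn_omega, degOn_omega, Finset.sum_empty]
  refine add_le_add le_rfl (Finset.sum_nonneg fun p _ => ?_)
  rw [degOn_pt hU]
  split_ifs
  exacts [zero_le_one, le_rfl]

open Classical in
theorem Ch.Res.Lnk.isXi_of_sec {ch' : Ch ι' J'} {D : ch'.Res ι J} {L : D.Lnk} {x : ch'.W ν}
    {A : ι' → LB R} {π : X → V ch'.M} {u : X → ∀ l, ch'.E l →L[ℂ] ℂ} {p : ν → X} {ξ : X → ℂ}
    (h : ∀ j, L.n j ≠ 0 → ∀ c ∈ crv x, ∃ y, Val x j c y) (c : Cr N A x π u p ξ)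
    {Ξ : Tn D.ch.M D.ch.slot →L[ℂ] D.ch.E none}
    (e : ∀ y, Sm N y ∧ y ∉ Finset.univ.image p → ∀ μ, u y D.l₀ (Ξ μ) =
      (ξ y ^ L.r * ∏ j, fld x (π y) j ^ L.n j) *
        wedge (ch := D.ch) μ (rV D.σ (π y)) (rV D.σ (deriv (br A π y) 0))) :
    L.IsXi x Ξ := fun γ ρ hγ hs hρ w hw μ => by
  obtain ⟨y, t, b, a, ht, ha, hy, e0, e1, k⟩ := c.exists_leadAt hγ hs
  have f : ∏ j, fld x (t • π y) j ^ L.n j =
      (∏ j, (∏ i, t i ^ ch'.wd j i) ^ L.n j) * ∏ j, fld x (π y) j ^ L.n j := by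
    rw [← Finset.prod_mul_distrib]
    refine Finset.prod_congr rfl fun j _ => ?_
    by_cases e : L.n j = 0
    · simp [e]
    · rw [fld_eq (crv_smul (c.par.mem y) ht) ((val_fld (h j e _ (c.par.mem y))).smul ht), mul_zpow]
  rw [(k ρ).1 hρ]
  rw [e0] at hw ⊢
  rw [gr_unique hw (gr_smul (c.gr y) ht) (c.mem.1 _), _root_.smul_apply, e y hy, rV_smul, f,
    wedge_smul (ch := D.ch) μ _ _ (rV D.σ (deriv (br A π y) 0)) _ (e1 _), ← D.chr_a none,
    chr_χ (ch := D.ch) _ fun _ => ht _, L.prod_χ ht, smul_eq_mul]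
  simp only [L.k_eq, mul_pow, div_pow, ← pow_mul, mul_comm L.r]
  generalize wedge (ch := D.ch) μ _ _ = W
  generalize (∏ j, fld x (π y) j ^ L.n j) = P
  generalize (∏ j, (∏ i, t i ^ ch'.wd j i) ^ L.n j) = P'
  generalize (∏ i, t i ^ ch'.χ i) = P''
  field_simp

theorem Cv.Ctr.par_down {X' : Type} [TopologicalSpace X'] [T2Space X'] [CompactSpace X'] {R' : RS X'}
    {N' : Finset (X' × X')} {p : ν → X} {p' : Option ν → X'} {z : X} {j : X → X'} {r : X' → X}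
    (h : Ctr R R' N N' p p' z j r) {M : ι' → ℕ} {σ : ι → ι'} {A : ι → LB R} {B : ι' → LB R'}
    {π : X' → V M} (hf : Full N' B π) (h0 : ∀ y i, π y i ≠ 0) (e : ∀ i, B (σ i) = h.up (A i)) {o : ι}
    (ho : Ge (A o / omega R N ∅) 3) : (∀ y, rV σ (π y) = rV σ (π (j (r y)))) ∧
      Par o (cone fun y => rV σ (π (j y))) N A fun y => rV σ (π (j y)) := by
  choose t a b using fun i q => h.mem_up.1 (e i ▸ hf.sec (σ i) q)
  have c : ∀ i q, (fun y => rV σ (π (j y)) i q) ∈ H0 N (A i) := fun i q =>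
    mem_of_eq_of_mem (funext fun y => (congrFun (b i q) (j y)).trans (congrArg _ (h.left y))) (a i q)
  refine ⟨fun y => funext₂ fun i q => (congrFun (b i q) y).trans ((congrArg _ (h.left _).symm).trans
    (congrFun (b i q) _).symm), Full.par ⟨c, fun i s hs => ?_⟩ h.nd ho fun i y => ?_⟩
  · obtain ⟨l, d⟩ := hf.span (σ i) _ ((e i).symm ▸ h.mem_up.2 ⟨s, hs, rfl⟩)
    exact ⟨l, fun y => (congrArg s (h.left y).symm).trans (d (j y))⟩
  · obtain ⟨q, d⟩ := ne_iff.1 (h0 (j y) (σ i))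
    exact ⟨_, c i q, d⟩

theorem Jc.grp {G : Type} [CommGroup G] (a b c d e f : G) (k : ℕ) :
    a / b * (b / c * ((d / e / f) ^ k)⁻¹ * (d ^ k / a)) = f ^ k / c * e ^ k := by
  simp only [div_pow, inv_div]
  generalize d ^ k = d
  generalize e ^ k = e
  generalize f ^ k = f
  apply Additive.ofMul.injective
  simp only [ofMul_mul, ofMul_div]
  abel

theorem Jc.prod_dual {G : Type} [CommGroup G] (g : G) {v χ : ι → ℤ} (h : ∑ i, χ i * v i = 1) :
    ∏ i, (g ^ v i) ^ χ i = g := by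
  simp only [← zpow_mul, mul_comm (v _)]
  exact (map_prod (zpowersHom _ g) (fun i => .ofAdd (χ i * v i)) _).symm.trans
    ((congrArg (g ^ ·) h).trans (zpow_one g))

end gen

variable {S Λ R J K K' ν κ ν' κ' : Type} [Fintype S] [Fintype Λ] [Fintype R] [Fintype J] [Fintype K]
  [Fintype K'] [Fintype ν] [Fintype κ] [Fintype ν'] [Fintype κ'] [DecidableEq R]

theorem AC.sg_pow [IsEmpty κ] (C : AC ν κ) (k : ℕ) : C.sg ^ k = 1 :=
  funext fun z => by simp [AC.sg]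

namespace Jc

variable {c : Jc J R} {W : Wt S Λ R J} {F : Fam S Λ R J K} [IsEmpty κ] [IsEmpty κ']
  {e : Option (Mk ν κ) ≃ Mk ν' κ'} {x y : c.ch.WF ν' κ' Λ}

theorem Ok.prod_n₂ (h : c.Ok W) (f : J3 J R → ℂ) : ∏ a, f a ^ h.L₂.n a = (f (lk none))⁻¹ := by
  simp [Fintype.prod_sum_type, Fintype.prod_option]

/-- the tensor `Ξ` of the image, from normalised data upstairs -/
theorem Ok.cr_of (h : c.Ok W) {C' : AC ν' κ'} {B : O2 R → LB C'.R} {π : C'.X → V c.ch.M} {u}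
    {C : AC ν κ} {A : Option R → LB C.R} {π₂ : C.X → V c.D₂.ch.M} {z j r}
    (cr' : Cr C'.N B x.2 π u C'.p 1) (ctr : Ctr C.R C'.R C.N C'.N C.p (fun n => C'.p (e n)) z j r)
    (B_eq : ∀ i, B (.inr i) = ctr.up (A i)) (π_eq : ∀ y, rV .inr (π y) = π₂ (r y))
    (par : Par c.D₂.ch.o (cone π₂) C.N A π₂) (hω : Eqv (bz A c.D₂.ch.χ) (C.ω ^ c.ch.k))
    (sec : ∀ a ∈ crv x.2, ∃ v, Val x.2 (lk none) a v)
    (xi : ∀ y ≠ z, Sm C.N y → y ∉ C.P →
      fld x.2 (π (j y)) (lk none) * C.R.d (fun w => C'.R.e (j y) (j w)) y ^ c.ch.k = 1)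
    (ne : ∀ y ≠ C'.p (e none), fld x.2 (π y) (lk none) ≠ 0) :
    h.L₂.IsXi x.2 (h.L₂.f x.2).Ξ ∧ ∃ u₂, Cr C.N A (h.f₂ e x).1.2 π₂ u₂ C.p 1 ∧
      ∀ y l, u y (c.D₂.τ l) = u₂ (r y) l := by
  classical
  have πj : ∀ y, rV .inr (π (j y)) = π₂ y := fun y => (π_eq _).trans (congrArg π₂ (ctr.left y))
  have cur : IsCurve c.D₂.ch.o c.D₂.ch.g c.D₂.ch.m (cone π₂) := par.isCurve_iff.2 fun a ha => by
    have k := cr'.par.isCurve_iff.1 cr'.cur (Sum.elim 0 a) fun q => ha (funext fun i =>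
      congrFun q (.inr i))
    have b : (bz B fun i => (Sum.elim 0 a : O2 R → ℕ) i) = ctr.up (bz A fun i => a i) := by
      simp [bz, Fintype.prod_sum_type, B_eq]
    rw [b, ctr.finrank_up, Fintype.sum_sum_type] at k
    refine ⟨fun s hs => ?_, by simpa using k.2⟩
    obtain ⟨μ, d⟩ := k.1 _ (ctr.mem_up.2 ⟨s, hs, rfl⟩)
    obtain ⟨μ, rfl⟩ := (rx Sum.inr_injective (sup_inr (a := Sum.elim 0 a) fun _ => rfl)).surjective μ
    exact ⟨μ, fun y => (congrArg s (ctr.left y).symm).trans ((d (j y)).trans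
      (congrArg (val μ) (πj y)))⟩
  have hk : ∀ l μ, (h.f₂ e x).1.2.Q l μ = 0 ↔ ∀ y, val μ (π₂ y) = 0 := fun l μ =>
    ⟨fun a y => (congrArg (val μ) (πj y)).symm.trans ((cr'.u_Q (j y) _ (c.D₂.ra l μ)).symm.trans
      ((congrArg _ a).trans (map_zero _))), fun a => cr'.mem.2.1 _ _ (cr'.par.val_eq_zero.2
        fun y => (congrArg (val μ) (π_eq y)).trans (a _))⟩
  obtain ⟨l, hl⟩ := h.num₂.cut
  have cv : crv (h.f₂ e x).1.2 = cone π₂ := crv_eq par cur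
    (fun l μ => (hk l μ).trans par.val_eq_zero.symm) (l := l)
    (fun i => (hl i).trans' (by norm_num)) ((hl _).trans' (by norm_num))
  have hQ : ∀ l, Surjective ((h.f₂ e x).1.2.Q l) := c.D₂.surj_mkW cr'.mem 0
  have g0 : ∀ y, (rV .inr (π y), fun l => u y (c.D₂.τ l)) ∈ Ch.gr (h.f₂ e x).1.2 := fun y =>
    c.D₂.gr_mkW (cr'.gr y) 0
  have g1 : ∀ y, (π₂ (r y), fun l => u y (c.D₂.τ l)) ∈ Ch.gr (h.f₂ e x).1.2 := fun y =>
    π_eq y ▸ g0 y
  have g2 : ∀ y, (π₂ y, fun l => u (j y) (c.D₂.τ l)) ∈ Ch.gr (h.f₂ e x).1.2 := fun y =>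
    πj y ▸ g0 (j y)
  have ue : ∀ y l, u y (c.D₂.τ l) = u (j (r y)) (c.D₂.τ l) := fun y l =>
    gr_unique (g1 y) (g2 (r y)) (hQ l)
  have hξ := C.sg_pow c.ch.k ▸ AC.mem_triv.1 hω
  rw [← cv] at par cur
  obtain ⟨Ξ, hΞ⟩ := par.exists_Xi (P := C.P) AC.sm_P
    (fun s hs => mem_PP.1 (par.le_PP cur (h.num₂.a_ne none) hs)) hξ
  have hX : h.L₂.IsXi x.2 Ξ := by
    refine Res.Lnk.isXi_of_sec (fun a ha => ?_) cr' fun y hy μ => ?_
    · obtain ⟨_ | a, rfl⟩ := Res.Lnk.mem_I ha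
      exacts [sec, (ha rfl).elim]
    rw [h.prod_n₂, Pi.one_apply, one_pow, one_mul, ← deriv_rV (an_br cr'.par.sec y)]
    refine (hΞ _ _ (g1 y) μ).trans ((one_mul _).trans ?_)
    by_cases a : y ∈ range j
    · obtain ⟨y, rfl⟩ := a
      have b : Sm C'.N (j y) ∧ j y ∉ Finset.univ.image fun n => C'.p (e (some n)) :=
        ⟨hy.1, fun b => let ⟨n, _, b⟩ := Finset.mem_image.1 b
          hy.2 (Finset.mem_image.2 ⟨_, Finset.mem_univ _, b⟩)⟩
      have d := (ctr.sp_iff y).2 b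
      have f : y ≠ z := fun f => by
        by_cases g : Surjective j
        · rcases ctr.alt with ⟨-, -, k⟩ | ⟨-, k, -⟩
          · exact hy.2 (Finset.mem_image.2 ⟨_, Finset.mem_univ _, (k none).trans (congrArg j f.symm)⟩)
          · exact k (g _)
        · exact ctr.special g (f ▸ d)
      have k := ctr.liso.wsec_eq (ch := c.D₂.ch) par.sec (A' := fun i => B (.inr i))
        (π' := fun y => rV .inr (π y)) (fun i => cr'.par.sec (.inr i)) (c := 1)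
        (fun y => (πj y).trans (one_smul _ _).symm)
        (fun i => by rw [B_eq, ctr.pb_up, div_self']; exact LB.one_mem) ctr.sp_iff
        (fun _ _ => rfl) μ y
      rw [Pi.one_apply, Base.chr_one, Pi.one_apply, mul_one, one_pow, mul_one, one_mul, wsec, if_pos b,
        one_pow, one_mul] at k
      rw [ctr.left, eq_inv_of_mul_eq_one_left (xi y f d.1 d.2), inv_inv]
      exact k.symm
    · have b : (fun t => rV .inr (br B π y t)) =ᶠ[𝓝 0] fun _ => π₂ z :=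
        (C'.R.ev_iff.1 (ctr.ev_out a)).mono fun t ht => funext₂ fun i q => by
          refine (congrArg₂ (· / ·) (congrFun (congrFun (π_eq _) i) q)
            (congrArg (fun L : LB C'.R => L.φ y _) (B_eq i))).trans ?_
          rw [Ctr.up_φ, ctr.out _ a, ctr.out _ ht, LB.self, div_one]
      rw [b.deriv_eq, deriv_const, ← zero_smul ℂ (0 : V c.D₂.ch.M), wedge_smul_right, ctr.out _ a, wsec,
        if_neg (show ¬(Sm C.N z ∧ z ∉ C.P) from ctr.special fun g => a (g y)), zero_pow h.k_ne,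
        zero_mul, zero_mul, mul_zero]
  obtain rfl : Ξ = (h.L₂.f x.2).Ξ := hX.unique cr'.mem (Classical.epsilon_spec ⟨Ξ, hX⟩)
  refine ⟨hX, _, .of par hQ (fun l μ => (hk l μ).2) cur g2 C.sm C.inj (fun n => ?_) hξ
    (fun _ => one_ne_zero) fun y => hΞ y _ (g2 y), ue⟩
  obtain ⟨t, a, b⟩ := cr'.mark (e (some n))
  exact ⟨fun i => t (.inr i), fun i => a _, (congrArg (rV (M := c.ch.M) .inr) b).trans
    ((rV_smul _ _).trans (congrArg _ ((π_eq _).trans (congrArg π₂ (ctr.r_mark (some n))))))⟩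

theorem Ok.exists_ct' (h : c.Ok F.toWt) (hx : x ∈ c.T e F.j0) :
    h.L₂.IsXi x.2 (h.L₂.f x.2).Ξ ∧ Nonempty (Ct e h x) := by
  classical
  obtain ⟨-, hb, sec, ord, gd⟩ := mem_T0.1 hx
  obtain ⟨m, hm⟩ := h.lat.exists_rep (A := ∅) hx.1.1.1 fun _ a => a.elim
  obtain ⟨B, π, u, s, d⟩ := hm.exists_data hb
  replace gd := gd m B π u s d
  have cr : Cr m.N B x.2 π u m.p 1 := m.toAC.sg_pow c.ch.k ▸ d.cr
  have ω' := FgP.ω_eq' e m.toAC
  have cc := fun y : m.X => (exists_comp (R := m.R) y).1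
  obtain ⟨X, _, _, _, Q, N, p, z, j, r, ctr, a1, a2⟩ := exists_ctr_down (L' := B (.inr none)) m.nd
    (fun n => m.sm (e n)) (m.inj.comp e.injective)
    (fun y => (em _).imp_right fun a => ((gd _ (cc y)).2 a).1)
    (fun U hU hn => by
      rw [degOn_mul, ← ω']
      by_cases a : degOn (B (.inr none)) U = 0
      · have := ((gd U hU).1 a hn).2.2.1
        omega
      · have := ((gd U hU).2 a).2.2
        omega)
    fun a => ((gd _ (cc _)).1 a.2.1 ⟨_, mem_connectedComponent⟩).1 ⟨cc _, a.1⟩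
  choose A w w1 w0 using fun i => ctr.exists_down (L' := B (.inr i)) (by
    rcases (range j)ᶜ.eq_empty_or_nonempty with a | a
    · rw [a, degOn_empty]
    · exact ((gd _ ctr.clopen.compl).1 a1 a).2.2.2 i)
  let C : AC ν κ := ⟨X, Q, N, p, ctr.nd, ctr.inj, ctr.sm⟩
  obtain ⟨o, o1, o0, o2⟩ := ctr.exists_omega
  rw [← ω', ← FgP.ω_eq C] at o1
  have ind : ∀ a, Ind x.2 π u (lk a) fun y => fld x.2 (π y) (lk a) := fun a y =>
    (cr.val_iff' y).1 (val_fld (sec a _ (cr.par.mem y)))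
  have l0 : ∀ y ≠ m.p (e none), fld x.2 (π y) (lk none) ≠ 0 := fun y a =>
    ne_lk' hx (cr.par.mem y) fun s b => a (cr.orb_mark.1 ⟨s, b⟩)
  have l1 := fun y => ne_lk hx (cr.par.mem y)
  obtain ⟨v₁, p1, p2, -⟩ := h.lat₁.dual
  obtain ⟨v₂, q1, -, -⟩ := h.lat₂.dual
  have w2 : ∀ y, ∏ i, w i y ^ c.D₂.ch.χ i ≠ 0 := fun y => prod_zpow_ne (fun i => w0 i y) _
  have t1 := H0.mul_mem (H0.mul_mem (bz_mem (c := fun y i => w i y) w1 (fun y i => w0 i y) c.D₂.ch.χ)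
    (H0.inv_mem (H0.pow_mem o1 c.ch.k) fun y => pow_ne_zero _ (o0 y))) d.crep.eqv.symm.mem0
  have t2 := H0.mul_mem (cr.ind_mem (ind none)) t1
  have t3 := (LB.ord_mul_unit (t1.1 (m.p (e none))) (by simp [w2, o0, -Fintype.prod_option])).trans
    ((cr.order_br (ind none) _).symm.trans ((ord none _ (cr.par.isBranch _)).trans (congrArg _
      (if_pos ⟨rfl, br_zero (A := B) (π := π) _ ▸ cr.orb_mark.2 rfl⟩))))
  have t4 : bz B (c.ch.wd (lk none)) = bz B c.ch.χ / bz (fun i => B (.inr i)) c.D₂.ch.χ := by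
    simp [h.wd, h.χ, bz, Fintype.prod_sum_type, div_eq_mul_inv, -Fintype.prod_option]
  have t5 : ∀ (A : Option R → LB Q) a, bz (fun i => ctr.up (A i)) a = ctr.up (bz A a) := fun A a => by
    simp only [bz, map_prod, map_zpow]
  rw [t4, bz_div, grp, t5, ← map_pow, ← map_div] at t2 t3
  obtain ⟨_, s1, s2, s3⟩ := exists_div_pow (m.sm _) _ t2 t3
  obtain ⟨τ, τ1, rfl⟩ := ctr.mem_up.1 s1
  have τ0 : ∀ y, τ (r y) ≠ 0 := fun y => by
    by_cases a : y = m.p (e none)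
    · exact a ▸ s2
    · exact (s3 y a).trans_ne (by simp [w2, o0, l0 y a, -Fintype.prod_option])
  let A' : Option R → LB Q := fun i => A i * (C.ω ^ c.ch.k / bz A c.D₂.ch.χ) ^ v₂ none i
  let c₂ : m.X → Option R → ℂ := fun y i => τ (r y) ^ v₂ none i * (w i y)⁻¹
  have c20 : ∀ y i, c₂ y i ≠ 0 := fun y i =>
    mul_ne_zero (zpow_ne_zero _ (τ0 y)) (inv_ne_zero (w0 i y))
  have c21 : ∀ i, (fun y => c₂ y i) ∈ H0 m.N (ctr.up (A' i) / B (.inr i)) := fun i => by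
    have := H0.mul_mem (H0.zpow_mem s1 τ0 (v₂ none i)) (H0.inv_mem (w1 i) (w0 i))
    rwa [inv_div, ← mul_div_assoc, ← map_zpow, ← map_mul, mul_comm] at this
  have c22 : ∀ y, ∏ i, c₂ y i ^ c.D₂.ch.χ i = τ (r y) * (∏ i, w i y ^ c.D₂.ch.χ i)⁻¹ := fun y => by
    simp only [c₂, mul_zpow, Finset.prod_mul_distrib, ← zpow_mul, mul_comm (v₂ none _), inv_zpow,
      Finset.prod_inv_distrib]
    rw [← zpow_sum_ne (τ0 y), show ∑ i, c.D₂.ch.χ i * v₂ none i = 1 from q1 none, zpow_one]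
  let g : m.X → R → ℂ := fun y a => (∏ i, c₂ y i ^ ℓs a i) / fld x.2 (π y) (lk (some a))
  have g0 : ∀ y a, g y a ≠ 0 := fun y a => div_ne_zero (prod_zpow_ne (c20 y) _) (l1 y a)
  let c₁ : m.X → Option R → ℂ := fun y i => ∏ a, g y a ^ v₁ (some a) i
  have c10 : ∀ y i, c₁ y i ≠ 0 := fun y i => prod_zpow_ne (g0 y) _
  have c11 : ∀ y, ∏ i, c₁ y i ^ c.D₁.ch.χ i = 1 := fun y =>
    (prod_prod_zpow (g0 y) _ _).trans (Finset.prod_eq_one fun a _ => by
      rw [show ∑ i, c.D₁.ch.χ i * v₁ (some a) i = 0 from p2 none _ (Option.some_ne_none a), zpow_zero])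
  have c12 : ∀ y a, ∏ i, c₁ y i ^ ℓs a i = g y a := fun y a =>
    (prod_prod_zpow (g0 y) _ _).trans ((Finset.prod_eq_single a (fun b _ k => by
      rw [show ∑ i, ℓs a i * v₁ (some b) i = 0 from p2 (some a) _ (Option.some_inj.not.2 k),
        zpow_zero]) (by simp)).trans (by
      rw [show ∑ i, ℓs a i * v₁ (some a) i = 1 from p1 (some a), zpow_one]))
  have c0 : ∀ y i, Sum.elim (c₁ y) (c₂ y) i ≠ 0 := fun y i => i.rec (c10 y) (c20 y)
  have cr' := cr.of_iso (c := fun y => Sum.elim (c₁ y) (c₂ y)) (B := Sum.elim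
    (fun i => B (.inl i) * LB.cst m.R (fun y => c₁ y i) fun y => c10 y i) fun i => ctr.up (A' i))
    (fun i => i.rec (fun i => by
      rw [Sum.elim_inl, mul_div_cancel_left]
      refine cst_mem0 (fun y => c10 y i) fun n hn => ?_
      simp only [c₁, g, cr.par.π_eq (.inr (.inl hn)),
        show c₂ n.1 = c₂ n.2 from funext fun i => (c21 i).2 n hn]) c21) c0
  rw [show (fun y => (1 : m.X → ℂ) y * ∏ i, Sum.elim (c₁ y) (c₂ y) i ^ c.ch.χ i) = 1 from
    funext fun y => by simp [h.χ, Fintype.prod_sum_type, c11, -Fintype.prod_option]] at cr'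
  have f1 : ∀ y a, fld x.2 (Sum.elim (c₁ y) (c₂ y) • π y) (lk a) =
      (∏ i, c₁ y i ^ a.elim c.D₁.ch.χ ℓs i) * (∏ i, c₂ y i ^ a.elim c.D₂.ch.χ ℓs i)⁻¹ *
        fld x.2 (π y) (lk a) := fun y a => by
    rw [cr.fld_smul (ind a) y (c0 y), h.wd]
    simp [Fintype.prod_sum_type, -Fintype.prod_option]
  obtain ⟨k1, k2⟩ := ctr.par_down (σ := .inr) (A := A') (o := none) cr'.full cr'.par.ne
    (fun _ => rfl) fun U hU hn => by
      have b1 := ctr.liso.isClopen_image hU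
      have b2 := degOn_of_ne (U := j '' U) (fun y _ => (c21 none).1 y) fun y _ => c20 y none
      have b3 := ctr.degOn_omega_up (L := 1) b1
      have b4 := a2 U hU hn
      have b5 := degOn_omega_le (R := Q) N (Finset.univ.image p) hU
      rw [degOn_div, ctr.degOn_up b1, ctr.left.injective.preimage_image] at b2
      rw [map_one, mul_one, mul_one, ctr.left.injective.preimage_image, ← ω'] at b3
      rw [degOn_mul, ctr.liso.degOn_pb ctr.left.injective hU] at b4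
      rw [degOn_div]
      by_cases a : degOn (B (.inr none)) (j '' U) = 0
      · obtain ⟨-, b6, b7, -⟩ := (gd _ b1).1 a (hn.image j)
        rw [if_pos b6] at b3
        omega
      · have := ((gd _ b1).2 a).2.1
        split_ifs at b3 <;> omega
  have xi : ∀ y ≠ z, Sm C.N y → y ∉ C.P → fld x.2 (Sum.elim (c₁ (j y)) (c₂ (j y)) • π (j y)) (lk none) *
      C.R.d (fun w => m.R.e (j y) (j w)) y ^ c.ch.k = 1 := fun y a b b' => by
    have k := s3 (j y) fun k => a ((ctr.left y).symm.trans ((congrArg r k).trans (ctr.r_mark none)))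
    have k' := congrArg (· ^ c.ch.k) (o2 y a b b')
    have k1 := τ0 (j y)
    have k2 := w2 (j y)
    have k3 := o0 (j y)
    simp only [Pi.mul_apply, Pi.inv_apply, Pi.pow_apply, mul_one, mul_pow, one_pow] at k k'
    rw [f1, Option.elim_none, Option.elim_none, c11, c22, k]
    refine Eq.trans ?_ k'
    change _ * Q.d (fun w => m.R.e (j y) (j w)) y ^ _ = _
    have k4 := l0 (j y) fun k => a ((ctr.left y).symm.trans ((congrArg r k).trans (ctr.r_mark none)))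
    field_simp
  obtain ⟨hX, u₂, cr₂, ue⟩ := h.cr_of (C' := m.toAC) (C := C) cr' ctr (fun _ => rfl) k1 k2 (by
      rw [bz_mul, show bz (fun i => (C.ω ^ c.ch.k / bz A c.D₂.ch.χ) ^ v₂ none i) c.D₂.ch.χ = _ from
        prod_dual _ (show ∑ i, c.D₂.ch.χ i * v₂ none i = 1 from q1 none), mul_div_cancel]
      exact .refl _) (sec none) xi fun y a => by
    rw [f1]
    exact mul_ne_zero (mul_ne_zero (prod_zpow_ne (c10 y) _) (inv_ne_zero (prod_zpow_ne (c20 y) _)))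
      (l0 y a)
  refine ⟨hX, ⟨⟨m.toAC, _, _, _, C, A', _, u₂, z, j, r, cr', ctr, fun _ => rfl, k1, cr₂, ue,
    fun a y => ?_, xi⟩⟩⟩
  rw [f1, Option.elim_some, Option.elim_some, c12]
  have k1 := l1 y a
  have k2 := prod_zpow_ne (c20 y) (ℓs a)
  simp only [g]
  field_simp

/-- **every point has a normalised presentation** -/
theorem Ok.exists_ct (h : c.Ok F.toWt) (hx : x ∈ c.T e F.j0) : Nonempty (Ct e h x) :=
  (h.exists_ct' hx).2

theorem Ok.isXi₂ (h : c.Ok F.toWt) (hx : x ∈ c.T e F.j0) : h.L₂.IsXi x.2 (h.L₂.f x.2).Ξ :=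
  (h.exists_ct' hx).1

namespace Ct

variable {h : c.Ok W} (t : Ct e h x)
include t

theorem π_j (y : t.C.X) : rV .inr (t.π (t.j y)) = t.π₂ y :=
  (t.π_eq _).trans (congrArg t.π₂ (t.ctr.left y))

theorem rel : c.D₂.Rel x.2 (h.f₂ e x).1.2 := by
  refine ⟨fun _ _ => rfl, fun z a => c.D₂.gr_mkW a 0, fun z a => ?_⟩
  obtain ⟨y, s, b, k⟩ := (t.cr.par.img z.1).1 ⟨z, a, rfl⟩
  obtain ⟨s, b', rfl⟩ := exists_ext (σ := (.inr : Option R → O2 R)) Sum.inr_injective b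
  have d := gr_smul (t.cr'.gr (t.j y)) b'
  replace k : rV .inr (s • t.π (t.j y)) = z.1 := by rw [k, rV_smul, t.π_j]
  exact ⟨_, d, Prod.ext k (funext fun l => gr_unique (c := z.1) (k ▸ c.D₂.gr_mkW d 0) a
    (t.cr.mem.1 l))⟩

theorem crv_eq : crv (h.f₂ e x).1.2 = rV .inr '' crv x.2 := t.rel.crv

theorem orb_z : Base.Orb (t.π₂ t.z) (h.f₂ e x).2 :=
  let ⟨s, a, b⟩ := t.cr'.mark (e none)
  ⟨fun i => s (.inr i), fun _ => a _, (congrArg (rV (M := c.ch.M) .inr) b).trans ((rV_smul _ _).trans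
    (congrArg _ ((t.π_eq _).trans (congrArg t.π₂ (t.ctr.r_mark none)))))⟩

theorem fld_y2 (y : t.C'.X) (a : J) :
    fld (h.f₂ e x).1.2 (t.π₂ (t.r y)) a = fld x.2 (t.π y) (y2 a) :=
  t.π_eq y ▸ t.rel.fld (t.cr.mem.1 _) (t.cr'.par.mem y)

theorem repD {A : Set J} (hA : ∀ a ∈ A, ∀ z ∈ crv (h.f₂ e x).1.2, ∃ v, Val (h.f₂ e x).1.2 a z v) :
    ∃ s, RepD ℓs A (h.f₂ e x).1 t.am t.A t.π₂ t.u₂ s := by
  choose s _ hs using t.cr.mark
  refine ⟨Sum.elim (fun n => s (.inl n)) isEmptyElim, rfl, (t.C.sg_pow _).symm ▸ t.cr, ?_,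
    fun _ => .refl _, fun a ha y => (t.cr.val_iff' y).1 (val_fld (hA a ha _ (t.cr.par.mem y)))⟩
  rintro (n | n)
  exacts [hs _, isEmptyElim n.1]

/-- the new point lies on the marked point `n` iff `n` lies on the bubble -/
theorem onD_iff (n : Mk ν κ) : OnD n (h.f₂ e x) ↔ t.C'.p (e (some n)) ∉ range t.j := by
  obtain ⟨s, a, b⟩ := t.orb_z
  refine Iff.trans (b := t.z = t.C.p n) (Iff.trans ⟨fun ⟨s', d⟩ => ⟨s⁻¹ * s', by
    rw [mul_smul, ← d, b, Dict.inv_smul a]⟩, fun ⟨s', d⟩ => ⟨s * s', by rw [b, d, mul_smul]⟩⟩ t.cr.orb_mark) ⟨?_, fun d =>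
      (t.ctr.out _ d).symm.trans (t.ctr.r_mark (some n))⟩
  rintro d ⟨y, k⟩
  obtain rfl : y = t.z := (t.ctr.left y).symm.trans ((congrArg t.r k).trans
    ((t.ctr.r_mark (some n)).trans d.symm))
  by_cases g : Surjective t.j
  · rcases t.ctr.alt with ⟨-, -, q⟩ | ⟨-, q, -⟩
    · exact Option.some_ne_none n (t.ctr.inj' (k.symm.trans (q none).symm))
    · exact q (g _)
  · obtain ⟨_, -, _, -, -, q, -⟩ := t.ctr.bubble g
    exact q.not_sm (k ▸ t.ctr.sm' (some n))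

end Ct

variable (h : c.Ok F.toWt) (hx : x ∈ c.T e F.j0)
include h hx

theorem Ok.maps₂ : h.f₂ e x ∈ unv (c.D₂.ch.baseF ν κ F.B) :=
  let ⟨t⟩ := h.exists_ct hx
  let ⟨_, a, b⟩ := t.orb_z
  ⟨⟨(mem_T0.1 hx).1, t.cr.mem, fun q => isEmptyElim q⟩, b ▸ t.cr.par.smul_mem _ a⟩

theorem Ok.rel₂ : c.D₂.Rel x.2 (h.f₂ e x).1.2 := let ⟨t⟩ := h.exists_ct hx; t.rel

theorem Ok.crv₂ : crv (h.f₂ e x).1.2 = rV .inr '' crv x.2 := (h.rel₂ hx).crv

theorem Ok.dom₁ : h.L₁.Dom x.2 := by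
  obtain ⟨-, hb, sec, -⟩ := mem_T0.1 hx
  refine ⟨hb, (show Base.Nod (.inl none) (crv x.2) from h.o ▸ hb.2.2.1.nod), ?_, ?_, fun _ a => (a rfl).elim⟩
  · rintro _ ⟨a, rfl⟩
    exact sec a
  · rintro _ ⟨_ | a, rfl⟩ z hz b
    exacts [ne_lk' hx hz (b _), ne_lk hx hz a]

end Jc

end Vale.Agent.P269
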