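import Vale.Agent.P269.Fg.Hol
import Vale.Agent.P269.Cv.CtrC

/-!
# The joint chart: the fibres of the map to the universal curve
-/

set_option linter.unusedSectionVars false

namespace Vale.Agent.P269

open P291Z Set Function Topology Filter Cv Ch MvPolynomial Jc Holo

namespace FgFib

open Ch.Res Ch.Res.Lnk Ch.Res.Lnk.FibP Base

variable {X X' : Type} [TopologicalSpace X] [T2Space X] [CompactSpace X] [TopologicalSpace X']
  [T2Space X'] [CompactSpace X'] {Q : RS X} {Q' : RS X'} {N : Finset (X × X)}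
  {N' : Finset (X' × X')} {ι ι' J J' ν : Type} [Fintype ι] [Fintype ι'] [Fintype J] [Fintype J']
  [DecidableEq ι] [DecidableEq ι'] [Fintype ν]

/-- the ratio of two proportional systems of sections -/
theorem ratio_mem {L L' : LB Q} {v v' : X → ι → ℂ} {c : X → ℂ}
    (h : ∀ j, (fun y => v y j) ∈ H0 N L) (h' : ∀ j, (fun y => v' y j) ∈ H0 N L')
    (h0 : ∀ y, v y ≠ 0) (e : ∀ y, v' y = c y • v y) : c ∈ H0 N (L' / L) := by
  refine ⟨fun y => ?_, fun n hn => ?_⟩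
  · obtain ⟨j, a⟩ := Function.ne_iff.1 (h0 y)
    refine (((h' j).1 y).div ((h j).1 y) a).congr ((((h j).1 y).ev_ne a).mono fun z hz => ?_)
    rw [Pi.div_apply, e, Pi.smul_apply, smul_eq_mul, mul_div_cancel_right₀ _ hz]
  · obtain ⟨j, a⟩ := Function.ne_iff.1 (h0 n.1)
    have b := (h' j).2 n hn
    simp only [e, Pi.smul_apply, smul_eq_mul] at b
    exact mul_right_cancel₀ a (b.trans (congrArg _ ((h j).2 n hn).symm))

open Classical in
/-- pull-back of a presentation along an isomorphism of pointed curves -/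
theorem pull {ch : Ch ι J} {x : ch.W ν} {A' : ι → LB Q'} {π' u' p' ξ'} {p : ν → X}
    (h : Cr N' A' x π' u' p' ξ') {f : X ≃ X'} (hf : LIso Q Q' f) (hN : Nd N)
    (e : ∀ x y, Jn N x y ↔ Jn N' (f x) (f y)) (hp : ∀ n, f (p n) = p' n) :
    ∃ u ξ, Cr N (fun i => hf.pb (A' i)) x (fun y => π' (f y)) u p ξ ∧
      ∀ y, Sm N y ∧ y ∉ Finset.univ.image p →
        ξ y * Q.d (fun z => Q'.e (f y) (f z)) y ^ ch.k = ξ' (f y) := by
  obtain ⟨w, w1, w2, w3, -⟩ := hf.exists_omega f.injective hN h.par.nd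
    (P := Finset.univ.image p) (Finset.forall_mem_image.2 fun n _ =>
      (sm_equiv e _).2 (hp n ▸ h.sm n)) h.sm_image (fun x y => (e x y).1)
    fun z => and_congr (sm_equiv e z) (by simp [← hp])
  have k := h.comp hf hN e hp (A := fun i => hf.pb (A' i)) (c := 1)
    (fun i => div_self' (hf.pb (A' i)) ▸ H0.one_mem) (fun _ _ => one_ne_zero) w1 w2 w3
  simp only [Pi.one_apply, one_smul] at k
  exact ⟨_, _, k, fun y hy => by rw [← w3 y hy]; simp [w2 y]⟩

variable {ch' : Ch ι' J'} {D : ch'.Res ι J} (L : D.Lnk) {x y : ch'.W ν} {A B : ι' → LB Q}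
  {π π₂ : X → V ch'.M} {v v₂ : X → ∀ l, ch'.E l →L[ℂ] ℂ} {p : ν → X} {ξ ξ₂ : X → ℂ}

/-- isomorphisms of the kept bundles, of the links and of `ξ` give isomorphisms of all bundles -/
theorem same (h : Cr N A x π v p ξ) (h₂ : Cr N B y π₂ v₂ p ξ₂) {c : X → ι → ℂ}
    (c1 : ∀ z, rV D.σ (π₂ z) = c z • rV D.σ (π z))
    (sec : ∀ j ∈ L.I, ∀ c ∈ crv x, ∃ y, Val x j c y) {w : J' → X → ℂ} (w1 : ∀ j z, w j z ≠ 0)
    (w2 : ∀ j ∈ L.I, w j ∈ H0 N (bz (fun i => B i / A i) (ch'.wd j)) ∧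
      ∀ z, fld y (π₂ z) j = w j z * fld x (π z) j)
    (rel : ∀ g ∈ H0 N (1 : LB Q), (∀ z, g z = (∏ k, c z k ^ (-D.ch.χ) k) *
      (∏ j, w j z ^ L.n j) * (ξ₂ z / ξ z) ^ (L.r : ℤ)) → g = 1) :
    ∃ π' v', Cr N B x π' v' p ξ₂ ∧ (∀ z, rV D.σ (π₂ z) = rV D.σ (π' z)) ∧
      ∀ j ∈ L.I, ∀ z, fld x (π' z) j = fld y (π₂ z) j := by
  classical
  have c2 : ∀ z i, c z i ≠ 0 := fun z =>
    ne_of_smul_ne fun i => (congrFun (c1 z) i).symm.trans_ne (h₂.par.ne z (D.σ i))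
  have c3 : ∀ i, (fun z => c z i) ∈ H0 N (B (D.σ i) / A (D.σ i)) := fun i =>
    ratio_mem (h.par.sec _) (h₂.par.sec _) (h.par.ne · _) fun z => congrFun (c1 z) i
  have r0 : ∀ z, ξ₂ z / ξ z ≠ 0 := fun z => div_ne_zero (h₂.ne z) (h.ne z)
  have hm : ∀ (α : ι → ℤ) (β : J' → ℤ) (γ : ℤ), (∀ j ∉ L.I, β j = 0) →
      (fun z => (∏ k, c z k ^ α k) * (∏ j, w j z ^ β j) * (ξ₂ z / ξ z) ^ γ) ∈
        H0 N (bz (fun i => B i / A i) (D.cmb α β γ)) := fun α β γ m => by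
    have a := H0.mul_mem h₂.xi (H0.inv_mem h.xi h.ne)
    rw [← div_eq_mul_inv, mul_div_mul_left_eq_div, ← bz_div, ← div_eq_mul_inv] at a
    have b := H0.mul_mem (H0.mul_mem (bz_mem c3 c2 α) (H0.prod_mem (T := Finset.univ)
      (A := fun j => bz (fun i => B i / A i) (ch'.wd j) ^ β j) (u := fun j => w j ^ β j)
        fun j _ => ?_)) (H0.zpow_mem a r0 γ)
    · rw [bz, prod_cmbG]
      exact mem_of_eq_of_mem (funext fun z => by simp) b
    · by_cases g : j ∈ L.I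
      · exact H0.zpow_mem (w2 j g).1 (w1 j) _
      · rw [m j g, zpow_zero, zpow_zero]
        exact H0.one_mem
  have rel' := congrFun (rel _ (by simpa only [L.rel, bz_zero] using hm (-D.ch.χ) L.n L.r L.n_sup)
    fun _ => rfl)
  obtain ⟨α, β, γ, m1, m2, -⟩ := L.exists_mon
  have m := fun z a b e hb => prod_mon' m1 m2 (c2 z) (w1 · z) (r0 z) (rel' z) (a := a) (b := b)
    (e := e) hb
  have d0 := fun z i => mul_ne_zero (mul_ne_zero (prod_zpow_ne (c2 z) (α i))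
    (prod_zpow_ne (w1 · z) (β i))) (zpow_ne_zero (γ i) (r0 z))
  have k := h.of_iso (B := B) (fun i => by
    simpa only [m2, bz_single, zpow_one] using hm (α i) (β i) (γ i) (m1 i)) d0
  have kχ : ∀ z, ξ z * ∏ i, ((∏ k, c z k ^ α i k) * (∏ j, w j z ^ β i j) *
      (ξ₂ z / ξ z) ^ γ i) ^ ch'.χ i = ξ₂ z := fun z => by
    have := m z 0 0 1 fun _ _ => rfl
    rw [show D.cmb 0 0 1 = ch'.χ by simp [cmb, psh]] at this
    rw [this]
    simp [mul_div_cancel₀ _ (h.ne z)]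
  rw [funext kχ] at k
  refine ⟨_, _, k, fun z => ?_, fun j g z => ?_⟩
  · rw [c1, rV_smul]
    refine congrArg (· • _) (funext fun i => ?_)
    have := m z (Pi.single i 1) 0 0 fun _ _ => rfl
    rw [show D.cmb (Pi.single i 1) 0 0 = Pi.single (D.σ i) 1 by simp [cmb, psh_single],
      prod_single, prod_single] at this
    rw [this]
    simp
  · have := m z 0 (Pi.single j 1) 0 fun i hi => Pi.single_eq_of_ne (ne_of_mem_of_not_mem g hi).symm _
    rw [show D.cmb 0 (Pi.single j 1) 0 = ch'.wd j by simp [cmb, psh, Pi.single_apply],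
      prod_single] at this
    rw [h.fld_smul (ind_fld h (sec j g)) z (d0 z), this, (w2 j g).2]
    simp

/-- a linear map that fixes the curve is the identity -/
theorem eq_one (h : Cr N A x π v p ξ) (hM : ch'.Tight) {i : ι'}
    {T : (Fin (ch'.M i) → ℂ) →L[ℂ] Fin (ch'.M i) → ℂ} (e : ∀ z, T (π z i) = π z i) : T = 1 :=
  ContinuousLinearMap.ext fun w => funext fun j =>
    sub_eq_zero.1 (congrArg (· w) (h.full.eq_zero (i := i)
      (by exact_mod_cast (h.par.finrank_one h.cur _).trans (hM.eq h.mem _).symm)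
      (l := .proj j ∘L T - .proj j) fun z => (sub_eq_zero.2 (congrFun (e z) j) :)))

theorem alg {s w ξ b d d' d₀ d₁ : ℂ} {k : ℕ} (h1 : s * d ^ k = 1) (h2 : w * s * d₁ ^ k = 1)
    (h3 : ξ * d' ^ k = 1) (h4 : b * d₀ ^ k = 1) (h : d * d' = d₀ * d₁) : b⁻¹ * w⁻¹ * ξ = 1 := by
  have e := congrArg (· ^ k) h
  simp only [mul_pow] at e
  have a : b ≠ 0 := left_ne_zero_of_mul_eq_one h4
  have a' : w ≠ 0 := left_ne_zero_of_mul (left_ne_zero_of_mul_eq_one h2)
  rw [show ξ = b * w by linear_combination (-ξ * w * s * d₁ ^ k) * h4 - ξ * h2 -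
    b * w * ξ * s * e + b * w * ξ * d' ^ k * h1 + b * w * h3]
  field_simp

end FgFib

open FgFib Ch.Res.Lnk.FibP

variable {S Λ R J K K' ν κ ν' κ' : Type} [Fintype S] [Fintype Λ] [Fintype R] [Fintype J] [Fintype K]
  [Fintype K'] [Fintype ν] [Fintype κ] [Fintype ν'] [Fintype κ'] [DecidableEq R]

variable {c : Jc J R} {W : Wt S Λ R J} {F : Fam S Λ R J K} [IsEmpty κ] [IsEmpty κ']
  {e : Option (Mk ν κ) ≃ Mk ν' κ'} {x y : c.ch.WF ν' κ' Λ}

namespace FgFib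

theorem not_mov_lk {j : J3 J R} (hj : j ∈ range lk) : j ∉ F.j0.mov := fun a => a hj

theorem prod_n₂ (h : c.Ok W) (w : J3 J R → ℂ) : ∏ j, w j ^ h.L₂.n j = (w (lk none))⁻¹ := by
  simp [Fintype.prod_sum_type, Fintype.prod_option]

/-- two points of a fibre have the same curve and the same bundles -/
theorem exists_same {h : c.Ok F.toWt} (t : Ct e h x) (t' : Ct e h y) (hx : x ∈ c.T e F.j0)
    (hy : y ∈ c.T e F.j0) (k : h.f₂ e x = h.f₂ e y) : ∃ B π π₂ v v₂ ξ,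
      Cr (R := t.C'.R) t.C'.N B x.2 π v t.C'.p ξ ∧ Cr t.C'.N B y.2 π₂ v₂ t.C'.p ξ ∧
        (∀ z, rV .inr (π₂ z) = rV .inr (π z)) ∧
        ∀ j ∈ range lk, ∀ z, fld x.2 (π z) j = fld y.2 (π₂ z) j := by
  classical
  have a := t.cr
  have a' : Cr t'.C.N t'.A (h.f₂ e x).1.2 t'.π₂ t'.u₂ t'.C.p 1 := k ▸ t'.cr
  obtain ⟨f, b, hf, b1, b2, b3, b4⟩ := a.par.exists_iso a'.par
  have hp : ∀ n, f (t.C.p n) = t'.C.p n := fun n => by
    obtain ⟨s, d⟩ := a.orb_mark.2 (rfl : t.C.p n = t.C.p n)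
    exact a'.orb_mark.1 ⟨b (t.C.p n) * s, by rw [b2, d, mul_smul]⟩
  have hz : f t.z = t'.z ∨ Jn t'.C.N (f t.z) t'.z := by
    obtain ⟨s, -, d⟩ := (Base.Orb.symm ⟨_, b3 t.z, b2 t.z⟩).trans
      (t.orb_z.trans (k ▸ t'.orb_z).symm)
    exact a'.par.inj _ _ s d
  obtain ⟨f', hf', d1, d2, d3⟩ := t.ctr.iso_up t'.ctr hf b1 hp hz
  have hp' : ∀ n, f' (t.C'.p n) = t'.C'.p n := e.surjective.forall.2 d2
  obtain ⟨u₀, ξ₀, m0, m1⟩ := pull a' hf a.par.nd b1 hp
  obtain ⟨v₂, ξ₂, h₂, m2⟩ := pull t'.cr' hf' t.cr'.par.nd d1 hp'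
  have m3 := xi_unique (funext b2 ▸ m0) (a.of_iso b4 b3)
  have c1 : ∀ z, rV .inr (t'.π (f' z)) = b (t.r z) • rV .inr (t.π z) := fun z => by
    rw [t'.π_eq, t.π_eq, ← b2]
    by_cases g : z ∈ range t.j
    · obtain ⟨z, rfl⟩ := g
      rw [d3, t.ctr.left, t'.ctr.left]
    · rw [t.ctr.out z g, t'.ctr.out _ fun ⟨w, i⟩ => g ⟨f.symm w, f'.injective (by
        rw [d3, f.apply_symm_apply, i])⟩, a'.par.π_eq hz]
  have q : ∀ j, ∃ w : t.C'.X → ℂ, (∀ z, w z ≠ 0) ∧ (j ∈ range lk →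
      w ∈ H0 t.C'.N (bz (fun i => hf'.pb (t'.B i) / t.B i) (c.ch.wd j)) ∧
        ∀ z, fld y.2 (t'.π (f' z)) j = w z * fld x.2 (t.π z) j) := fun j => by
    by_cases g : j ∈ range lk
    · have g' : j ∉ F.j0.zer := fun i => i (.inr g)
      obtain ⟨w, i1, i2, i3⟩ := exists_quot
        (t.cr'.ind_mem (ind_fld t.cr' (hx.1.1.2.1 j (not_mov_lk g))))
        (h₂.ind_mem (ind_fld h₂ (hy.1.1.2.1 j (not_mov_lk g))))
        (ord_fld hx.1 t.cr' (not_mov_lk g) g') (ord_fld hy.1 h₂ (not_mov_lk g) g')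
        fun n hn => Finset.sum_eq_zero fun m _ => if_neg ((t.cr'.sm _ n hn).1)
      exact ⟨w, i2, fun _ => ⟨bz_div _ t.B _ ▸ i1, i3⟩⟩
    · exact ⟨1, fun _ => one_ne_zero, fun a => (g a).elim⟩
  choose w w1 w2 using q
  have w3 : ∀ r z, w (lk (some r)) z = 1 := fun r z => by
    simpa only [t.lam, t'.lam, mul_one] using ((w2 _ ⟨some r, rfl⟩).2 z).symm
  obtain ⟨π', v', n1, n2, n3⟩ := same h.L₂ t.cr' h₂ c1 (fun j g => hx.1.1.2.1 j (not_mov_lk g))
    w1 w2 fun g g1 g2 => by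
      obtain ⟨g₀, g3, rfl⟩ := (t.ctr.mem_up (L := 1)).1 g1
      rw [eq_of_ev g3.1 (H0.one_mem (N := t.C.N)).1 fun z₀ =>
        (Xi.ev_sm t.C.N (insert t.z t.C.P) z₀).mono fun z hz' => ?_]
      · rfl
      obtain ⟨z1, z2⟩ := hz'
      rw [Finset.mem_insert, not_or] at z2
      have z3 : f z ≠ t'.z := fun i => hz.elim (fun i' => z2.1 (f.injective (i.trans i'.symm)))
        fun i' => sm_iff.1 z1 _ ((b1 _ _).2 (i ▸ i')).symm
      have e1 := t.xi z z2.1 z1 z2.2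
      have e2 := t'.xi (f z) z3 ((sm_equiv b1 z).1 z1) (mt (AC.mem_P_equiv hp z).1 z2.2)
      have e3 := (w2 _ ⟨none, rfl⟩).2 (t.j z)
      have e4 := m1 z ⟨z1, z2.2⟩
      have e5 := m2 (t.j z) (by
        have := (t.ctr.sm_iff z2.1 fun i => sm_iff.1 z1 _ i.symm).2 ⟨z1, z2.2⟩
        exact ⟨this.1, fun i => this.2 (by simpa [e.surjective.exists] using i)⟩)
      have e6 := t.ctr.liso.d_comp (hf'.hol (t.j z))
      have e7 := hf.d_comp (t'.ctr.liso.hol (f z))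
      have e8 := g2 (t.j z)
      rw [prod_n₂] at e8
      simp only [d3] at e3 e5 e6
      rw [e6] at e7
      rw [m3] at e4
      rw [e3] at e2
      simp only [t.ctr.left _, Pi.neg_apply, zpow_neg, Finset.prod_inv_distrib,
        Nat.cast_one, zpow_one, Pi.one_apply, div_one, one_mul] at e4 e5 e8 ⊢
      exact e8.trans (alg e1 e2 e5 e4 e7)
  exact ⟨_, _, _, _, _, _, n1, h₂, n2, n3⟩

end FgFib

namespace Jc

variable (h : c.Ok F.toWt)
include h

theorem Ok.free₂ (hx : x ∈ c.T e F.j0) {a : c.ch.AF ν' κ' S} (ha : IsUnit a)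
    (h1 : c.θ₂ S e a = 1) (h2 : actF F.toWt.jc a x = x) : a = 1 := by
  classical
  obtain ⟨t⟩ := h.exists_ct hx
  obtain ⟨a1, a2, -, -⟩ := θ₂_eq_one.1 h1
  have hs := isUnit_dupF ha
  have k : act (dup a.2) x.2 = x.2 := by
    have := congrArg Prod.snd h2
    rwa [actF_snd, a1, show (fun j => ∏ i, (1 : S → ℂ) i ^ F.toWt.jc.wt j i) = 1 from
      funext fun j => by simp, scl_one] at this
  have m := t.cr'.act hs
  rw [k] at m
  obtain ⟨g, d, hg, b1, b2, b3, b4⟩ := t.cr'.par.exists_iso m.par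
  have b5 : ∀ z, t.π₂ (t.r (g z)) = (fun i => d z (.inr i)) • t.π₂ (t.r z) := fun z => by
    rw [← t.π_eq, ← t.π_eq, ← rV_smul, ← b2]
    exact funext fun i => (congrArg (· (t.π (g z) (.inr i))) (a2 i)).symm
  obtain rfl : g = .refl _ := by
    refine t.ctr.ext hg (LIso.id _) t.cr'.par.nd (fun x y => (b1 x y).1) (fun _ _ => id)
      (fun n => ?_) fun z₀ => ?_
    · obtain ⟨s, i⟩ := t.cr'.orb_mark.2 (rfl : t.C'.p (e n) = _)
      exact m.orb_mark.1 ⟨d (t.C'.p (e n)) * s, by rw [b2, i, mul_smul]⟩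
    · have := t.C.R.neBot z₀
      refine tendsto_nhds_unique_of_eventuallyEq (l := 𝓝[≠] z₀) (f := fun z => g (t.j z)) (g := t.j)
        ((hg.cont.comp t.ctr.liso.cont).continuousAt.mono_left nhdsWithin_le_nhds)
        (t.ctr.liso.cont.continuousAt.mono_left nhdsWithin_le_nhds)
        ((Xi.ev_sm t.C.N {t.z} z₀).mono fun z hz => ?_)
      have i := (t.cr.par.inj _ _ _ (b5 (t.j z))).resolve_right
        (by rw [t.ctr.left]; exact sm_iff.1 hz.1 _)
      rw [t.ctr.left] at i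
      obtain ⟨w, i'⟩ : g (t.j z) ∈ range t.j := by_contra fun i' =>
        hz.2 (Finset.mem_singleton.2 (i.trans (t.ctr.out _ i')))
      rw [← i', t.ctr.left] at i
      exact i'.symm.trans (congrArg _ i.symm)
  have c1 : ∀ z i, d z (.inr i) = 1 := fun z i =>
    (congrFun (Dict.smul_cancel (t.cr.par.ne _) ((one_smul _ _).trans (b5 z))) i).symm
  have c2 : ∀ z, ∏ i, d z i ^ c.ch.χ i = 1 := fun z => (one_mul _).symm.trans
    (congrFun (xi_unique (t.cr'.of_iso (B := t.B) b4 b3) (funext b2 ▸ m)) z)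
  have c3 : ∀ z o, ∏ i, d z i ^ c.ch.wd (lk o) i = 1 := fun z o => by
    cases o with
    | none => simpa [h.wd, h.χ, c1] using c2 z
    | some r =>
      have i := ind_fld t.cr' (hx.1.1.2.1 _ (not_mov_lk ⟨some r, rfl⟩))
      have i' := i.act hs
      rw [k] at i'
      have := (m.fld_π i' z).symm.trans ((congrArg (fld x.2 · _) (b2 z)).trans
        (t.cr'.fld_smul i z (b3 z)))
      simpa [t.lam] using this.symm
  have c4 : ∀ z, d z = 1 := fun z => funext fun i => by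
    obtain ⟨α, β, γ, m1, -, m2⟩ := h.L₂.exists_mon
    rw [m2 _ (b3 z) i, c2, Finset.prod_eq_one fun j _ => ?_, Finset.prod_eq_one fun j _ => ?_]
    · simp
    · by_cases g : j ∈ range lk
      · obtain ⟨o, rfl⟩ := g
        rw [c3, one_zpow]
      · rw [m1 i j g, zpow_zero]
    · rw [c1, one_zpow]
  have c5 : ∀ z, (fun i => a.2.1 i (t.π z i)) = t.π z := fun z =>
    (b2 z).trans (by rw [c4, one_smul])
  have k1 : ∀ i, a.2.1 i = 1 := fun i => eq_one t.cr' h.num.M_eq fun z => congrFun (c5 z) i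
  refine Prod.ext a1 (Prod.ext (funext k1) (Prod.ext (funext fun l => ?_) (funext₂ fun n i => ?_)))
  · refine ContinuousLinearMap.ext fun w => t.cr'.u_ext fun z => ?_
    have i := m.gr z
    rw [show (fun i => (dup a.2).1 i (t.π z i)) = t.π z from c5 z] at i
    exact (congrArg (· (a.2.2.1 l w)) (gr_unique i (t.cr'.gr z) (t.cr'.mem.1 l))).symm.trans
      (congrArg (t.u z l) (inv_ap (isUnit_E hs l) w))
  · rcases n with n | n
    · have i : (act (dup a.2) x.2).p (.inl n) i = x.2.p (.inl n) i := by rw [k]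
      rw [act_p, Dict.smul_ap, show (dup a.2).1 = a.2.1 from rfl, k1] at i
      exact smul_left_injective ℂ (crv_ne (t.cr'.mem.2.2.2.1 _).1 _) (i.trans (one_smul _ _).symm)
    · exact isEmptyElim n

theorem Ok.fib₂ (hx : x ∈ c.T e (F.ja (range y2))) (hy : y ∈ c.T e (F.ja (range y2)))
    (k : h.f₂ e x = h.f₂ e y) : ∃ a, IsUnit a ∧ c.θ₂ S e a = 1 ∧ actF F.toWt.jc a x = y := by
  have hd : Disjoint (range (y2 : J → J3 J R)) (range lk) := disjoint_range_iff.2 (by simp)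
  obtain ⟨x0, x1⟩ := (mem_T hd).1 hx
  obtain ⟨y0, y1⟩ := (mem_T hd).1 hy
  obtain ⟨t⟩ := h.exists_ct x0
  obtain ⟨t'⟩ := h.exists_ct y0
  obtain ⟨B, π, π₂, v, v₂, ξ, h₁, h₂, a, b⟩ := exists_same t t' x0 y0 k
  obtain ⟨s, hs, s1, s2, s3, s4, s5⟩ := h₁.exists_unit h₂ h.num.a_ne (h.num.M_eq' h₁.mem)
  have t0 := (Cv.isUnit_iff.1 hs).2.2
  have k1 : ∀ i, s.1 (.inr i) = 1 := fun i =>
    eq_one h₁ h.num.M_eq fun z => (s1 z _).trans (congrFun (a z) i)
  have k2 : ∀ l, s.2.1 (c.D₂.τ l) = 1 := fun l => ContinuousLinearMap.ext fun w =>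
    h₂.u_ext fun z => by
      have i := t'.rel.into _ (h₂.gr z)
      rw [Res.pt, ← k, show rV c.D₂.σ (π₂ z) = rV c.D₂.σ (π z) from a z] at i
      exact (s2 z _ w).trans (congrArg (· w) (gr_unique (t.rel.into _ (h₁.gr z)) i (t.cr.mem.1 l)))
  have k3 : ∀ n i, s.2.2 n (.inr i) = 1 := fun n i => by
    have d : y.2.p n (.inr i) = x.2.p n (.inr i) := by
      obtain ⟨_ | n, rfl⟩ := e.surjective n
      exacts [congrArg (fun z => z.2 i) k.symm, congrArg (fun z => z.1.2.p n i) k.symm]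
    rw [s4, act_p, Dict.smul_ap, k1] at d
    exact smul_left_injective ℂ (crv_ne (h₁.mem.2.2.2.1 n).1 _) (d.trans (one_smul _ _).symm)
  have kθ : c.D₂.θ s = 1 := Prod.ext (funext k1) (Prod.ext (funext k2) (funext₂ k3))
  have kd : dup (s.1, s.2.1, fun n => s.2.2 (n.map id fun q => (q, false))) = s :=
    Prod.ext rfl (Prod.ext rfl (funext fun n => n.rec (fun _ => rfl) fun q => isEmptyElim q.1))
  refine ⟨(1, s.1, s.2.1, fun n => s.2.2 (n.map id fun q => (q, false))), isUnitF_iff.2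
    ⟨fun _ => one_ne_zero, Cv.isUnit_iff.2 ⟨(Cv.isUnit_iff.1 hs).1, (Cv.isUnit_iff.1 hs).2.1,
      fun _ => t0 _⟩⟩, θ₂_eq_one.2 ⟨rfl, k1, k2, fun _ => k3 _⟩,
    Prod.ext ((Wt.actL_one _ _).trans (congrArg (·.1.1) k :)) ?_⟩
  rw [actF_snd, kd, show (fun j => ∏ i, (1 : S → ℂ) i ^ F.toWt.jc.wt j i) = 1 from
    funext fun j => by simp, scl_one]
  refine W.ext (fun l => (congrFun s3 l).symm) (fun n => (congrFun s4 n).symm) s5.symm fun j => ?_
  by_cases g : j ∈ range y2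
  · obtain ⟨j, rfl⟩ := g
    refine ContinuousLinearMap.ext ((c.D₂.rb j).surjective.forall.2 fun μ => ?_)
    have i := c.D₂.sub_rb s j μ
    rw [kθ, sub_one] at i
    rw [act_X, i, k2 (some j), ← t.rel.X, ← t'.rel.X, k]
    rfl
  by_cases g' : j ∈ range lk
  swap
  · exact ContinuousLinearMap.ext fun μ => by simp [act_X, x1 j g g', y1 j g g']
  have i1 := (ind_fld h₁ (x0.1.1.2.1 j (not_mov_lk g'))).act hs
  rw [show (fun z l => v z l ∘L Ring.inverse (s.2.1 l)) = v₂ from funext₂ fun z l =>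
    ContinuousLinearMap.ext fun w => (s2 z l _).symm.trans
      (congrArg _ (ap_inv (isUnit_E hs l) w)), funext₂ s1, funext (b j g')] at i1
  exact (h₂.X_ext (ind_fld h₂ (y0.1.1.2.1 j (not_mov_lk g'))) i1).symm

end Jc

end Vale.Agent.P269
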