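import Vale.Agent.P269.Fg.Ct
import Vale.Agent.P269.Fg.Opn

/-!
# The joint chart: the map to the universal curve is holomorphic and equivariant
-/

set_option linter.unusedSectionVars false

namespace Vale.Agent.P269

open P291Z Set Function Topology Filter Cv Ch MvPolynomial Jc Holo

namespace Ch.Res.Lnk

open Base

variable {ι ι' J J' ν : Type} [Fintype ι] [Fintype ι'] [Fintype J] [Fintype J'] [DecidableEq ι]
  [DecidableEq ι'] [Fintype ν] {ch' : Ch ι' J'} {D : ch'.Res ι J} {L : D.Lnk} {x : ch'.W ν}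

variable (L) in
/-- The points at which the new tensor exists. -/
structure Wk (x : ch'.W ν) : Prop where
  mem : x ∈ ch'.base ν
  sec : ∀ j, L.n j ≠ 0 → ∀ c ∈ crv x, ∃ y, Val x j c y
  ne : ∀ j, L.n j ≠ 0 → ∀ c ∈ crv x, ¬Spc x c → fld x c j ≠ 0
  isXi : L.IsXi x (L.f x).Ξ

theorem Wk.hol_val (hc' : ch'.Cuts) (h : L.Wk x) {c : V ch'.M}
    (a : c ∈ crv x) (b : ¬Spc x c) (μ : Tn D.ch.M D.ch.slot) :
    ∃ Φ : ch'.W ν × V ch'.M → ℂ, AnalyticAt ℂ Φ (x, c) ∧ ∀ᶠ q in 𝓝 (x, c), L.Wk q.1 →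
      ∀ u, (q.2, u) ∈ gr q.1 → u D.l₀ ((L.f q.1).Ξ μ) = Φ q := by
  have h1 := hc'.locFam ⟨x, h.mem⟩
  obtain ⟨v, v1, v2⟩ := (h1.smAt a fun e => b (.inl e)).exists_tangent h1
  obtain ⟨γ, g1, g2, g3⟩ := v2.self_of_nhds a
  obtain ⟨Φ, p1, p2⟩ := exists_leadU h.mem.1 (crv_ne a) (v := v (x, c)) (by
    have := g1.imm
    rwa [g2, g3] at this)
  have h2 : AnalyticAt ℂ (fun q : ch'.W ν × V ch'.M => (q.1, q.2, v q)) (x, c) :=
    analyticAt_fst.prod (analyticAt_snd.prod v1)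
  have h3 : ∀ j, ∃ Ψ : ch'.W ν × V ch'.M → ℂ, AnalyticAt ℂ Ψ (x, c) ∧ ∀ᶠ q in 𝓝 (x, c),
      L.Wk q.1 → q.2 ∈ crv q.1 → fld q.1 q.2 j ^ L.n j = Ψ q := fun j => by
    by_cases e : L.n j = 0
    · exact ⟨fun _ => 1, analyticAt_const, .of_forall fun q _ _ => by rw [e, zpow_zero]⟩
    obtain ⟨Ψ, q1, q2⟩ := exists_fldU h.mem.1 (crv_ne a) j
    exact ⟨fun q => Ψ q ^ L.n j, q1.fun_zpow (q2.self_of_nhds a (h.sec j e c a) ▸ h.ne j e c a b),
      q2.mono fun q e1 e2 e3 => by rw [e1 e3 (e2.sec j e _ e3)]⟩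
  choose Ψ q1 q2 using h3
  refine ⟨fun q => Φ (q.1, q.2, v q) ^ L.r * (∏ j, Ψ j q) *
    wedge (ch := D.ch) μ (rV D.σ q.2) (rV D.σ (v q)), (((p1.comp_of_eq h2 rfl).pow _).mul
      (Finset.analyticAt_fun_prod _ fun j _ => q1 j)).mul (an_wedge analyticAt_const
        (an_apply analyticAt_const analyticAt_snd) (an_apply analyticAt_const v1)), ?_⟩
  filter_upwards [ev_sub v2, h2.continuousAt.tendsto.eventually p2, eventually_all.2 q2,
    eventually_not_spc hc' h.mem a b] with q e1 e2 e3 e4 e5 u hu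
  have e6 := mem_crv.2 ⟨u, hu⟩
  obtain ⟨γ, g1, g2, g3⟩ := e1 e5.mem e6
  have e7 : ¬Spc q.1 (γ 0) := g2 ▸ e4 e5.mem e6
  obtain ⟨ρ, -, e8⟩ := exists_leadAt e5.mem g1 e7
  rw [e5.isXi γ ρ g1 e7 e8 u (g2 ▸ hu), g2, g3, e2 e6 ρ (by rwa [g2, g3] at e8),
    Finset.prod_congr rfl fun j _ => e3 j e5 e6]

theorem Wk.hol (hc' : ch'.Cuts) (h : L.Wk x) :
    ∃ Φ : ch'.W ν → D.ch.W ν, AnalyticAt ℂ Φ x ∧ ∀ᶠ y in 𝓝 x, L.Wk y → L.f y = Φ y := by
  have h1 : LocFam ch'.o (fun y : {y : ch'.W ν // L.Wk y} => crv y.1) Subtype.val ⟨x, h⟩ :=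
    LocFam.comp (u := fun y : {y : ch'.W ν // L.Wk y} => (⟨y.1, y.2.mem⟩ : ch'.base ν)) (k := id)
      (hc'.locFam _) (continuous_subtype_val.subtype_mk _).continuousAt
      (.of_forall fun _ => continuous_subtype_val.continuousAt) analyticAt_id
      (.of_forall fun _ => rfl)
  obtain ⟨F, f1, f2⟩ := exists_an_clm (l := 𝓝 (⟨x, h⟩ : {y : ch'.W ν // L.Wk y}))
      (π := Subtype.val) (f := fun y => (L.f y.1).Ξ) (p := x) fun μ => by
    choose m hm using fun y : {y : ch'.W ν // L.Wk y} => y.2.mem.1 D.l₀ ((L.f y.1).Ξ μ)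
    obtain ⟨κ, k1, k2⟩ := h1.exists_form h.mem.2.2.1 (hc'.ne D.l₀) (s := fun y => val (m y))
      (.of_forall fun y => Pol.isSec (val_mem _)) (p := fun c => ¬Spc x c)
      (fun c a => (frequently_not_spc h.mem a).mono fun y e => ⟨e, fun e' => e (.inl e')⟩)
      fun y y1 y2 y3 => by
        obtain ⟨Φ, p1, p2⟩ := h.hol_val hc' y3.self_of_nhds y2 μ
        have y4 := analyticAt_id.prod y1
        refine ⟨_, p1.comp_of_eq y4 rfl, ?_⟩
        filter_upwards [y3, (y4.continuousAt.tendsto.comp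
          continuous_subtype_val.continuousAt).eventually p2] with t e1 e2
        obtain ⟨u, hu⟩ := mem_crv.1 e1
        exact (hu.2 _ _).symm.trans (hm t ▸ e2 t.2 u hu)
    refine ⟨fun y => y.Q D.l₀ (κ y), an_apply (an_Q _ _) k1, k2.mono fun t ht => ?_⟩
    rw [← hm t, ← sub_eq_zero, ← map_sub]
    exact t.2.mem.2.1 _ _ fun c a => sub_eq_zero.2 (ht c a)
  refine ⟨fun y => D.mkW y (F y), W.an_iff.2 ⟨fun l => an_comp (an_Q _ _) analyticAt_const,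
    fun n => ((rV D.σ).analyticAt _).comp (W.an_p analyticAt_id n), f1,
    fun j => an_comp (W.an_X analyticAt_id _) analyticAt_const⟩, (ev_sub' f2).mono fun y e a => ?_⟩
  exact congrArg (D.mkW y) (e a)

open Classical in
theorem IsXi.at {X : Type} [TopologicalSpace X] [T2Space X] [CompactSpace X] {R : RS X} {N A π u p ξ}
    (c : Cr (R := R) N A x π u p ξ) {Ξ} (h : L.IsXi x Ξ) {y : X}
    (hy : Sm N y ∧ y ∉ Finset.univ.image p) (μ) : u y D.l₀ (Ξ μ) = ξ y ^ L.r *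
      (∏ j, fld x (π y) j ^ L.n j) *
        wedge (ch := D.ch) μ (rV D.σ (π y)) (rV D.σ (deriv (br A π y) 0)) := by
  have a : ¬Spc x (br A π y 0) := fun k => (c.spc_iff y (t := 1) fun _ => one_ne_zero).1
    (by rwa [one_smul, ← br_zero (A := A) (π := π)]) hy
  have b : LeadAt x (br A π y 0) (deriv (br A π y) 0) (ξ y) := (br_zero (A := A) y).symm ▸ c.leadAt hy
  have d : (br A π y 0, u y) ∈ gr x := (br_zero (A := A) y).symm ▸ c.gr y
  rw [h _ _ (c.par.isBranch y) a b _ d μ, br_zero]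

theorem f_act_scl (hx : x ∈ ch'.base ν) {s : ch'.A ν} (hs : IsUnit s) {a : J' → ℂ}
    (ha : ∀ j, L.n j ≠ 0 → a j = 1) (h : L.IsXi x (L.f x).Ξ)
    (h' : L.IsXi (Ch.act s (scl a x)) (L.f (Ch.act s (scl a x))).Ξ) :
    L.f (Ch.act s (scl a x)) = Ch.act (D.θ s) (scl (fun j => a (D.φ j)) (L.f x)) := by
  classical
  obtain ⟨X, _, _, _, R, N, A, π, u, p, ξ, c⟩ := exists_cr hx
  have d := Cr.act (x := scl a x) (c.setX _) hs
  refine (congrArg (D.mkW _) (ContinuousLinearMap.ext fun μ => d.u_ext (l := D.l₀) (eq_of_gen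
    (d.u_mem _ _).1 (d.u_mem _ _).1 N (Finset.univ.image p) fun y hy => ?_))).trans (D.mkW_act s _)
  refine (h'.at d hy μ).trans (.trans ?_ ((congrArg (u y D.l₀) (inv_ap (isUnit_E hs _) _)).trans
    (h.at c hy _)).symm)
  rw [funext (deriv_br_lin c.par.sec y), fld_act hs]
  refine congrArg₂ (· * ·) (congrArg _ (Finset.prod_congr rfl fun j _ => ?_))
    (wedge_sub (D.θ s) μ _ _).symm
  by_cases e : L.n j = 0
  · simp only [e, zpow_zero]
  · refine congrArg (fun P => Classical.epsilon P ^ L.n j) (funext fun z => ?_)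
    simp only [Val, scl_X, ha j e, one_smul, gr_scl]

end Ch.Res.Lnk

variable {S Λ R J K K' ν κ ν' κ' : Type} [Fintype S] [Fintype Λ] [Fintype R] [Fintype J] [Fintype K]
  [Fintype K'] [Fintype ν] [Fintype κ] [Fintype ν'] [Fintype κ'] [DecidableEq R]

namespace Jc

variable {c : Jc J R} {W : Wt S Λ R J} {F : Fam S Λ R J K} [IsEmpty κ] [IsEmpty κ']
  {e : Option (Mk ν κ) ≃ Mk ν' κ'} {x y : c.ch.WF ν' κ' Λ}

theorem θ₂_one : c.θ₂ S e 1 = 1 := rfl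

theorem θ₂_mul (s t : c.ch.AF ν' κ' S) : c.θ₂ S e (s * t) = c.θ₂ S e s * c.θ₂ S e t := rfl

theorem θ₂_surj : Surjective (c.θ₂ S e) := by
  refine Surjective.comp (g := splA e) (fun a => ?_) Res.Lnk.θF_surj
  let w : Mk ν' κ' → Option R → ℂ := fun m =>
    (e.symm m).elim a.2 fun n => a.1.2.2.2 (n.map id Prod.fst)
  have k : ∀ m : Mk ν' κ', w ((m.map id Prod.fst).map id fun q => (q, false)) = w m := by
    rintro (m | m)
    exacts [rfl, isEmptyElim m.1]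
  refine ⟨(a.1.1, a.1.2.1, a.1.2.2.1, fun n => w (n.map id fun q => (q, false))), Prod.ext (Prod.ext
    rfl (Prod.ext rfl (Prod.ext rfl (funext fun n => (k _).trans ?_)))) ((k _).trans ?_)⟩
  · simp only [w, e.symm_apply_apply]
    cases n <;> rfl
  · simp only [w, e.symm_apply_apply]
    rfl

theorem θ₂_unit {a : c.D₂.ch.AU ν κ S} (ha : IsUnit a) : ∃ s, IsUnit s ∧ c.θ₂ S e s = a :=
  exists_unit_of_surj θ₂_one θ₂_mul θ₂_surj a ha

theorem θ₂_eq_one {s : c.ch.AF ν' κ' S} : c.θ₂ S e s = 1 ↔ s.1 = 1 ∧ (∀ i, s.2.1 (.inr i) = 1) ∧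
    (∀ l, s.2.2.1 (c.D₂.τ l) = 1) ∧ ∀ n i, s.2.2.2 n (.inr i) = 1 := by
  refine ⟨fun h => ⟨congrArg (·.1.1) h, congrFun (congrArg (·.1.2.1) h),
    congrFun (congrArg (·.1.2.2.1) h), fun n i => ?_⟩, fun ⟨a, b, d, k⟩ => Prod.ext (Prod.ext a
      (Prod.ext (funext b) (Prod.ext (funext d) (funext₂ fun _ _ => k _ _)))) (funext fun _ => k _ _)⟩
  have k : ∀ o, (dup s.2).2.2 (e o) (.inr i) = 1 := by
    rintro (_ | m | m)
    exacts [congrArg (·.2 i) h, congrArg (·.1.2.2.2 (.inl m) i) h, isEmptyElim m.1]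
  rcases n with n | n
  exacts [(e.apply_symm_apply (.inl n) ▸ k (e.symm (.inl n)) :), isEmptyElim n]

theorem n₂_ne (h : c.Ok W) {j : J3 J R} (a : h.L₂.n j ≠ 0) : j = lk none := by
  rcases j with j | (_ | r) | b
  exacts [(a rfl).elim, rfl, (a rfl).elim, (a rfl).elim]

variable (h : c.Ok F.toWt) (hF : F.Inv) (hx : x ∈ c.T e F.j0)
include h hx

theorem Ok.wk₂ : h.L₂.Wk x.2 :=
  ⟨(mem_T0.1 hx).2.1, fun _ a => n₂_ne h a ▸ (mem_T0.1 hx).2.2.1 none,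
    fun _ a _ b d => n₂_ne h a ▸ ne_lk' hx b fun s k => d (.inr ⟨_, s, k⟩), h.isXi₂ hx⟩

theorem Ok.hol₂ : ∃ Φ, AnalyticAt ℂ Φ x ∧ ∀ᶠ y in 𝓝[c.T e F.j0] x, h.f₂ e y = Φ y := by
  obtain ⟨Φ, h1, h2⟩ := (h.wk₂ hx).hol h.num.cuts
  have a : AnalyticAt ℂ (fun y : c.ch.WF ν' κ' Λ => Φ y.2) x := h1.comp analyticAt_snd
  refine ⟨fun y => spl e (y.1, Φ y.2), (analyticAt_fst.prod (((W.an_iff (ν := Mk ν κ)
    (x := fun y => (spl e (y.1, Φ y.2)).1.2))).2 ⟨(W.an_Q a :), fun n => W.an_p a (e (some n)),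
      (W.an_Ξ a :), (W.an_X a :)⟩)).prod (W.an_p a (e none)), ?_⟩
  filter_upwards [nhdsWithin_le_nhds (continuous_snd.continuousAt.eventually h2),
    self_mem_nhdsWithin] with y b d
  exact congrArg (fun z => spl e (y.1, z)) (b (h.wk₂ d))

include hF

theorem Ok.eqv₂ {s : c.ch.AF ν' κ' S} (hs : IsUnit s) :
    h.f₂ e (actF F.toWt.jc s x) = actC F.toWt (c.θ₂ S e s) (h.f₂ e x) := by
  have k := Res.Lnk.f_act_scl (mem_T0.1 hx).2.1 (isUnit_dupF hs)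
    (a := fun j => ∏ i, s.1 i ^ F.toWt.jc.wt j i) (fun j a => by simp [n₂_ne h a, Wt.jc])
    (h.isXi₂ hx) (h.isXi₂ (ivt_T (Fam.inv_ja hF _) s hs x hx))
  refine (congrArg (fun z => spl e (_, z)) k).trans (Prod.ext (Prod.ext rfl
    (W.ext (fun _ => rfl) ?_ rfl fun _ => rfl)) rfl)
  rintro (n | n)
  exacts [rfl, isEmptyElim n.1]

end Jc

end Vale.Agent.P269
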