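import Vale.Agent.P269.Fg.Unv
import Vale.Agent.P269.Map.Bun
import Vale.Agent.P269.Map.Psi
import Vale.Agent.P269.Vir.Sd
import Vale.Agent.P269.Pt.Same

/-!
# Forgetting a marked point: the joint chart, definitions
-/

set_option linter.unusedSectionVars false

namespace Vale.Agent.P269

open P291Z Set Function Topology Filter Cv Ch MvPolynomial

variable {S Λ R J K K' ν κ ν' κ' : Type} [Fintype S] [Fintype Λ] [Fintype R] [Fintype J] [Fintype K]
  [Fintype K'] [Fintype ν] [Fintype κ] [Fintype ν'] [Fintype κ']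

namespace Ch

variable {ι : Type} [Fintype ι] [DecidableEq ι] {ch ch' : Ch ι J} {W : Wt S Λ R J} {ℓ : R → ι → ℤ}

theorem Lat.exists_coef (h : ch.Lat W ℓ) (v : ι → ℤ) :
    ∃ a : Option R → ℤ, v = ∑ o, a o • o.elim ch.χ ℓ := by
  obtain ⟨w, -, -, h3⟩ := h.dual
  refine ⟨fun o => ∑ i, v i * w o i, funext fun i' => ?_⟩
  have : ∀ i, ∑ o, w o i * o.elim ch.χ ℓ i' = (Pi.single i 1 : ι → ℤ) i' := fun i =>
    congrFun (h3 i) i'
  simp only [Finset.sum_apply, Pi.smul_apply, smul_eq_mul, Finset.sum_mul, mul_assoc]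
  rw [Finset.sum_comm]
  simp [← Finset.mul_sum, this, Pi.single_apply]

theorem Lat.coef_eq_zero (h : ch.Lat W ℓ) {a : Option R → ℤ}
    (e : ∀ i, ∑ o, a o * o.elim ch.χ ℓ i = 0) (o : Option R) : a o = 0 := by
  obtain ⟨w, h1, h2, -⟩ := h.dual
  have : ∑ i, (∑ o', a o' * o'.elim ch.χ ℓ i) * w o i = 0 := by simp [e]
  simp only [Finset.sum_mul, mul_assoc] at this
  rw [Finset.sum_comm, Finset.sum_eq_single o (fun o' _ k => by
    rw [← Finset.mul_sum, h2 _ _ k.symm, mul_zero]) (by simp), ← Finset.mul_sum, h1, mul_one] at this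
  exact this

variable (e : Option (Mk ν κ) ≃ Mk ν' κ')

/-- The marked point `e none` becomes a point of the universal curve. -/
def spl (x : ch.WF ν' κ' Λ) : ch.WC ν κ Λ :=
  ((x.1, Ch.W.mk' x.2.Q (fun n => x.2.p (e (some n))) x.2.Ξ x.2.X), x.2.p (e none))

/-- The corresponding map of the groups. -/
noncomputable def splA : ch.AF ν' κ' S →L[ℂ] ch.AU ν κ S :=
  LinearMap.toContinuousLinearMap
    { toFun := fun s => ((s.1, s.2.1, s.2.2.1,
        fun n => (dup s.2).2.2 (e (some (n.map id fun q => (q, false))))), (dup s.2).2.2 (e none))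
      map_add' := fun _ _ => rfl
      map_smul' := fun _ _ => rfl }

variable (F : Fam S Λ R J K) in
/-- The solutions of the absolute theory. -/
abbrev Z0 (ch : Ch ι J) (ν κ : Type) [Fintype ν] [Fintype κ] : Set (ch.WF ν κ Λ) :=
  ch.solF ν κ F ∩ ch.cyc κ F (0 : ν → J → ℕ)

theorem Z0_base {F : Fam S Λ R J K} : ∀ x ∈ Z0 F ch ν κ, x.2 ∈ ch.base _ := fun _ h => h.1.1.2.1

end Ch

/-- The factors of the joint chart. -/
abbrev O2 (R : Type) : Type := Option R ⊕ Option R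

/-- The fields of the joint chart. -/
abbrev J3 (J R : Type) : Type := (J ⊕ J) ⊕ (Option R ⊕ Bool)

/-- The torus of the joint chart. -/
abbrev R3 (R : Type) : Type := R ⊕ Option R

/-- The equations of the joint chart. -/
abbrev K3 (K J : Type) : Type := (K ⊕ K) ⊕ J

namespace Jc

/-- the fields of the first chart -/
abbrev y1 (j : J) : J3 J R := .inl (.inl j)

/-- the fields of the second chart -/
abbrev y2 (j : J) : J3 J R := .inl (.inr j)

/-- the links -/
abbrev lk (o : Option R) : J3 J R := .inr (.inl o)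

/-- the vanishing fields that provide the frames for the tensors `Ξ` -/
abbrev zf (b : Bool) : J3 J R := .inr (.inr b)

end Jc

open Jc

variable [DecidableEq R]

/-- A joint chart. -/
structure Jc (J R : Type) where
  /-- the chart -/
  ch : Ch (O2 R) (J3 J R)
  /-- the test degree of the first chart -/
  bω₁ : Option R → ℕ
  /-- the test degree of the second chart -/
  bω₂ : Option R → ℕ
  a1 : ∀ j i, ch.a (some (y1 j)) (.inr i) = 0
  b1 : ∀ j i, ch.b (y1 j) (.inr i) = 0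
  a2 : ∀ j i, ch.a (some (y2 j)) (.inl i) = 0
  b2 : ∀ j i, ch.b (y2 j) (.inl i) = 0
  z1 : ∀ i, ch.a (some (zf false)) (.inr i) = 0
  z2 : ∀ i, ch.a (some (zf true)) (.inl i) = 0

theorem sup_inl {α β : Type} {a : α ⊕ β → ℕ} (h : ∀ i, a (.inr i) = 0) : Sup .inl a
  | .inl i, e => (e ⟨i, rfl⟩).elim
  | .inr i, _ => h i

theorem sup_inr {α β : Type} {a : α ⊕ β → ℕ} (h : ∀ i, a (.inl i) = 0) : Sup .inr a
  | .inl i, _ => h i
  | .inr i, e => (e ⟨i, rfl⟩).elim

theorem psh_inl {α β : Type} [Fintype α] [Fintype β] [DecidableEq α] [DecidableEq β] (a : α → ℤ) :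
    psh (.inl : α → α ⊕ β) a = Sum.elim a (0 : β → ℤ) := funext fun
  | .inl i => psh_apply Sum.inl_injective a i
  | .inr _ => psh_of_notMem a (by simp)

theorem psh_inr {α β : Type} [Fintype α] [Fintype β] [DecidableEq α] [DecidableEq β] (a : β → ℤ) :
    psh (.inr : β → α ⊕ β) a = Sum.elim (0 : α → ℤ) a := funext fun
  | .inl _ => psh_of_notMem a (by simp)
  | .inr i => psh_apply Sum.inr_injective a i

/-- The weights of the joint families. -/
def Wt.jc (W : Wt S Λ R J) : Wt S Λ (R3 R) (J3 J R) where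
  w := Sum.elim (Sum.elim (fun j => Sum.elim (W.w j) 0)
      fun j => Sum.elim (W.w j) fun o => o.elim 0 fun r => -W.w j r)
    (Sum.elim (fun o => Sum.elim 0 (Pi.single o 1)) 0)
  wt := Sum.elim (Sum.elim W.wt W.wt) 0
  wl := W.wl

namespace Fam

variable (F : Fam S Λ R J K)

/-- A family on the joint chart. -/
@[reducible] def jm (mov : Set (J3 J R)) (χ : K' → R3 R → ℤ) (wk : K' → S → ℤ)
    (G : K' → MvPolynomial (J3 J R) (MvPolynomial Λ ℂ)) (U : Set ((Λ → ℂ) × (J3 J R → ℂ))) :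
    Fam S Λ (R3 R) (J3 J R) K' where
  toWt := F.toWt.jc
  θ := 0
  χ := χ
  wk := wk
  G := G
  B := F.B
  U := U
  E := univ
  mov := mov
  zer := (mov ∪ range lk)ᶜ

/-- The semistable locus. -/
def jU (y : J → J3 J R) : Set ((Λ → ℂ) × (J3 J R → ℂ)) :=
  {z | (z.1, z.2 ∘ y) ∈ F.U ∧ ∀ r, z.2 (lk (some r)) ≠ 0}

/-- The weights of the equations. -/
def jχ : K3 K J → R3 R → ℤ :=
  Sum.elim (Sum.elim (fun k => Sum.elim (F.χ k) 0)
      fun k => Sum.elim (F.χ k) fun o => o.elim 0 fun r => -F.χ k r)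
    fun j => Sum.elim (F.w j) fun o => o.elim 0 fun r => (-F.w j r).toNat

/-- The equations: those of both charts and `λ ^ w⁺ y² = λ ^ w⁻ y¹`. -/
noncomputable def jG : K3 K J → MvPolynomial (J3 J R) (MvPolynomial Λ ℂ) :=
  Sum.elim (Sum.elim (fun k => rename y1 (F.G k)) fun k => rename y2 (F.G k)) fun j =>
    (∏ r, X (lk (some r)) ^ (F.w j r).toNat) * X (y2 j) -
      (∏ r, X (lk (some r)) ^ (-F.w j r).toNat) * X (y1 j)

/-- The family of the first chart. -/
@[reducible] noncomputable def j1 : Fam S Λ (R3 R) (J3 J R) K :=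
  F.jm (y1 '' F.mov) (fun k => F.jχ (.inl (.inl k))) F.wk (fun k => rename y1 (F.G k)) (F.jU y1)

/-- The family of the second chart. -/
@[reducible] noncomputable def j2 : Fam S Λ (R3 R) (J3 J R) K :=
  F.jm (y2 '' F.mov) (fun k => F.jχ (.inl (.inr k))) F.wk (fun k => rename y2 (F.G k)) (F.jU y2)

/-- The family with both sets of fields. -/
@[reducible] noncomputable def j3 : Fam S Λ (R3 R) (J3 J R) (K3 K J) :=
  F.jm (y1 '' F.mov ∪ y2 '' F.mov) F.jχ (Sum.elim (Sum.elim F.wk F.wk) F.wt) F.jG (F.jU y1)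

/-- The family without equations with the movable fields `mov`. -/
@[reducible] def ja (mov : Set (J3 J R)) : Fam S Λ (R3 R) (J3 J R) Empty :=
  F.jm mov Empty.elim Empty.elim Empty.elim univ

/-- The family whose only base fields are the links. -/
@[reducible] def j0 : Fam S Λ (R3 R) (J3 J R) Empty := F.ja (range lk)ᶜ

end Fam

namespace Jc

variable (c : Jc J R)

/-- The restriction to the first chart. -/
@[reducible] def D₁ : c.ch.Res (Option R) J where
  σ := .inl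
  φ := y1
  l₀ := some (zf false)
  o := none
  k := c.ch.k
  bω := c.bω₁
  σ_inj := Sum.inl_injective
  φ_inj := Sum.inl_injective.comp Sum.inl_injective
  l₀_ne _ := by simp
  sup₀ := sup_inl c.z1
  sup_a j := sup_inl (c.a1 j)
  sup_b j := sup_inl (c.b1 j)

/-- The restriction to the second chart. -/
@[reducible] def D₂ : c.ch.Res (Option R) J where
  σ := .inr
  φ := y2
  l₀ := some (zf true)
  o := none
  k := c.ch.k
  bω := c.bω₂
  σ_inj := Sum.inr_injective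
  φ_inj := Sum.inl_injective.comp Sum.inr_injective
  l₀_ne _ := by simp
  sup₀ := sup_inr c.z2
  sup_a j := sup_inr (c.a2 j)
  sup_b j := sup_inr (c.b2 j)

/-- The degrees of the line bundles of the torus. -/
noncomputable def ℓ : R3 R → O2 R → ℤ :=
  Sum.elim (fun r => Sum.elim (ℓs r) 0) fun o => c.ch.wd (lk o)

/-- The degrees of the tests of the equations. -/
noncomputable def e₃ (F : Fam S Λ R J K) : K3 K J → O2 R → ℕ :=
  Sum.elim (Sum.elim (fun k => Sum.elim (F.tdeg c.D₁.ch k) 0) fun k => Sum.elim 0 (F.tdeg c.D₂.ch k))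
    fun j i => ∑ r, (F.w j r).natAbs * c.ch.b (lk (some r)) i + c.ch.b (y1 j) i +
      c.ch.b (y2 j) i + 1

/-- The numerical hypotheses. -/
structure Ok (W : Wt S Λ R J) : Prop where
  o : c.ch.o = .inl none
  num : Num₀ c.ch
  num₁ : Num₀ c.D₁.ch
  num₂ : Num₀ c.D₂.ch
  lat₁ : c.D₁.ch.Lat W ℓs
  lat₂ : c.D₂.ch.Lat W ℓs
  χ : c.ch.χ = Sum.elim c.D₁.ch.χ 0
  wd : ∀ o, c.ch.wd (lk o) = Sum.elim (o.elim c.D₁.ch.χ ℓs) (-o.elim c.D₂.ch.χ ℓs)
  wz : ∀ b, c.ch.wd (zf b) = 0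
  pos : 0 < ∑ i, c.D₁.ch.χ i
  m : ∀ r, ∑ i, ℓs r i * c.ch.m (.inl i) = ∑ i, ℓs r i * c.ch.m (.inr i)
  h : ∀ l, c.ch.h l = (∑ i, c.ch.a l i * c.ch.m i + 1 - c.ch.g).toNat

variable {c} {W : Wt S Λ R J}

theorem sum_lk {b : J3 J R → ℤ} (hb : ∀ j ∉ range lk, b j = 0) (f : J3 J R → O2 R → ℤ) :
    ∑ j, b j • f j = ∑ o, b (lk o) • f (lk o) :=
  (Fintype.sum_of_injective lk (Sum.inr_injective.comp Sum.inl_injective) _ _
    (fun j h => by rw [hb j h, zero_smul]) fun _ => rfl).symm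

theorem Ok.cmb₁ (h : c.Ok W) (a : Option R → ℤ) {b : J3 J R → ℤ} (hb : ∀ j ∉ range lk, b j = 0)
    (z : ℤ) : c.D₁.cmb a b z = Sum.elim (a + ∑ o, b (lk o) • o.elim c.D₁.ch.χ ℓs + z • c.D₁.ch.χ)
      (-∑ o, b (lk o) • o.elim c.D₂.ch.χ ℓs) := by
  rw [Res.cmb, sum_lk hb, psh_inl, h.χ]
  funext i
  cases i <;> simp [h.wd, -Fintype.sum_option]

theorem Ok.cmb₂ (h : c.Ok W) (a : Option R → ℤ) {b : J3 J R → ℤ} (hb : ∀ j ∉ range lk, b j = 0)
    (z : ℤ) : c.D₂.cmb a b z = Sum.elim (∑ o, b (lk o) • o.elim c.D₁.ch.χ ℓs + z • c.D₁.ch.χ)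
      (a - ∑ o, b (lk o) • o.elim c.D₂.ch.χ ℓs) := by
  rw [Res.cmb, sum_lk hb, psh_inr, h.χ]
  funext i
  cases i <;> simp [h.wd, sub_eq_add_neg, -Fintype.sum_option]

theorem elim_sup (a : Option R → ℤ) :
    ∀ j ∉ range lk, (Sum.elim 0 (Sum.elim a 0) : J3 J R → ℤ) j = 0
  | .inl _, _ => rfl
  | .inr (.inl o), e => (e ⟨o, rfl⟩).elim
  | .inr (.inr _), _ => rfl

theorem ext_lk {b b' : J3 J R → ℤ} (hb : ∀ j ∉ range lk, b j = 0) (hb' : ∀ j ∉ range lk, b' j = 0)
    (e : ∀ o, b (lk o) = b' (lk o)) : b = b' := funext fun j => by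
  by_cases k : j ∈ range lk
  · obtain ⟨o, rfl⟩ := k
    exact e o
  · rw [hb j k, hb' j k]

/-- The links for the first chart. -/
@[reducible] def Ok.L₁ (h : c.Ok W) : c.D₁.Lnk where
  r := 1
  n := 0
  I := range lk
  k_eq := (one_mul _).symm
  n_sup _ _ := rfl
  disj _ := by simp
  rel := by
    rw [h.cmb₁ _ (b := 0) fun _ _ => rfl]
    funext i
    cases i <;> simp
  surj v := by
    obtain ⟨a, e⟩ := h.lat₂.exists_coef (-v ∘ .inr)
    refine ⟨v ∘ .inl - ∑ o, a o • o.elim c.D₁.ch.χ ℓs, _, 0, elim_sup a, ?_⟩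
    rw [h.cmb₁ _ (elim_sup a)]
    simp only [Sum.elim_inr, Sum.elim_inl, ← e]
    funext i
    cases i <;> simp
  ker a b z hb e := by
    rw [h.cmb₁ _ hb] at e
    have k : ∀ o, b (lk o) = 0 := h.lat₂.coef_eq_zero fun i => by
      simpa [-Fintype.sum_option] using congrFun e (.inr i)
    refine ⟨z, funext fun i => ?_, ext_lk hb (by simp) (by simpa using k), by simp⟩
    have := congrFun e (.inl i)
    simp only [k, zero_smul, Finset.sum_const_zero, add_zero, Sum.elim_inl, Pi.add_apply,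
      Pi.zero_apply] at this
    simpa using eq_neg_of_add_eq_zero_left this

/-- The links for the second chart. -/
@[reducible] def Ok.L₂ (h : c.Ok W) : c.D₂.Lnk where
  r := 1
  n := Sum.elim 0 (Sum.elim (fun o => o.elim (-1) 0) 0)
  I := range lk
  k_eq := (one_mul _).symm
  n_sup := elim_sup _
  disj _ := by simp
  rel := by
    rw [h.cmb₂ _ (elim_sup _)]
    funext i
    cases i <;> simp [Fintype.sum_option]
  surj v := by
    obtain ⟨a, e⟩ := h.lat₁.exists_coef (v ∘ .inl)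
    refine ⟨v ∘ .inr + ∑ o, a o • o.elim c.D₂.ch.χ ℓs, _, 0, elim_sup a, ?_⟩
    rw [h.cmb₂ _ (elim_sup a)]
    simp only [Sum.elim_inr, Sum.elim_inl, ← e]
    funext i
    cases i <;> simp
  ker a b z hb e := by
    rw [h.cmb₂ _ hb] at e
    have k : ∀ o, b (lk o) + o.elim z 0 = 0 := h.lat₁.coef_eq_zero fun i => by
      have := congrFun e (.inl i)
      simp only [Fintype.sum_option, Sum.elim_inl, Pi.add_apply, Finset.sum_apply, Pi.smul_apply,
        smul_eq_mul, Option.elim, Pi.zero_apply, add_zero] at this ⊢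
      linear_combination this
    have k0 : b (lk none) = -z := eq_neg_of_add_eq_zero_left (k none)
    have k1 : ∀ r, b (lk (some r)) = 0 := fun r => (add_zero _).symm.trans (k (some r))
    refine ⟨z, funext fun i => ?_, ext_lk hb (fun j e => by
      rw [Pi.smul_apply, elim_sup _ j e, smul_zero]) fun o => ?_, by simp⟩
    · have := congrFun e (.inr i)
      simp only [Fintype.sum_option, k0, k1] at this
      simpa [add_eq_zero_iff_eq_neg] using this
    · cases o <;> simp [k0, k1]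

variable [IsEmpty κ] [IsEmpty κ'] (e : Option (Mk ν κ) ≃ Mk ν' κ')

/-- The new marked point. -/
def q : ν' := (e none).elim id fun a => isEmptyElim a.1

theorem e_none : e none = .inl (q e) := by
  unfold q
  rcases e none with n | a
  exacts [rfl, isEmptyElim a.1]

open Classical in
variable (c) in
/-- The link `lk none` vanishes to the order `k` at the new marked point. -/
noncomputable def ord : ν' → J3 J R → ℕ := fun n j => if n = q e ∧ j = lk none then c.ch.k else 0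

variable (c) in
/-- Only a rational component with three special points through the new marked point is contracted
by the second group of factors, which are sufficiently positive on the other components. -/
def Gd (x : c.ch.WF ν' κ' Λ) : Prop :=
  ∀ (m : AM Λ (R3 R) (J3 J R) ν' κ') B π u s, RepD c.ℓ ∅ x m B π u s → ∀ U, IsClopen U →
    (degOn (B (.inr none)) U = 0 → U.Nonempty → ¬m.Sat U ∧ m.p (e none) ∈ U ∧ degOn m.ω U = 1 ∧
      ∀ i, degOn (B (.inr i)) U = 0) ∧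
    (degOn (B (.inr none)) U ≠ 0 → 3 ≤ degOn (B (.inr none)) U ∧
      degOn m.ω U + 3 ≤ degOn (B (.inr none)) U ∧ 1 ≤ degOn (B (.inr none)) U + degOn m.ω U)

variable (c) in
/-- The smooth space of a family on the joint chart. -/
def T (G : Fam S Λ (R3 R) (J3 J R) K') : Set (c.ch.WF ν' κ' Λ) :=
  {x | x ∈ c.ch.main κ' G (c.ord e) ∧ c.Gd e x}

variable (c) in
/-- The solutions. -/
abbrev Z (G : Fam S Λ (R3 R) (J3 J R) K') : Set (c.ch.WF ν' κ' Λ) := c.ch.solF ν' κ' G ∩ c.T e G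

/-- The map to the universal curve. -/
noncomputable def Ok.f₂ (h : c.Ok W) (x : c.ch.WF ν' κ' Λ) : c.D₂.ch.WC ν κ Λ := spl e (h.L₂.fF x)

variable (c S) in
/-- The map of the groups. -/
noncomputable def θ₂ : c.ch.AF ν' κ' S →L[ℂ] c.D₂.ch.AU ν κ S := splA e ∘L c.D₂.θF

/-- A normalised presentation of a point of the joint chart and of its image. -/
structure Ct (h : c.Ok W) (x : c.ch.WF ν' κ' Λ) where
  /-- the curve -/
  C' : AC ν' κ'
  /-- its line bundles -/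
  B : O2 R → LB C'.R
  /-- its embedding -/
  π : C'.X → V c.ch.M
  /-- its evaluation maps -/
  u : C'.X → ∀ l, c.ch.E l →L[ℂ] ℂ
  /-- the contracted curve -/
  C : AC ν κ
  /-- its line bundles -/
  A : Option R → LB C.R
  /-- its embedding -/
  π₂ : C.X → V c.D₂.ch.M
  /-- its evaluation maps -/
  u₂ : C.X → ∀ l, c.D₂.ch.E l →L[ℂ] ℂ
  /-- the image of the new marked point -/
  z : C.X
  /-- the inclusion of the normalisations -/
  j : C.X → C'.X
  /-- the contraction -/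
  r : C'.X → C.X
  cr' : Cr C'.N B x.2 π u C'.p 1
  ctr : Ctr C.R C'.R C.N C'.N C.p (fun n => C'.p (e n)) z j r
  B_eq : ∀ i, B (.inr i) = ctr.up (A i)
  π_eq : ∀ y, rV .inr (π y) = π₂ (r y)
  cr : Cr C.N A (h.f₂ e x).1.2 π₂ u₂ C.p 1
  u_eq : ∀ y l, u y (c.D₂.τ l) = u₂ (r y) l
  lam : ∀ a y, fld x.2 (π y) (lk (some a)) = 1
  xi : ∀ y ≠ z, Sm C.N y → y ∉ C.P →
    fld x.2 (π (j y)) (lk none) * C.R.d (fun w => C'.R.e (j y) (j w)) y ^ c.ch.k = 1

namespace Ct

variable {e} {h : c.Ok W} {x : c.ch.WF ν' κ' Λ} (t : Ct e h x)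

/-- The abstract map on the contracted curve. -/
@[reducible] noncomputable def am : AM Λ R J ν κ :=
  ⟨t.C, fun r => bz t.A (ℓs r), x.1, fun a y => fld (h.f₂ e x).1.2 (t.π₂ y) a⟩

/-- Its pull-back to the curve. -/
@[reducible] noncomputable def am' : AM Λ R J ν' κ' :=
  ⟨t.C', fun r => t.ctr.up (bz t.A (ℓs r)), x.1, fun a y => fld (h.f₂ e x).1.2 (t.π₂ (t.r y)) a⟩

theorem fg : AM.Fg e t.am t.z t.am' t.j t.r := ⟨t.ctr, fun _ => rfl, rfl, fun _ _ => rfl⟩

end Ct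

variable (c) in
/-- The hypotheses on the joint chart and the family. -/
structure Pk (F : Fam S Λ R J K) (K₀ : Set K) (b : ℕ) (U₁ : Set (c.D₁.ch.WF ν' κ' Λ))
    (U₂ : Set (c.D₂.ch.WF ν κ Λ)) : Prop where
  ok : c.Ok F.toWt
  abs : F.Abs
  ok₁ : c.D₁.ch.Ok F (F.tdeg c.D₁.ch) K₀ ℓs b U₁
  ok₂ : c.D₂.ch.Ok F (F.tdeg c.D₂.ch) K₀ ℓs b U₂
  lift : SurjOn (ok.f₂ e) (c.Z e F.j3) (unv (Z0 F c.D₂.ch ν κ))

/-- The solutions on the joint chart compare the two moduli spaces. -/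
structure Cp {F : Fam S Λ R J K} (h : c.Ok F.toWt)
    (Φ : Quo (actC F.toWt) (unv (Z0 F c.D₂.ch ν κ)) → Quo (actF F.toWt) (Z0 F c.D₁.ch ν' κ')) :
    Prop where
  m₁ : EqM (actF F.toWt.jc) (actF F.toWt) (c.Z e F.j3) (Z0 F c.D₁.ch ν' κ') c.D₁.θF h.L₁.fF
  m₂ : EqM (actF F.toWt.jc) (actC F.toWt) (c.Z e F.j3) (unv (Z0 F c.D₂.ch ν κ)) (c.θ₂ S e) (h.f₂ e)
  comm : ∀ z, Φ (m₂.map z) = m₁.map z
  hom : IsHomeomorph m₂.map
  emb : IsOpenEmbedding Φ
  act : Holo.IsAct (actF F.toWt.jc) (c.Z e F.j3)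
  orb : Orb.Orb (c.ch.AF ν' κ' S)ˣ (Holo.Sp (actF F.toWt.jc) (c.Z e F.j3))

end Jc

namespace Ch

variable {ch ch' : Ch (Option R) J} (F : Fam S Λ R J K) (e : Option (Mk ν κ) ≃ Mk ν' κ')
  (Φ : Quo (actC F.toWt) (unv (Z0 F ch ν κ)) → Quo (actF F.toWt) (Z0 F ch' ν' κ'))

/-- The field `pt` of `Fam.Fgt` for arbitrary charts. -/
def FgP : Prop :=
  ∀ (x : Z0 F ch ν κ) m B π u s (h : RepD ℓs univ x.1 m B π u s) z
    (x' : Z0 F ch' ν' κ') m' j r, AM.Fg e m z m' j r → Rep ℓs univ x'.1 m' →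
    Φ (Quo.mk _ ⟨(x.1, π z), x.2, h.cr.par.mem z⟩) = Quo.mk _ x'

/-- The field `vir`. -/
def FgV : Prop := IsOpenEmbedding Φ ∧ ∀ [Nice (Quo (actF F.toWt) (Z0 F ch' ν' κ'))],
  res Φ (virF F (F.tdeg ch') _) = virC F (F.tdeg ch) _

/-- The field `tw`. -/
def FgT : Prop :=
  ∀ Θ, hcls (pull Φ (F.coch _ (.tw Θ))) = hcls (pull (prC _ _) (F.coch _ (.tw Θ)))

/-- The field `new`. -/
def FgN : Prop := (ch.k : ℂ) • hcls (pull Φ (psiF (e none))) = oC _ _ ch.χ

/-- The field `old`. -/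
def FgO : Prop :=
  ∀ n, ∃ t : Coch (Quo (actC F.toWt) (unv (Z0 F ch ν κ))), supp (δ t) = ∅ ∧
    supp t ⊆ range (secC _ Z0_base n) ∧
    hcls (pull Φ (psiF (e (some n)))) = hcls (pull (prC _ _) (psiF n)) + hcls t ∧
    cap (hcls t) (virC F (F.tdeg ch) _) = push (secC _ Z0_base n) (virF F (F.tdeg ch) _)

end Ch

namespace Ch

variable {ι : Type} [Fintype ι] [DecidableEq ι] {ch : Ch ι J}
  (η η₀ : (Fin (ch.M ch.o) → ℂ) →L[ℂ] ℂ)

/-- An affine coordinate in the distinguished factor. -/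
noncomputable def zq (c : V ch.M) : ℂ := η (c ch.o) / η₀ (c ch.o)

/-- The numerator of its differential. -/
noncomputable def dq (c v : V ch.M) : ℂ :=
  η (v ch.o) * η₀ (c ch.o) - η (c ch.o) * η₀ (v ch.o)

/-- It is a coordinate on the curve at the marked point `n`. -/
def Adq (n : Mk ν κ) (x : ch.WF ν κ Λ) : Prop :=
  η₀ (x.2.p n ch.o) ≠ 0 ∧ ∃ v ∈ Psi.Tg (crv x.2) (x.2.p n), dq η η₀ (x.2.p n) v ≠ 0

/-- The point of the universal curve is the marked point `n`. -/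
def OnD (n : Mk ν κ) (y : ch.WC ν κ Λ) : Prop := ∃ s : ι → ℂ, y.2 = s • y.1.2.p n

/-- The map `L` from `B / N` to the tangent line at the marked point `n` vanishes to the first order
along the divisor of that point. -/
def Ml {W P : Type} [TopologicalSpace W] [AddCommGroup P] [Module ℂ P] [TopologicalSpace P]
    (n : Mk ν κ) (T : Set W) (f : W → ch.WC ν κ Λ) (B N : W → Submodule ℂ P) (L : P → V ch.M) :
    Prop :=
  ∀ y₀ ∈ T, OnD n (f y₀) → ∃ η η₀, Adq η η₀ n (f y₀).1 ∧ ∃ (b : W → P) (u : W → ℂ),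
    b y₀ ∉ N y₀ ∧ u y₀ ≠ 0 ∧ ∀ᶠ y in 𝓝[T] y₀, ContinuousWithinAt b T y ∧ ContinuousWithinAt u T y ∧
      b y ∈ B y ∧ dq η η₀ ((f y).1.2.p n) (L (b y)) =
        u y * (zq η η₀ (f y).2 - zq η η₀ ((f y).1.2.p n))

/-- The cocycle `t` represents the divisor of the marked point `n`. -/
def DvU (F : Wt S Λ R J) (Z : Set (ch.WF ν κ Λ)) (n : Mk ν κ)
    (t : Coch (Quo (actC F) (unv Z))) : Prop :=
  ∀ {A W P : Type} [NormedRing A] [NormedAlgebra ℂ A] [FiniteDimensional ℂ A] [NormedAddCommGroup W]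
    [NormedSpace ℂ W] [FiniteDimensional ℂ W] [NormedAddCommGroup P] [NormedSpace ℂ P]
    {act : A → W → W} {T : Set W} [Holo.IsAct act T] {θ : A → ch.AU ν κ S} {f : W → ch.WC ν κ Λ}
    (hf : EqM act (actC F) T (unv Z) θ f) {E : SD A W P} {r : ℕ} {L : P →ₗ[ℂ] V ch.M},
    Orb.Orb Aˣ (Holo.Sp act T) → E.Ok act T (r + 1) r →
    E.Hom ((ch.sdψ S Λ n).pb Prod.fst Prod.fst) act T θ f (fun _ => L) →
    T ⊆ closure {y | y ∈ T ∧ ¬OnD n (f y)} →
    (∀ y ∈ T, ¬OnD n (f y) → ∀ v ∈ E.B y, L v ∈ (ch.sdψ S Λ n).N (f y).1 → v ∈ E.N y) →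
    Ml n T f E.B E.N L →
    hcls (pull hf.map (pull (prC F Z) ((ch.sdψ S Λ n).eu (actF F) Z))) =
      hcls (E.eu act T) + hcls (pull hf.map t)

end Ch

end Vale.Agent.P269
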