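import Vale.Agent.P269.Fg.Jc
import Vale.Agent.P269.Map.E5

/-!
# The joint chart: the joint families
-/

set_option linter.unusedSectionVars false

namespace Vale.Agent.P269

open P291Z Set Function Topology Filter Cv Ch MvPolynomial Jc Holo

variable {S Λ R J K K' ν κ ν' κ' : Type} [Fintype S] [Fintype Λ] [Fintype R] [Fintype J] [Fintype K]
  [Fintype K'] [Fintype ν] [Fintype κ] [Fintype ν'] [Fintype κ']

namespace JcF

section gen

variable {R' J' A : Type} [Fintype R'] [Fintype J'] [CommSemiring A] {y : J → J'}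
  {F : Fam S Λ R J K} {F' : Fam S Λ R' J' K'} {k : K} {k' : K'} {s : R → ℂ}

theorem sum_md (hy : Injective y) (β : J →₀ ℕ) (f : J' → ℤ) :
    ∑ j, (β.mapDomain y j : ℤ) * f j = ∑ j, β j * f (y j) :=
  (Fintype.sum_of_injective y hy _ _
    (fun j h => by rw [Finsupp.mapDomain_of_notMem_range _ _ h, Nat.cast_zero, zero_mul])
    fun j => by rw [Finsupp.mapDomain_apply hy]).symm

theorem sup_rename (hy : Injective y) {p : MvPolynomial J A} {α : J' →₀ ℕ}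
    (h : α ∈ (rename y p).support) :
    ∃ β ∈ p.support, β.mapDomain y = α ∧ coeff α (rename y p) = coeff β p := by
  obtain ⟨β, rfl, h1⟩ := coeff_rename_ne_zero y p α (mem_support_iff.1 h)
  exact ⟨β, mem_support_iff.2 h1, rfl, coeff_rename_mapDomain y hy p β⟩

theorem eqn_rename (e : F'.G k' = rename y (F.G k)) (z : (Λ → ℂ) × (J' → ℂ)) :
    F'.eqn z k' = F.eqn (z.1, z.2 ∘ y) k := by
  change eval z.2 (MvPolynomial.map _ (F'.G k')) = eval (z.2 ∘ y) (MvPolynomial.map _ (F.G k))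
  rw [e, map_rename, eval_rename]

variable (F k) in
theorem deriv_eqn (z : (Λ → ℂ) × (J → ℂ)) (η : J → ℂ) : HasDerivAt
    (fun ε : ℂ => F.eqn (z.1, fun j => z.2 j + ε * η j) k) (∑ j, F.jac z k j * η j) 0 :=
  Vir.hasDerivAt_eval ((F.fib z.1).F k) z.2 η

theorem jac_rename (e : F'.G k' = rename y (F.G k)) (z : (Λ → ℂ) × (J' → ℂ)) (η : J' → ℂ) :
    ∑ j, F'.jac z k' j * η j = ∑ j, F.jac (z.1, z.2 ∘ y) k j * η (y j) :=
  (deriv_eqn F' k' z η).unique (by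
    simp only [eqn_rename e]
    exact deriv_eqn F k (z.1, z.2 ∘ y) (η ∘ y))

variable (F s) in
/-- The action of the torus of the target. -/
noncomputable def sc (v : J → ℂ) (j : J) : ℂ := (∏ r, s r ^ F.w j r) * v j

theorem act_eq (l : Λ → ℂ) (v : J → ℂ) : F.actT (1, s) (l, v) = (l, sc F s v) :=
  Prod.ext (F.actL_one _) (funext fun j => by simp [Wt.actT, sc])

variable (hs : ∀ r, s r ≠ 0)
include hs

theorem unit_sc : IsUnit ((1, s) : (S → ℂ) × (R → ℂ)) :=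
  Prod.isUnit_iff.2 ⟨isUnit_one, isUnit_pi_iff.2 hs⟩

theorem sc_inv (v : J → ℂ) : sc F s⁻¹ (sc F s v) = v := funext fun j => by
  simp only [sc, Pi.inv_apply, inv_zpow, Finset.prod_inv_distrib]
  exact inv_mul_cancel_left₀ (prod_zpow_ne hs _) _

theorem inv_sc (v : J → ℂ) : sc F s (sc F s⁻¹ v) = v := funext fun j => by
  simp only [sc, Pi.inv_apply, inv_zpow, Finset.prod_inv_distrib]
  exact mul_inv_cancel_left₀ (prod_zpow_ne hs _) _

theorem lk_iff (w : R → ℤ) {a b : ℂ} :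
    (∏ r, s r ^ (w r).toNat) * b - (∏ r, s r ^ (-w r).toNat) * a = 0 ↔ a = (∏ r, s r ^ w r) * b := by
  have e : ∏ r, s r ^ (w r).toNat = (∏ r, s r ^ (-w r).toNat) * ∏ r, s r ^ w r := by
    rw [← Finset.prod_mul_distrib]
    refine Finset.prod_congr rfl fun r _ => ?_
    rw [← zpow_natCast, ← zpow_natCast, ← zpow_add₀ (hs r)]
    exact congrArg _ (by omega)
  rw [e, mul_assoc, ← mul_sub, mul_eq_zero, sub_eq_zero, eq_comm (b := a),
    or_iff_right (Finset.prod_ne_zero_iff.2 fun r _ => pow_ne_zero _ (hs r))]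

variable (hF : F.Inv)
include hF

theorem eqn_sc (l : Λ → ℂ) (v : J → ℂ) (k : K) :
    F.eqn (l, sc F s v) k = (∏ r, s r ^ F.χ k r) * F.eqn (l, v) k := by
  have := hF.eval_act (unit_sc hs) (l, v) k
  rw [act_eq] at this
  simpa [Fam.eqn] using this

theorem cone_sc {l : Λ → ℂ} {v : J → ℂ} (h : (l, v) ∈ F.cone) : (l, sc F s v) ∈ F.cone :=
  act_eq (F := F) l v ▸ hF.cone_act (unit_sc hs) h

theorem jac_sc (l : Λ → ℂ) (v η : J → ℂ) (k : K) : ∑ j, F.jac (l, sc F s v) k j * sc F s η j =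
    (∏ r, s r ^ F.χ k r) * ∑ j, F.jac (l, v) k j * η j := by
  refine (deriv_eqn F k _ _).unique (((deriv_eqn F k (l, v) η).const_mul _).congr_of_eventuallyEq
    (.of_forall fun ε => Eq.trans ?_ (eqn_sc hs hF _ _ k)))
  exact congrArg (fun u => F.eqn (l, u) k) (funext fun j => by simp only [sc]; ring)

omit hs in
theorem mem_bs (hA : F.Abs) {z : (Λ → ℂ) × (J → ℂ)} :
    z ∈ F.bs ↔ z.1 ∈ F.B ∧ ∀ j ∉ F.mov, z.2 j = 0 :=
  ⟨fun h => ⟨h.1, fun j hj => h.2.2 j (hA.1 hj)⟩, fun h => ⟨h.1, hA.2.ge trivial,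
    fun j hj => h.2 j (disjoint_left.1 hF.zer_base hj)⟩⟩

end gen

theorem nm {T : Set J} {a : J} : (∀ x ∈ T, ¬x = a) ↔ a ∉ T :=
  ⟨fun h e => h a e rfl, fun h _ e k => h (k ▸ e)⟩

variable [DecidableEq R] {F : Fam S Λ R J K} {z : (Λ → ℂ) × (J3 J R → ℂ)}

theorem inj1 : Injective (y1 : J → J3 J R) := Sum.inl_injective.comp Sum.inl_injective

theorem inj2 : Injective (y2 : J → J3 J R) := Sum.inl_injective.comp Sum.inr_injective

/-- The exponent of a monomial. -/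
noncomputable def ex (n : R → ℕ) (j : J3 J R) : J3 J R →₀ ℕ :=
  ∑ r, Finsupp.single (lk (some r)) (n r) + Finsupp.single j 1

theorem mono_eq (n : R → ℕ) : (∏ r, X (lk (some r)) ^ n r : MvPolynomial (J3 J R)
    (MvPolynomial Λ ℂ)) = monomial (∑ r, Finsupp.single (lk (some r)) (n r)) 1 := by
  simp only [monomial_sum_one, X_pow_eq_monomial]

theorem mono_ex (n : R → ℕ) (j : J3 J R) : ((∏ r, X (lk (some r)) ^ n r) * X j :
    MvPolynomial (J3 J R) (MvPolynomial Λ ℂ)) = monomial (ex n j) 1 := by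
  rw [ex, monomial_add_single, pow_one, mono_eq]

theorem sum_ex (n : R → ℕ) (j : J3 J R) (f : J3 J R → ℤ) :
    ∑ i, (ex n j i : ℤ) * f i = ∑ r, n r * f (lk (some r)) + f j := by
  classical
  simp only [ex, Finsupp.add_apply, Finsupp.finsetSum_apply, Finsupp.single_apply, Nat.cast_add,
    Nat.cast_sum, add_mul, Finset.sum_mul, Finset.sum_add_distrib]
  rw [Finset.sum_comm]
  simp

theorem mono_sup {n : R → ℕ} {α : J3 J R →₀ ℕ} (h : α ∈ (∏ r, X (lk (some r)) ^ n r :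
    MvPolynomial (J3 J R) (MvPolynomial Λ ℂ)).support) (i : J ⊕ J) : α (.inl i) = 0 := by
  rw [mono_eq] at h
  simp [Finset.mem_singleton.1 (support_monomial_subset h), Finsupp.finsetSum_apply]

theorem ex_sup {n : R → ℕ} {j : J3 J R} {α : J3 J R →₀ ℕ} (h : α ∈ ((∏ r, X (lk (some r)) ^ n r) *
    X j : MvPolynomial (J3 J R) (MvPolynomial Λ ℂ)).support) {i : J ⊕ J} (e : .inl i ≠ j) :
    α (.inl i) = 0 := by
  rw [mono_ex] at h
  simp [Finset.mem_singleton.1 (support_monomial_subset h), ex, e]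

theorem sup_lk {j : J} {α : J3 J R →₀ ℕ} {β : Λ →₀ ℕ} (h : β ∈ (coeff α (F.jG (.inr j))).support) :
    (α = ex (fun r => (F.w j r).toNat) (y2 j) ∨ α = ex (fun r => (-F.w j r).toNat) (y1 j)) ∧
      β = 0 := by
  classical
  simp only [Fam.jG, Sum.elim_inr, mono_ex, coeff_sub, coeff_monomial, mem_support_iff] at h
  refine ⟨by_contra fun e => h ?_, by_contra fun e => h ?_⟩
  · rw [not_or] at e
    simp [Ne.symm e.1, Ne.symm e.2]
  · split_ifs <;> simp [coeff_one, Ne.symm e]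

theorem eqn_lk (j : J) : F.j3.eqn z (.inr j) =
    (∏ r, z.2 (lk (some r)) ^ (F.w j r).toNat) * z.2 (y2 j) -
      (∏ r, z.2 (lk (some r)) ^ (-F.w j r).toNat) * z.2 (y1 j) := by
  simp [Fam.eqn, Fam.fib, Fam.jG]

theorem jac_lk (j : J) {η : J3 J R → ℂ} (h : ∀ o, η (lk o) = 0) :
    ∑ i, F.j3.jac z (.inr j) i * η i = (∏ r, z.2 (lk (some r)) ^ (F.w j r).toNat) * η (y2 j) -
      (∏ r, z.2 (lk (some r)) ^ (-F.w j r).toNat) * η (y1 j) := by
  refine (deriv_eqn F.j3 _ z η).unique ?_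
  simp only [eqn_lk, h, mul_zero, add_zero]
  have := ((((hasDerivAt_id' (0 : ℂ)).mul_const (η (y2 j))).const_add (z.2 (y2 j))).const_mul
    (∏ r, z.2 (lk (some r)) ^ (F.w j r).toNat)).fun_sub
      ((((hasDerivAt_id' (0 : ℂ)).mul_const (η (y1 j))).const_add (z.2 (y1 j))).const_mul
        (∏ r, z.2 (lk (some r)) ^ (-F.w j r).toNat))
  rwa [one_mul, one_mul] at this

theorem cont_y (y : J → J3 J R) :
    Continuous fun z : (Λ → ℂ) × (J3 J R → ℂ) => (z.1, z.2 ∘ y) :=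
  continuous_fst.prodMk (continuous_pi fun _ => (continuous_apply _).comp continuous_snd)

theorem isOpen_lk : IsOpen {z : (Λ → ℂ) × (J3 J R → ℂ) | ∀ r, z.2 (lk (some r)) ≠ 0} := by
  rw [ofPred_forall]
  exact isOpen_iInter_of_finite fun r =>
    isOpen_ne_fun ((continuous_apply _).comp continuous_snd) continuous_const

variable (hF : F.Inv)
include hF

theorem inv_jm {mov : Set (J3 J R)} {χ : K' → R3 R → ℤ} {wk : K' → S → ℤ}
    {G : K' → MvPolynomial (J3 J R) (MvPolynomial Λ ℂ)} {U : Set ((Λ → ℂ) × (J3 J R → ℂ))}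
    (h : ∀ k, ∀ α ∈ (G k).support, ∀ β ∈ (coeff α (G k)).support,
      (∀ i, ∑ j, α j * F.toWt.jc.w j i = χ k i) ∧
        ∀ i, ∑ j, α j * F.toWt.jc.wt j i + ∑ a, β a * F.wl a i = wk k i) (hU : IsOpen U)
    (hi : ∀ t, IsUnit t → ∀ z ∈ U, F.toWt.jc.actT t z ∈ U) : (F.jm mov χ wk G U).Inv :=
  ⟨fun k α hα => let ⟨β, hβ⟩ := support_nonempty.2 (mem_support_iff.1 hα); (h k α hα β hβ).1,
    fun k α hα β hβ => (h k α hα β hβ).2, hU, hi, isClosed_univ, fun _ _ _ _ => trivial,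
    fun _ _ _ _ _ => trivial, disjoint_left.2 fun _ a b => a (.inl b), hF.lcB, hF.invB⟩

theorem isOpen_jU (y : J → J3 J R) : IsOpen (F.jU y) :=
  (hF.openU.preimage (cont_y y)).inter isOpen_lk

theorem inv_jU {y : J → J3 J R} (u : (R3 R → ℂ) → R → ℂ)
    (h1 : ∀ t, (∀ i, t i ≠ 0) → (∀ r, u t r ≠ 0) ∧
      ∀ j, ∏ i, t i ^ F.toWt.jc.w (y j) i = ∏ r, u t r ^ F.w j r)
    (h2 : ∀ j, F.toWt.jc.wt (y j) = F.wt j) (t : (S → ℂ) × (R3 R → ℂ)) (ht : IsUnit t)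
    (z : (Λ → ℂ) × (J3 J R → ℂ)) (hz : z ∈ F.jU y) : F.toWt.jc.actT t z ∈ F.jU y := by
  obtain ⟨a, b⟩ := Prod.isUnit_iff.1 ht
  obtain ⟨c, d⟩ := h1 _ (isUnit_pi_iff.1 b)
  refine ⟨mem_of_eq_of_mem (Prod.ext (by rfl) (funext fun j => ?_))
    (hF.invU (t.1, u t.2) (Prod.isUnit_iff.2 ⟨a, isUnit_pi_iff.2 c⟩) _ hz.1), fun r =>
      mul_ne_zero (mul_ne_zero (prod_zpow_ne (isUnit_pi_iff.1 a) _)
        (prod_zpow_ne (isUnit_pi_iff.1 b) _)) (hz.2 r)⟩
  simp only [Wt.actT, Function.comp_apply, d, h2]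

theorem inv_jU1 : ∀ t, IsUnit t → ∀ z ∈ F.jU y1, F.toWt.jc.actT t z ∈ F.jU y1 :=
  inv_jU hF (fun t r => t (.inl r)) (fun _ h => ⟨fun _ => h _, fun j => by simp [Wt.jc]⟩)
    fun _ => rfl

theorem inv_jU2 : ∀ t, IsUnit t → ∀ z ∈ F.jU y2, F.toWt.jc.actT t z ∈ F.jU y2 :=
  inv_jU hF (fun t r => t (.inl r) / t (.inr (some r)))
    (fun _ h => ⟨fun _ => div_ne_zero (h _) (h _), fun j => by
      simp [Wt.jc, Fintype.prod_option, div_eq_mul_inv, mul_zpow, Finset.prod_mul_distrib]⟩)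
    fun _ => rfl

theorem hom1 (k : K) : ∀ α ∈ (rename y1 (F.G k)).support,
    ∀ β ∈ (coeff α (rename (y1 (R := R)) (F.G k))).support,
      (∀ i, ∑ j, α j * F.toWt.jc.w j i = F.jχ (.inl (.inl k)) i) ∧
        ∀ i, ∑ j, α j * F.toWt.jc.wt j i + ∑ a, β a * F.wl a i = F.wk k i := fun α hα β hβ => by
  obtain ⟨γ, h1, rfl, h2⟩ := sup_rename inj1 hα
  simp only [sum_md inj1]
  refine ⟨fun i => ?_, hF.homS k γ h1 β (h2 ▸ hβ)⟩
  rcases i with i | i
  exacts [hF.hom k γ h1 i, by simp [Wt.jc, Fam.jχ]]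

theorem hom2 (k : K) : ∀ α ∈ (rename y2 (F.G k)).support,
    ∀ β ∈ (coeff α (rename (y2 (R := R)) (F.G k))).support,
      (∀ i, ∑ j, α j * F.toWt.jc.w j i = F.jχ (.inl (.inr k)) i) ∧
        ∀ i, ∑ j, α j * F.toWt.jc.wt j i + ∑ a, β a * F.wl a i = F.wk k i := fun α hα β hβ => by
  obtain ⟨γ, h1, rfl, h2⟩ := sup_rename inj2 hα
  simp only [sum_md inj2]
  refine ⟨fun i => ?_, hF.homS k γ h1 β (h2 ▸ hβ)⟩
  rcases i with i | _ | i
  exacts [hF.hom k γ h1 i, by simp [Wt.jc, Fam.jχ], by simp [Wt.jc, Fam.jχ, ← hF.hom k γ h1 i]]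

omit hF in
theorem hom3 (j : J) : ∀ α ∈ (F.jG (.inr j)).support, ∀ β ∈ (coeff α (F.jG (.inr j))).support,
    (∀ i, ∑ j, α j * F.toWt.jc.w j i = F.jχ (.inr j) i) ∧
      ∀ i, ∑ j, α j * F.toWt.jc.wt j i + ∑ a, β a * F.wl a i = F.wt j i := fun α _ β hβ => by
  obtain ⟨h, rfl⟩ := sup_lk hβ
  refine ⟨fun i => ?_, fun i => ?_⟩
  · rcases h with rfl | rfl <;> rw [sum_ex] <;> rcases i with i | _ | i <;>
      simp [Wt.jc, Fam.jχ, Pi.single_apply]
    omega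
  · rcases h with rfl | rfl <;> rw [sum_ex] <;> simp [Wt.jc]

variable (hA : F.Abs)
include hA

theorem bs1 : z ∈ F.j1.bs ↔
    (z.1, z.2 ∘ y1) ∈ F.bs ∧ (∀ j, z.2 (y2 j) = 0) ∧ ∀ b, z.2 (zf b) = 0 := by
  rw [mem_bs hF hA]
  simp [Fam.bs, Sum.forall, and_assoc, nm, -Bool.forall_bool]

theorem bs2 : z ∈ F.j2.bs ↔
    (z.1, z.2 ∘ y2) ∈ F.bs ∧ (∀ j, z.2 (y1 j) = 0) ∧ ∀ b, z.2 (zf b) = 0 := by
  rw [mem_bs hF hA]
  simp [Fam.bs, Sum.forall, and_assoc, nm, -Bool.forall_bool]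
  tauto

theorem bs3 : z ∈ F.j3.bs ↔
    (z.1, z.2 ∘ y1) ∈ F.bs ∧ (∀ j ∉ F.mov, z.2 (y2 j) = 0) ∧ ∀ b, z.2 (zf b) = 0 := by
  rw [mem_bs hF hA]
  simp [Fam.bs, Sum.forall, and_assoc, nm, -Bool.forall_bool]

end JcF

open JcF

namespace Fam

variable [DecidableEq R] {F : Fam S Λ R J K} {z : (Λ → ℂ) × (J3 J R → ℂ)}

theorem inv_ja (hF : F.Inv) (mov : Set (J3 J R)) : (F.ja mov).Inv :=
  inv_jm hF (fun k => k.elim) isOpen_univ fun _ _ _ _ => trivial

theorem inv_j1 (hF : F.Inv) : F.j1.Inv := inv_jm hF (hom1 hF) (isOpen_jU hF _) (inv_jU1 hF)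

theorem inv_j2 (hF : F.Inv) : F.j2.Inv := inv_jm hF (hom2 hF) (isOpen_jU hF _) (inv_jU2 hF)

theorem inv_j3 (hF : F.Inv) : F.j3.Inv :=
  inv_jm hF (fun
    | .inl (.inl k) => hom1 hF k
    | .inl (.inr k) => hom2 hF k
    | .inr j => hom3 j) (isOpen_jU hF _) (inv_jU1 hF)

variable (hF : F.Inv) (hA : F.Abs)
include hF hA

theorem cone_j1 : z ∈ F.j1.cone ↔ (z.1, z.2 ∘ y1) ∈ F.cone ∧ (∀ r, z.2 (lk (some r)) ≠ 0) ∧
    (∀ j, z.2 (y2 j) = 0) ∧ ∀ b, z.2 (zf b) = 0 := by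
  simp only [mem_cone, bs1 hF hA, fun k => eqn_rename (F := F) (F' := F.j1) (k := k) rfl z]
  exact ⟨fun h => ⟨⟨h.1.1, h.2.1.1, h.2.2⟩, h.2.1.2, h.1.2⟩,
    fun h => ⟨⟨h.1.1, h.2.2⟩, ⟨h.1.2.1, h.2.1⟩, h.1.2.2⟩⟩

theorem cone_j2 : z ∈ F.j2.cone ↔ (z.1, z.2 ∘ y2) ∈ F.cone ∧ (∀ r, z.2 (lk (some r)) ≠ 0) ∧
    (∀ j, z.2 (y1 j) = 0) ∧ ∀ b, z.2 (zf b) = 0 := by
  simp only [mem_cone, bs2 hF hA, fun k => eqn_rename (F := F) (F' := F.j2) (k := k) rfl z]
  exact ⟨fun h => ⟨⟨h.1.1, h.2.1.1, h.2.2⟩, h.2.1.2, h.1.2⟩,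
    fun h => ⟨⟨h.1.1, h.2.2⟩, ⟨h.1.2.1, h.2.1⟩, h.1.2.2⟩⟩

theorem cone_j3 : z ∈ F.j3.cone ↔ (z.1, z.2 ∘ y1) ∈ F.cone ∧ (∀ r, z.2 (lk (some r)) ≠ 0) ∧
    (∀ j, z.2 (y1 j) = (∏ r, z.2 (lk (some r)) ^ F.w j r) * z.2 (y2 j)) ∧ ∀ b, z.2 (zf b) = 0 := by
  rw [mem_cone, mem_cone, bs3 hF hA]
  refine ⟨fun ⟨a, b, c⟩ => ⟨⟨a.1, b.1, fun k => (eqn_rename rfl z).symm.trans (c (.inl (.inl k)))⟩,
    b.2, fun j => (lk_iff b.2 _).1 ((eqn_lk j).symm.trans (c _)), a.2.2⟩,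
    fun ⟨a, b, c, d⟩ => ⟨⟨a.1, fun j hj => ?_, d⟩, ⟨a.2.1, b⟩, fun
      | .inl (.inl k) => (eqn_rename rfl z).trans (a.2.2 k)
      | .inl (.inr k) => (eqn_rename rfl z).trans ?_
      | .inr j => (eqn_lk j).trans ((lk_iff b _).2 (c j))⟩⟩
  · exact (mul_eq_zero.1 ((c j).symm.trans (((mem_bs hF hA).1 a.1).2 j hj))).resolve_left
      (prod_zpow_ne b _)
  · exact (mul_eq_zero.1 ((eqn_sc b hF z.1 (z.2 ∘ y2) k).symm.trans ((congrArg
      (fun u => F.eqn (z.1, u) k) (funext c).symm).trans (a.2.2 k)))).resolve_left (prod_zpow_ne b _)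

theorem det_j1 : F.j1.Det F.j3 (y2 '' F.mov) fun k => .inl (.inl k) where
  wt := rfl
  B := rfl
  E := rfl
  mov := rfl
  zer := by
    ext
    simp only [mem_compl_iff, mem_union, Set.mem_sdiff]
    tauto
  sub := by
    rintro _ ⟨j, -, rfl⟩
    simp
  wk _ := rfl
  G _ := rfl
  free k α hα := by
    rintro _ ⟨j, -, rfl⟩
    obtain ⟨β, -, rfl, -⟩ := sup_rename inj1 hα
    exact Finsupp.mapDomain_of_notMem_range _ _ (by simp)
  det := by
    rintro _ ⟨j, -, rfl⟩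
    refine ⟨.inr j, _, _, rfl, fun α hα => ?_, fun α hα => ?_, fun z hz => ?_⟩
    · rintro _ ⟨i, -, rfl⟩
      exact mono_sup hα _
    · rintro _ ⟨i, -, rfl⟩
      exact ex_sup hα (by simp)
    · simpa [Finset.prod_eq_zero_iff] using fun r h => (((cone_j3 hF hA).1 hz).2.1 r h).elim
  down z hz y h1 h2 := by
    have k := ((bs3 hF hA).1 ((mem_cone _).1 hz).1).2.1
    obtain ⟨a, b, -, d⟩ := (cone_j3 hF hA).1 hz
    rw [← show y ∘ y1 = z.2 ∘ y1 from _root_.funext fun j => h2 _ (by simp)] at a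
    refine (cone_j1 hF hA).2 ⟨a,
      fun r => (h2 _ (by simp)).trans_ne (b r), fun j => ?_, fun b => (h2 _ (by simp)).trans (d b)⟩
    by_cases e : j ∈ F.mov
    exacts [h1 _ ⟨j, e, rfl⟩, (h2 _ (mt inj2.mem_set_image.1 e)).trans (k j e)]
  up z hz := by
    obtain ⟨a, b, c, d⟩ := (cone_j1 hF hA).1 hz
    refine ⟨Sum.elim (Sum.elim (z.2 ∘ y1) (sc F (fun r => z.2 (lk (some r)))⁻¹ (z.2 ∘ y1)))
      (z.2 ∘ .inr), fun
      | .inl (.inl _), _ => rfl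
      | .inl (.inr j), h => ?_
      | .inr _, _ => rfl, (cone_j3 hF hA).2 ⟨a, b, congrFun (inv_sc b _).symm, d⟩⟩
    exact (mul_eq_zero_of_right _ (((mem_bs hF hA).1 ((mem_cone _).1 a).1).2 j
      (mt inj2.mem_set_image.2 h))).trans (c j).symm
  tan z hz η h1 h2 := by
    obtain ⟨a, b, c, d⟩ := (cone_j3 hF hA).1 hz
    refine ⟨Sum.elim (Sum.elim (η ∘ y1) (sc F (fun r => z.2 (lk (some r)))⁻¹ (η ∘ y1)))
      (η ∘ .inr), fun
      | .inl (.inl _), _ => rfl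
      | .inl (.inr j), h => ?_
      | .inr _, _ => rfl, fun
      | .inl (.inl k) => (jac_rename rfl z _).trans ((jac_rename rfl z η).symm.trans (h2 k))
      | .inl (.inr k) => (jac_rename rfl z _).trans ?_
      | .inr j => (jac_lk j fun o => by exact h1 _ (by simp)).trans
          ((lk_iff b _).2 (congrFun (inv_sc b (η ∘ y1)).symm j))⟩
    · exact (mul_eq_zero_of_right _ (h1 _ (mt inj1.mem_set_image.1
        (mt inj2.mem_set_image.2 h)))).trans (h1 _ (by simp)).symm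
    · have := jac_sc (s := (fun r => z.2 (lk (some r)))⁻¹) (fun r => inv_ne_zero (b r)) hF z.1
        (z.2 ∘ y1) (η ∘ y1) k
      rw [show ∑ j, F.jac (z.1, z.2 ∘ y1) k j * (η ∘ y1) j = 0 from
        (jac_rename rfl z η).symm.trans (h2 k), mul_zero,
        show z.2 ∘ y1 = sc F _ (z.2 ∘ y2) from funext c, sc_inv b] at this
      exact this

theorem det_j2 : F.j2.Det F.j3 (y1 '' F.mov) fun k => .inl (.inr k) where
  wt := rfl
  B := rfl
  E := rfl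
  mov := union_comm _ _
  zer := by
    ext
    simp only [mem_compl_iff, mem_union, Set.mem_sdiff]
    tauto
  sub := by
    rintro _ ⟨j, -, rfl⟩
    simp
  wk _ := rfl
  G _ := rfl
  free k α hα := by
    rintro _ ⟨j, -, rfl⟩
    obtain ⟨β, -, rfl, -⟩ := sup_rename inj2 hα
    exact Finsupp.mapDomain_of_notMem_range _ _ (by simp)
  det := by
    rintro _ ⟨j, -, rfl⟩
    refine ⟨.inr j, -∏ r, X (lk (some r)) ^ (-F.w j r).toNat,
      -((∏ r, X (lk (some r)) ^ (F.w j r).toNat) * X (y2 j)),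
      by simp only [jG, Sum.elim_inr]; ring, fun α hα => ?_, fun α hα => ?_, fun z hz => ?_⟩
    · rintro _ ⟨i, -, rfl⟩
      exact mono_sup ((MvPolynomial.support_neg _).le hα) _
    · rintro _ ⟨i, -, rfl⟩
      exact ex_sup ((MvPolynomial.support_neg _).le hα) (by simp)
    · simpa [Finset.prod_eq_zero_iff] using fun r h => (((cone_j3 hF hA).1 hz).2.1 r h).elim
  down z hz y h1 h2 := by
    obtain ⟨a, b, c, d⟩ := (cone_j3 hF hA).1 hz
    have k := ((mem_bs hF hA).1 ((mem_cone _).1 a).1).2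
    have a' := cone_sc (s := (fun r => z.2 (lk (some r)))⁻¹) (fun r => inv_ne_zero (b r)) hF a
    rw [show z.2 ∘ y1 = sc F _ (z.2 ∘ y2) from funext c, sc_inv b] at a'
    rw [← show y ∘ y2 = z.2 ∘ y2 from _root_.funext fun j => h2 _ (by simp)] at a'
    refine (cone_j2 hF hA).2 ⟨a',
      fun r => (h2 _ (by simp)).trans_ne (b r), fun j => ?_, fun b => (h2 _ (by simp)).trans (d b)⟩
    by_cases e : j ∈ F.mov
    exacts [h1 _ ⟨j, e, rfl⟩, (h2 _ (mt inj1.mem_set_image.1 e)).trans (k j e)]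
  up z hz := by
    obtain ⟨a, b, c, d⟩ := (cone_j2 hF hA).1 hz
    refine ⟨Sum.elim (Sum.elim (sc F (fun r => z.2 (lk (some r))) (z.2 ∘ y2)) (z.2 ∘ y2))
      (z.2 ∘ .inr), fun
      | .inl (.inl j), h => ?_
      | .inl (.inr _), _ => rfl
      | .inr _, _ => rfl, (cone_j3 hF hA).2 ⟨cone_sc b hF a, b, fun _ => rfl, d⟩⟩
    exact (mul_eq_zero_of_right _ (((mem_bs hF hA).1 ((mem_cone _).1 a).1).2 j
      (mt inj1.mem_set_image.2 h))).trans (c j).symm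
  tan z hz η h1 h2 := by
    obtain ⟨a, b, c, d⟩ := (cone_j3 hF hA).1 hz
    refine ⟨Sum.elim (Sum.elim (sc F (fun r => z.2 (lk (some r))) (η ∘ y2)) (η ∘ y2))
      (η ∘ .inr), fun
      | .inl (.inl j), h => ?_
      | .inl (.inr _), _ => rfl
      | .inr _, _ => rfl, fun
      | .inl (.inl k) => (jac_rename rfl z _).trans ?_
      | .inl (.inr k) => (jac_rename rfl z _).trans ((jac_rename rfl z η).symm.trans (h2 k))
      | .inr j => (jac_lk j fun o => by exact h1 _ (by simp)).trans ((lk_iff b _).2 rfl)⟩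
    · exact (mul_eq_zero_of_right _ (h1 _ (mt inj2.mem_set_image.1
        (mt inj1.mem_set_image.2 h)))).trans (h1 _ (by simp)).symm
    · have := jac_sc b hF z.1 (z.2 ∘ y2) (η ∘ y2) k
      rw [show ∑ j, F.jac (z.1, z.2 ∘ y2) k j * (η ∘ y2) j = 0 from
        (jac_rename rfl z η).symm.trans (h2 k), mul_zero,
        ← show z.2 ∘ y1 = sc F _ (z.2 ∘ y2) from funext c] at this
      exact this

variable {K₀ : Set K} (hR : F.Reg K₀)
include hR

theorem reg_j1 : F.j1.Reg K₀ := by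
  refine ⟨fun z hz c => ?_, fun z hz => ?_⟩
  · obtain ⟨η, h1, h2⟩ := hR.ind _ ((cone_j1 hF hA).1 hz).1 c
    exact ⟨Sum.elim (Sum.elim η 0) 0, fun
      | .inl (.inl j), h => h1 j (mt inj1.mem_set_image.2 h)
      | .inl (.inr _), _ => rfl
      | .inr _, _ => rfl, fun k hk => (jac_rename rfl z _).trans (h2 k hk)⟩
  · exact (((cont_y y1).tendsto z).eventually (hR.cut _ ((cone_j1 hF hA).1 hz).1)).mono
      fun w h a b k => (eqn_rename rfl w).trans (h ((bs1 hF hA).1 a).1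
        (fun k hk => (eqn_rename rfl w).symm.trans (b k hk)) k)

theorem reg_j2 : F.j2.Reg K₀ := by
  refine ⟨fun z hz c => ?_, fun z hz => ?_⟩
  · obtain ⟨η, h1, h2⟩ := hR.ind _ ((cone_j2 hF hA).1 hz).1 c
    exact ⟨Sum.elim (Sum.elim 0 η) 0, fun
      | .inl (.inl _), _ => rfl
      | .inl (.inr j), h => h1 j (mt inj2.mem_set_image.2 h)
      | .inr _, _ => rfl, fun k hk => (jac_rename rfl z _).trans (h2 k hk)⟩
  · exact (((cont_y y2).tendsto z).eventually (hR.cut _ ((cone_j2 hF hA).1 hz).1)).mono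
      fun w h a b k => (eqn_rename rfl w).trans (h ((bs2 hF hA).1 a).1
        (fun k hk => (eqn_rename rfl w).symm.trans (b k hk)) k)

theorem reg_j3 : F.j3.Reg ((fun k => .inl (.inl k)) '' K₀ ∪ .inr '' F.mov) := by
  classical
  refine ⟨fun z hz c => ?_, fun z hz => ?_⟩
  · obtain ⟨a, b, -, -⟩ := (cone_j3 hF hA).1 hz
    obtain ⟨η, h1, h2⟩ := hR.ind _ a fun k => c (.inl (.inl k))
    refine ⟨Sum.elim (Sum.elim η fun j => if j ∈ F.mov then
        (c (.inr j) + (∏ r, z.2 (lk (some r)) ^ (-F.w j r).toNat) * η j) /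
          ∏ r, z.2 (lk (some r)) ^ (F.w j r).toNat else 0) 0, fun
      | .inl (.inl j), h => h1 j fun e => h (.inl ⟨j, e, rfl⟩)
      | .inl (.inr j), h => if_neg fun e => h (.inr ⟨j, e, rfl⟩)
      | .inr _, _ => rfl, ?_⟩
    rintro _ (⟨k, hk, rfl⟩ | ⟨j, hj, rfl⟩)
    · exact (jac_rename rfl z _).trans (h2 k hk)
    · rw [jac_lk j fun _ => rfl]
      simp only [Sum.elim_inl, Sum.elim_inr, if_pos hj]
      rw [mul_div_cancel₀ _ (Finset.prod_ne_zero_iff.2 fun r _ => pow_ne_zero _ (b r)),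
        add_sub_cancel_right]
  · obtain ⟨a, b, -, -⟩ := (cone_j3 hF hA).1 hz
    filter_upwards [((cont_y y1).tendsto z).eventually (hR.cut _ a), isOpen_lk.mem_nhds b]
      with w h1 h2 h3 h4
    obtain ⟨k1, k2, -⟩ := (bs3 hF hA).1 h3
    have k3 := h1 k1 fun k hk => (eqn_rename rfl w).symm.trans (h4 _ (.inl ⟨k, hk, rfl⟩))
    have k4 : ∀ j, F.j3.eqn w (.inr j) = 0 := fun j => by
      by_cases e : j ∈ F.mov
      · exact h4 _ (.inr ⟨j, e, rfl⟩)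
      · rw [eqn_lk, k2 j e, show w.2 (y1 j) = 0 from ((mem_bs hF hA).1 k1).2 j e, mul_zero,
          mul_zero, sub_zero]
    refine fun
      | .inl (.inl k) => (eqn_rename rfl w).trans (k3 k)
      | .inl (.inr k) => (eqn_rename rfl w).trans ?_
      | .inr j => k4 j
    have k5 := k3 k
    rw [show w.2 ∘ y1 = sc F (fun r => w.2 (lk (some r))) (w.2 ∘ y2) from _root_.funext fun j =>
      (lk_iff h2 _).1 ((eqn_lk j).symm.trans (k4 j)), eqn_sc h2 hF] at k5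
    exact (mul_eq_zero.1 k5).resolve_left (prod_zpow_ne h2 _)

end Fam

end Vale.Agent.P269
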