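import Vale.Agent.P269.Fg.JcF
import Vale.Agent.P269.Fg.PtB
import Vale.Agent.P269.Map.Pol

/-!
# The joint chart: algebraic lemmas
-/

set_option linter.unusedSectionVars false

namespace Vale.Agent.P269

open P291Z Set Function Topology Filter Cv Ch MvPolynomial Jc Holo

variable {S Λ R J K K' ν κ ν' κ' : Type} [Fintype S] [Fintype Λ] [Fintype R] [Fintype J] [Fintype K]
  [Fintype K'] [Fintype ν] [Fintype κ] [Fintype ν'] [Fintype κ'] [DecidableEq R]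

namespace JcL

section lat

variable {α β ι ι' : Type} [Fintype α] [Fintype β] [Fintype ι] [Fintype ι'] [DecidableEq ι]
  [DecidableEq ι']

/-- Dual bases of the lattice. -/
def Dual (b v : α → ι → ℤ) : Prop :=
  (∀ o, ∑ i, b o i * v o i = 1) ∧ (∀ o o', o' ≠ o → ∑ i, b o i * v o' i = 0) ∧
    ∀ i, (fun i' => ∑ o, v o i * b o i') = Pi.single i 1

theorem Dual.comp {b v : α → ι → ℤ} (h : Dual b v) (g : β ≃ α) : Dual (b ∘ g) (v ∘ g) :=
  ⟨fun _ => h.1 _, fun _ _ a => h.2.1 _ _ (g.injective.ne a), fun i =>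
    (funext fun i' => g.sum_comp fun o => v o i * b o i').trans (h.2.2 i)⟩

theorem Dual.sum {b v : α → ι → ℤ} {b' v' : α → ι' → ℤ} (h : Dual b v) (h' : Dual b' v') :
    Dual (Sum.elim (fun o => Sum.elim (b o) 0) fun o => Sum.elim (b o) (-b' o))
      (Sum.elim (fun o => Sum.elim (v o) (v' o)) fun o => Sum.elim 0 (-v' o)) := by
  refine ⟨fun o => ?_, fun o o' a => ?_, fun i => funext fun i' => ?_⟩
  · cases o <;> simp [h.1, h'.1]
  · rcases o with o | o <;> rcases o' with o' | o'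
    · simp [h.2.1 o o' fun e => a (congrArg _ e)]
    · simp
    · by_cases e : o' = o
      · simp [e, h.1, h'.1]
      · simp [h.2.1 o o' e, h'.2.1 o o' e]
    · simp [h'.2.1 o o' fun e => a (congrArg _ e)]
  · rcases i with i | i <;> rcases i' with i' | i'
    · simpa [Pi.single_apply] using congrFun (h.2.2 i) i'
    · simp
    · simp
    · simpa [Pi.single_apply] using congrFun (h'.2.2 i) i'

open Classical in
theorem sum_img {M : Type} [AddCommMonoid M] {g : α → β} (hg : Injective g) (s : Set α) (f : β → M)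
    {_ : DecidablePred (· ∈ g '' s)} : ∑ j with j ∈ g '' s, f j = ∑ j with j ∈ s, f (g j) :=
  (Finset.sum_nbij g (by simpa using fun j a => ⟨j, a, rfl⟩) hg.injOn
    (fun j a => by simpa using a) fun _ _ => rfl).symm

open Classical in
theorem sum_un {M : Type} [AddCommMonoid M] {s t : Set α} (h : Disjoint s t) (f : α → M)
    {_ : DecidablePred (· ∈ s ∪ t)} :
    ∑ j with j ∈ s ∪ t, f j = ∑ j with j ∈ s, f j + ∑ j with j ∈ t, f j := by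
  rw [← Finset.sum_union (Finset.disjoint_filter.2 fun _ _ a => disjoint_left.1 h a)]
  exact Finset.sum_congr (Finset.ext (by simp)) fun _ _ => rfl

end lat

section res

variable {R' ι ι' J' : Type} [Fintype R'] [Fintype ι] [Fintype ι'] [Fintype J'] [DecidableEq ι]
  [DecidableEq ι'] {ch' : Ch ι' J'} {D : ch'.Res ι J} {L : D.Lnk}

theorem f_mk {x : ch'.W ν} {X} (h1 : ∀ j, X (D.φ j) = x.X (D.φ j))
    (h2 : ∀ j, L.n j ≠ 0 → X j = x.X j) : L.f (W.mk' x.Q x.p x.Ξ X) = L.f x := by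
  have a : ∀ c, ∏ j, fld (W.mk' x.Q x.p x.Ξ X) c j ^ L.n j = ∏ j, fld x c j ^ L.n j := fun c =>
    Finset.prod_congr rfl fun j _ => by
      by_cases b : L.n j = 0
      · rw [b, zpow_zero, zpow_zero]
      · rw [fld_mk' (h2 j b)]
  have b : L.IsXi (W.mk' x.Q x.p x.Ξ X) = L.IsXi x := funext fun Ξ => by
    simp only [Res.Lnk.IsXi, a]
    rfl
  rw [Res.Lnk.f, b]
  exact congrArg (W.mk' _ _ _) (funext fun j => congrArg (· ∘L _) (h1 j))

theorem fF_zr {A : Set J'} {x : ch'.WF ν κ Λ} (h1 : ∀ j, D.φ j ∉ A) (h2 : ∀ j ∈ A, L.n j = 0) :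
    L.fF (zr A x) = L.fF x := by
  rw [zr_apply]
  exact congrArg (Prod.mk _) (f_mk (fun j => if_neg (h1 j)) fun j a => if_neg fun b => a (h2 j b))

theorem f_X_zero {x : ch'.W ν} {j : J} : (L.f x).X j = 0 ↔ x.X (D.φ j) = 0 :=
  ⟨fun h => ContinuousLinearMap.ext fun μ => by
    obtain ⟨μ, rfl⟩ := (D.rb j).surjective μ
    exact DFunLike.congr_fun h μ, fun h => ContinuousLinearMap.ext fun μ => DFunLike.congr_fun h _⟩

theorem fits {F' : Fam S Λ R' J' K} {F : Fam S Λ R J K} {e : K → ι' → ℕ} (h : D.FRes F' e F)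
    (h' : D.ch.Fits F (D.e e))
    (hw : ∃ ℓ : R' → ι' → ℤ, ∀ j i, ch'.wd j i = ∑ r, F'.w j r * ℓ r i) : ch'.Fits F' e := by
  refine ⟨hw, fun k α hα i => ?_, fun k hk => h'.ne k (funext fun i => congrFun hk _)⟩
  obtain ⟨β, a, rfl⟩ := (h.cmp.mem k _).1 hα
  rw [← Res.sum_map D.φ_inj β fun j => ch'.b j i]
  by_cases hi : i ∈ range D.σ
  · obtain ⟨i, rfl⟩ := hi
    exact h'.le k β a i
  · simp [D.sup_b _ i hi]

theorem repD_mk {ch : Ch ι J} {ℓ : R → ι → ℤ} {x : ch.WF ν κ Λ} {m : AM Λ R J ν κ} {B π u s}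
    (h : RepD ℓ ∅ x m B π u s) (X) :
    RepD ℓ ∅ ((x.1, W.mk' x.2.Q x.2.p x.2.Ξ X) : ch.WF ν κ Λ) m B π u s :=
  ⟨h.l, ⟨h.cr.mem, h.cr.par, h.cr.gr, h.cr.sm, h.cr.inj, h.cr.mark, h.cr.xi, h.cr.ne, h.cr.Xi⟩,
    h.mark, h.L, fun _ a => a.elim⟩

theorem mono_le (b : J → ℕ) (g : R → J) (n : R → ℕ) (j : J) {α : J →₀ ℕ}
    (h : coeff α ((∏ r, X (g r) ^ n r) * X j : MvPolynomial J (MvPolynomial Λ ℂ)) ≠ 0) :
    ∑ i, α i * b i = ∑ r, n r * b (g r) + b j := by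
  have := (IsWeightedHomogeneous.prod Finset.univ _ _ fun r _ =>
    (isWeightedHomogeneous_X _ b (g r)).pow (n r)).mul (isWeightedHomogeneous_X _ b j) h
  rwa [Finsupp.weight_apply, Finsupp.sum_fintype _ _ (by simp)] at this

end res

end JcL

namespace Jc

open JcL

variable {c : Jc J R} {W : Wt S Λ R J} {F : Fam S Λ R J K} [IsEmpty κ] [IsEmpty κ']
  {e : Option (Mk ν κ) ≃ Mk ν' κ'} {x : c.ch.WF ν' κ' Λ} {A mov : Set (J3 J R)}
  {χ : K' → R3 R → ℤ} {wk : K' → S → ℤ} {G : K' → MvPolynomial (J3 J R) (MvPolynomial Λ ℂ)}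
  {U : Set ((Λ → ℂ) × (J3 J R → ℂ))}

theorem wd_y1 (j : J) : c.ch.wd (y1 j) = Sum.elim (c.D₁.ch.wd j) (0 : Option R → ℤ) :=
  (c.D₁.psh_wd j).symm.trans (psh_inl _)

theorem wd_y2 (j : J) : c.ch.wd (y2 j) = Sum.elim (0 : Option R → ℤ) (c.D₂.ch.wd j) :=
  (c.D₂.psh_wd j).symm.trans (psh_inr _)

theorem Ok.lat (h : c.Ok W) : c.ch.Lat W.jc c.ℓ := by
  refine ⟨fun j i => ?_, ?_⟩
  · rcases j with (j | j) | o | b
    · rw [wd_y1]
      cases i <;> simp [Wt.jc, ℓ, h.lat₁.wd]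
    · rw [wd_y2]
      cases i <;> simp [Wt.jc, ℓ, h.lat₂.wd, h.wd]
    · simp [Wt.jc, ℓ, Pi.single_apply]
    · simp [Wt.jc, h.wz]
  obtain ⟨v, a⟩ := h.lat₁.dual
  obtain ⟨v', a'⟩ := h.lat₂.dual
  let g : Option (R3 R) ≃ O2 R := ⟨fun o => o.elim (.inl none) (Sum.map some id),
    Sum.elim (Option.map .inl) fun o => some (.inr o), by rintro (_ | _ | _) <;> rfl,
    by rintro ((_ | _) | _) <;> rfl⟩
  have b := (Dual.sum (b := fun o : Option R => o.elim c.D₁.ch.χ ℓs)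
    (b' := fun o : Option R => o.elim c.D₂.ch.χ ℓs) a a').comp g
  refine ⟨_, (congrArg (Dual · _) (_root_.funext ?_)).mp b⟩
  rintro (_ | _ | o)
  exacts [h.χ.symm, rfl, (h.wd o).symm]

theorem Ok.k_ne (h : c.Ok W) : c.ch.k ≠ 0 := h.num.k_ne

theorem mem_lk {j : J3 J R} (h : j ∉ mov) (h' : j ∉ (mov ∪ range lk)ᶜ) : ∃ o, lk o = j :=
  (not_not.1 h').resolve_left h

theorem Ok.gr (h : c.Ok F.toWt) (hm : Disjoint mov (range lk)) :
    Gr c.ch (F.jm mov χ wk G U) (c.ord e) lk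
      (Sum.elim 0 (Sum.elim (fun o => (Pi.single o 1 : Option R → ℤ)) 0)) 1 := by
  have n : ∀ (j : J3 J R) i, ¬(Sum.elim 0 (Sum.elim (fun o => (Pi.single o 1 : Option R → ℤ)) 0) j :
      Option R → ℤ) i < 0 := by
    rintro (j | o | b) i
    exacts [lt_irrefl _, not_lt.2 ((Pi.single_nonneg.2 zero_le_one :
      (0 : Option R → ℤ) ≤ Pi.single o 1) i), lt_irrefl _]
  refine ⟨disjoint_compl_left_iff_subset.2 subset_union_left, fun i =>
    ⟨disjoint_right.1 hm ⟨i, rfl⟩, fun a => a (.inr ⟨i, rfl⟩), rfl, rfl⟩, ?_,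
    fun j i a => (n j i a).elim, fun _ _ _ => ⟨analyticAt_const, one_ne_zero⟩, fun j a b => ?_,
    fun j a b m => ?_, fun l _ y _ _ => ⟨fun _ j a b => ?_, fun _ => trivial⟩⟩
  · have a : LinearIndependent ℤ fun o : Option (R3 R) => o.elim c.ch.χ c.ℓ :=
      Fintype.linearIndependent_iff.2 fun g a => h.lat.coef_eq_zero fun i => by
        simpa [-Fintype.sum_option] using congrFun a i
    exact (congrArg (fun v : Option (Option R) → O2 R → ℤ => LinearIndependent ℤ v)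
      (_root_.funext fun o => by cases o <;> rfl)).mp
      (a.comp (Option.map .inr) (Option.map_injective Sum.inr_injective))
  all_goals
    obtain ⟨o, rfl⟩ := mem_lk a b
    simp [Pi.single_apply, -Fintype.sum_option]

theorem Ok.amb₁ (h : c.Ok F.toWt) (hF : F.Inv) : h.L₁.Amb (F.ja (range y1)) (c.ord e) :=
  ⟨Fam.inv_ja hF _, rfl, fun _ a b => b (.inr a), fun _ _ _ _ _ a j b d _ => a j (mem_lk b d),
    fun _ a => (a rfl).elim, fun _ => Finset.sum_eq_zero fun _ _ => zero_mul _⟩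

theorem fres₁ : c.D₁.FRes F.j1 (fun k => c.e₃ F (.inl (.inl k))) F :=
  ⟨fun _ => rfl, rfl, rfl, fun _ => rfl, rfl, fun _ => sup_inl fun _ => rfl⟩

theorem fres₂ : c.D₂.FRes F.j2 (fun k => c.e₃ F (.inl (.inr k))) F :=
  ⟨fun _ => rfl, rfl, rfl, fun _ => rfl, rfl, fun _ => sup_inr fun _ => rfl⟩

theorem gd_zr : c.Gd e (zr A x) ↔ c.Gd e x :=
  ⟨fun h m B π u s a => h m B π u s (repD_mk a _),
    fun h m B π u s a => h m B π u s (repD_mk a x.2.X)⟩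

theorem Ok.fF_zr (h : c.Ok W) (hA : ∀ j, y1 j ∉ A) : h.L₁.fF (zr A x) = h.L₁.fF x :=
  JcL.fF_zr hA fun _ _ => rfl

theorem Ok.f₂_zr (h : c.Ok W) (hA : ∀ j, y2 j ∉ A) (hl : lk none ∉ A) :
    h.f₂ e (zr A x) = h.f₂ e x :=
  congrArg (spl e) (JcL.fF_zr hA (by
    rintro (j | (_ | r) | b) a
    exacts [rfl, (hl a).elim, rfl, rfl]))

open Classical in
theorem sum_ord (z : V c.ch.M) (o : Option R) :
    (∑ n, if ∃ s : O2 R → ℂ, z = s • x.2.p (.inl n) then c.ord e n (lk o) else 0) =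
      if o = none ∧ ∃ s : O2 R → ℂ, z = s • x.2.p (e none) then c.ch.k else 0 := by
  rw [Finset.sum_eq_single (q e) (fun n _ a => by simp [ord, a]) (by simp), e_none]
  simp [ord, ← ite_and, and_comm]

theorem mem_T' (hm : Disjoint mov (range lk)) : x ∈ c.T e (F.jm mov χ wk G U) ↔
    (x.1 ∈ F.B ∧ x.2 ∈ c.ch.base _ ∧ (∀ o, ∀ z ∈ crv x.2, ∃ y, Val x.2 (lk o) z y) ∧
    (∀ o γ, IsBranch c.ch.o (crv x.2) γ → analyticOrderAt (fun t => fld x.2 (γ t) (lk o)) 0 =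
      (open Classical in if o = none ∧ ∃ s : O2 R → ℂ, γ 0 = s • x.2.p (e none) then c.ch.k else 0 :
        ℕ)) ∧ c.Gd e x) ∧ ∀ j ∉ mov, j ∉ range lk → x.2.X j = 0 := by
  have a : ∀ o, lk o ∉ mov := fun o => disjoint_right.1 hm ⟨o, rfl⟩
  refine ⟨fun ⟨⟨⟨b, b1, _, b2, _⟩, b3⟩, b4⟩ => ⟨⟨b.1, b.2.1, fun o => b1 _ (a o), fun o γ d =>
    (b3 _ (a o) (fun f => f (.inr ⟨o, rfl⟩)) γ d).trans (congrArg _ (sum_ord _ o)), b4⟩,
    fun j d f => b2 j fun g => g.elim d f⟩, fun ⟨⟨b, b1, b2, b3, b4⟩, b5⟩ =>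
    ⟨⟨⟨⟨b, b1, fun q => isEmptyElim q⟩, fun j d z f => ?_, fun _ _ => trivial,
      fun j d => b5 j (fun f => d (.inl f)) fun f => d (.inr f), fun _ _ q => isEmptyElim q⟩,
      fun j d f γ g => ?_⟩, b4⟩⟩
  · by_cases g : j ∈ range lk
    · obtain ⟨o, rfl⟩ := g
      exact b2 o z f
    · exact ⟨0, fun _ _ μ => by simp [b5 j d g]⟩
  · obtain ⟨o, rfl⟩ := mem_lk d f
    exact (b3 o γ g).trans (congrArg _ (sum_ord _ o).symm)

/-- the links are sections, `lk (some r)` has no zeros, `lk none` has order `k` at the new point -/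
theorem mem_T0 : x ∈ c.T e F.j0 ↔ x.1 ∈ F.B ∧ x.2 ∈ c.ch.base _ ∧
    (∀ o, ∀ z ∈ crv x.2, ∃ y, Val x.2 (lk o) z y) ∧
    (∀ o γ, IsBranch c.ch.o (crv x.2) γ → analyticOrderAt (fun t => fld x.2 (γ t) (lk o)) 0 =
      (open Classical in if o = none ∧ ∃ s : O2 R → ℂ, γ 0 = s • x.2.p (e none) then c.ch.k else 0 :
        ℕ)) ∧ c.Gd e x :=
  (mem_T' disjoint_compl_left).trans (and_iff_left fun _ a b => (a b).elim)

theorem mem_T (hm : Disjoint mov (range lk)) : x ∈ c.T e (F.jm mov χ wk G U) ↔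
    x ∈ c.T e F.j0 ∧ ∀ j ∉ mov, j ∉ range lk → x.2.X j = 0 :=
  (mem_T' hm).trans (and_congr_left' mem_T0.symm)

theorem ne_lk₀ (hx : x ∈ c.T e F.j0) {z : V c.ch.M} (hz : z ∈ crv x.2) {o : Option R}
    (h : ¬(o = none ∧ ∃ s : O2 R → ℂ, z = s • x.2.p (e none))) : fld x.2 z (lk o) ≠ 0 := by
  obtain ⟨-, a, b, d, -⟩ := mem_T0.1 hx
  obtain ⟨γ, hγ⟩ := a.2.2.1.nod.exists_loc hz
  obtain rfl := hγ.zero true
  have f := d o _ (hγ.br true)
  rw [if_neg h] at f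
  exact (analyticOrderAt_eq_zero.1 f).resolve_left (not_not.2 (an_fld a (b o) (hγ.br true)))

theorem ne_lk (hx : x ∈ c.T e F.j0) {z : V c.ch.M} (hz : z ∈ crv x.2) (r : R) :
    fld x.2 z (lk (some r)) ≠ 0 := ne_lk₀ hx hz fun a => Option.some_ne_none r a.1

theorem ne_lk' (hx : x ∈ c.T e F.j0) {z : V c.ch.M} (hz : z ∈ crv x.2)
    (hq : ∀ s : O2 R → ℂ, z ≠ s • x.2.p (e none)) : fld x.2 z (lk none) ≠ 0 :=
  ne_lk₀ hx hz fun ⟨_, s, a⟩ => hq s a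

theorem T₃_eq₁ (hF : F.Inv) (hA : F.Abs) : c.T e F.j3 = zr (y2 '' F.mov) ⁻¹' c.T e F.j1 :=
  Set.ext fun _ => and_congr (det_main (Fam.det_j1 hF hA) (Fam.inv_j3 hF)) gd_zr.symm

theorem T₃_eq₂ (hF : F.Inv) (hA : F.Abs) : c.T e F.j3 = zr (y1 '' F.mov) ⁻¹' c.T e F.j2 :=
  Set.ext fun _ => and_congr (det_main (Fam.det_j2 hF hA) (Fam.inv_j3 hF)) gd_zr.symm

theorem mem_T_loc {y : J → J3 J R} (hy : Injective y) (hm : Disjoint (range y) (range lk))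
    (hx : x ∈ c.T e (F.ja (range y))) :
    x ∈ c.T e (F.jm (y '' F.mov) χ wk G U) ↔ ∀ j ∉ F.mov, x.2.X (y j) = 0 := by
  obtain ⟨a, b⟩ := (mem_T hm).1 hx
  rw [mem_T (hm.mono_left (image_subset_range _ _)), and_iff_right a]
  refine ⟨fun d j f => d _ (fun g => f (hy.mem_set_image.1 g)) (disjoint_left.1 hm ⟨j, rfl⟩),
    fun d j f g => by_contra fun k => k (b j ?_ g)⟩
  rintro ⟨j, rfl⟩
  exact k (d j fun t => f (mem_image_of_mem _ t))

theorem Ok.loc₁ (h : c.Ok F.toWt) (hF : F.Inv) (hA : F.Abs) (hx : x ∈ c.T e (F.ja (range y1)))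
    (hb : h.L₁.fF x ∈ c.D₁.ch.baseF ν' κ' F.B) :
    x ∈ c.T e F.j1 ↔ h.L₁.fF x ∈ c.D₁.ch.cyc κ' F (0 : ν' → J → ℕ) := by
  rw [hA.mem_cyc hF, and_iff_right hb]
  exact (mem_T_loc c.D₁.φ_inj (by simp [disjoint_left]) hx).trans
    (forall₂_congr fun _ _ => (f_X_zero (L := h.L₁)).symm)

theorem Ok.loc₂ (h : c.Ok F.toWt) (hF : F.Inv) (hA : F.Abs) (hx : x ∈ c.T e (F.ja (range y2)))
    (hb : (h.f₂ e x).1 ∈ c.D₂.ch.baseF ν κ F.B) :
    x ∈ c.T e F.j2 ↔ (h.f₂ e x).1 ∈ c.D₂.ch.cyc κ F (0 : ν → J → ℕ) := by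
  rw [hA.mem_cyc hF, and_iff_right hb]
  exact (mem_T_loc c.D₂.φ_inj (by simp [disjoint_left]) hx).trans
    (forall₂_congr fun _ _ => (f_X_zero (L := h.L₂)).symm)

variable (c) in
/-- The Euler characteristic of the line bundle of a character of the torus. -/
noncomputable def euR (a : R → ℤ) : ℤ := ∑ r, a r * ∑ i, ℓs r i * c.ch.m (.inl i) + 1 - c.ch.g

theorem Ok.eu (h : c.Ok W) {a : R3 R → ℤ} (h0 : a (.inr none) = 0) :
    c.ch.eu (fun i => ∑ r, a r * c.ℓ r i) = c.euR fun r => a (.inl r) := by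
  have b : ∀ r, ∑ i, c.ℓ (.inr (some r)) i * c.ch.m i = 0 := fun r => by
    simpa [ℓ, h.wd, sub_eq_zero, ← sub_eq_add_neg, -Fintype.sum_option] using h.m r
  simp only [Ch.eu, euR, Finset.sum_mul, mul_assoc]
  rw [Finset.sum_comm]
  simp only [← Finset.mul_sum]
  rw [Fintype.sum_sum_type, Fintype.sum_option]
  simp only [h0, b]
  simp [ℓ, -Fintype.sum_option]

theorem Ok.eu_y1 (h : c.Ok W) (j : J) :
    (c.ch.eu fun i => c.ch.a (some (y1 j)) i - c.ch.b (y1 j) i) = c.euR (W.w j) :=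
  (congrArg _ (_root_.funext (h.lat.wd (y1 j)))).trans (h.eu rfl)

theorem Ok.eu_y2 (h : c.Ok W) (j : J) :
    (c.ch.eu fun i => c.ch.a (some (y2 j)) i - c.ch.b (y2 j) i) = c.euR (W.w j) :=
  (congrArg _ (_root_.funext (h.lat.wd (y2 j)))).trans (h.eu rfl)

open Classical in
theorem Ok.rk_j {y : J → J3 J R} (hy : Injective y) {K₀ : Set K'} {w : K' → ℤ}
    (h1 : ∀ j, (c.ch.eu fun i => c.ch.a (some (y j)) i - c.ch.b (y j) i) = c.euR (F.w j))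
    (h2 : ∀ k, c.ch.eu ((F.jm (y '' F.mov) χ wk G U).dk c.ℓ k) = w k) :
    c.ch.rk (F.jm (y '' F.mov) χ wk G U) c.ℓ K₀ = ∑ j with j ∈ y '' F.mov,
      (Module.finrank ℂ (c.ch.Th j) * c.ch.eu fun i => c.ch.a (some j) i) -
      ∑ j with j ∈ F.mov, c.euR (F.w j) + ∑ k with k ∈ K₀, w k := by
  rw [rk, Finset.sum_sub_distrib, sum_img hy _ fun j => c.ch.eu fun i => _ - _]
  simp only [h1, h2]

open Classical in
theorem Ok.rk₃ (h : c.Ok F.toWt) {K₀ : Set K} :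
    c.ch.rk F.j3 c.ℓ ((fun k => .inl (.inl k)) '' K₀ ∪ .inr '' F.mov) =
      ∑ j with j ∈ y1 '' F.mov, (Module.finrank ℂ (c.ch.Th j) * c.ch.eu fun i => c.ch.a (some j) i) +
      ∑ j with j ∈ y2 '' F.mov, (Module.finrank ℂ (c.ch.Th j) * c.ch.eu fun i => c.ch.a (some j) i) -
      ∑ j with j ∈ F.mov, c.euR (F.w j) + ∑ k with k ∈ K₀, c.euR (F.χ k) := by
  have a : Disjoint (y1 '' F.mov : Set (J3 J R)) (y2 '' F.mov) := by simp [disjoint_left]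
  have b1 : ∀ k, c.ch.eu (F.j3.dk c.ℓ (.inl (.inl k))) = c.euR (F.χ k) := fun k => h.eu rfl
  have b2 : ∀ j, c.ch.eu (F.j3.dk c.ℓ (.inr j)) = c.euR (F.w j) := fun j => h.eu rfl
  rw [rk, Finset.sum_sub_distrib, sum_un a, sum_un a, sum_un (by simp [disjoint_left]),
    sum_img (g := y1) c.D₁.φ_inj _ fun j => c.ch.eu fun i => _ - _,
    sum_img (g := y2) c.D₂.φ_inj _ fun j => c.ch.eu fun i => _ - _,
    sum_img (g := fun k : K => (.inl (.inl k) : K3 K J)) (Sum.inl_injective.comp Sum.inl_injective),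
    sum_img Sum.inr_injective]
  simp only [h.eu_y1, h.eu_y2, b1, b2]
  ring

variable {K₀ : Set K} {b : ℕ} {U₁ : Set (c.D₁.ch.WF ν' κ' Λ)} {U₂ : Set (c.D₂.ch.WF ν κ Λ)}
  (P : c.Pk e F K₀ b U₁ U₂)
include P

theorem Pk.std₁ : c.ch.Std F.j1 (fun k => c.e₃ F (.inl (.inl k))) K₀ c.ℓ :=
  ⟨Fam.inv_j1 P.ok₁.inv, Fam.reg_j1 P.ok₁.inv P.abs P.ok₁.reg,
    fits fres₁ P.ok₁.fits ⟨_, P.ok.lat.wd⟩, ⟨P.ok.num.a_ne, P.ok.num.cut⟩, P.ok.lat.wd⟩

theorem Pk.std₂ : c.ch.Std F.j2 (fun k => c.e₃ F (.inl (.inr k))) K₀ c.ℓ :=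
  ⟨Fam.inv_j2 P.ok₁.inv, Fam.reg_j2 P.ok₁.inv P.abs P.ok₁.reg,
    fits fres₂ P.ok₂.fits ⟨_, P.ok.lat.wd⟩, ⟨P.ok.num.a_ne, P.ok.num.cut⟩, P.ok.lat.wd⟩

theorem Pk.std₃ :
    c.ch.Std F.j3 (c.e₃ F) ((fun k => .inl (.inl k)) '' K₀ ∪ .inr '' F.mov) c.ℓ := by
  classical
  refine ⟨Fam.inv_j3 P.ok₁.inv, Fam.reg_j3 P.ok₁.inv P.abs P.ok₁.reg, ⟨⟨_, P.ok.lat.wd⟩, ?_, ?_⟩,
    P.std₁.cuts, P.ok.lat.wd⟩
  · rintro ((k | k) | j)
    · exact P.std₁.fits.le k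
    · exact P.std₂.fits.le k
    intro α hα i
    have a : ∀ n : R → ℕ, (∀ r, n r ≤ (F.w j r).natAbs) → ∑ r, n r * c.ch.b (lk (some r)) i ≤
        ∑ r, (F.w j r).natAbs * c.ch.b (lk (some r)) i := fun n h =>
      Finset.sum_le_sum fun r _ => Nat.mul_le_mul_right _ (h r)
    have a1 := a (fun r => (F.w j r).toNat) fun r => by omega
    have a2 := a (fun r => (-F.w j r).toNat) fun r => by omega
    change _ ≤ _ + _ + _ + 1
    rcases Finset.mem_union.1 (support_sub _ _ _ hα) with d | d <;>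
      rw [mono_le (fun j => c.ch.b j i) _ _ _ (mem_support_iff.1 d)] <;> omega
  · rintro ((k | k) | j)
    exacts [P.std₁.fits.ne k, P.std₂.fits.ne k, fun a => Nat.succ_ne_zero _ (congrFun a (.inl none))]

open Classical in
theorem Pk.rk₁ : c.ch.rk F.j3 c.ℓ ((fun k => .inl (.inl k)) '' K₀ ∪ .inr '' F.mov) =
    c.ch.rk F.j1 c.ℓ K₀ + ∑ j with j ∈ y2 '' F.mov,
      Module.finrank ℂ (c.ch.Th j) * c.ch.eu fun i => c.ch.a (some j) i := by
  rw [P.ok.rk₃, Ok.rk_j (y := y1) c.D₁.φ_inj P.ok.eu_y1 (w := fun k => c.euR (F.χ k)) ?_]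
  · ring
  · exact fun _ => P.ok.eu rfl

open Classical in
theorem Pk.rk₂ : c.ch.rk F.j3 c.ℓ ((fun k => .inl (.inl k)) '' K₀ ∪ .inr '' F.mov) =
    c.ch.rk F.j2 c.ℓ K₀ + ∑ j with j ∈ y1 '' F.mov,
      Module.finrank ℂ (c.ch.Th j) * c.ch.eu fun i => c.ch.a (some j) i := by
  rw [P.ok.rk₃, Ok.rk_j (y := y2) c.D₂.φ_inj P.ok.eu_y2 (w := fun k => c.euR (F.χ k)) ?_]
  · ring
  · exact fun _ => P.ok.eu rfl

end Jc

end Vale.Agent.P269
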