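import Vale.Agent.P269.Spl.LocT0
import Vale.Agent.P269.Fg.Unv
import Vale.Agent.P269.Cv.CtrB

/-!
# Division on manifolds, Hurwitz's theorem, the blow-up coordinate on a bubble
-/

set_option linter.unusedSectionVars false

namespace Vale.Agent.P269

open Set Function Topology Filter Cv Holo Base

/-- division on a manifold, with parameters -/
theorem Holo.MfdAt.exists_div {P E : Type} [NormedAddCommGroup P] [NormedSpace ℂ P]
    [FiniteDimensional ℂ P] [NormedAddCommGroup E] [NormedSpace ℂ E] [FiniteDimensional ℂ E]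
    {T : Set P} {n : ℕ} {y : P} (hm : MfdAt T n y) {w : P → ℂ} (hw : AnalyticAt ℂ w y) (h0 : w y = 0)
    {γ : ℂ → P} (hγ : Arc T y γ) (hd : deriv (fun s => w (γ s)) 0 ≠ 0) {G : P × E → ℂ}
    (hG : AnalyticAt ℂ G (y, 0)) (hz : ∀ᶠ q in 𝓝 (y, 0), q.1 ∈ T → w q.1 = 0 → G q = 0) :
    ∃ H, AnalyticAt ℂ H (y, 0) ∧ ∀ᶠ q in 𝓝 (y, 0), q.1 ∈ T → G q = w q.1 * H q := by
  obtain ⟨hy, ψ, hψ, e⟩ := hm
  obtain rfl : y = (ψ 0).1 := (congrArg Subtype.val e).symm
  have h1 := (HasFDerivAt.comp_hasDerivAt_of_eq 0 hw.differentiableAt.hasFDerivAt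
    hγ.an.differentiableAt.hasDerivAt hγ.zero.symm).deriv
  have h2 : Surjective (fderiv ℂ (fun z => w (ψ z).1) 0) := (hψ.surjective_iff hw).2 fun b =>
    ⟨_, Submodule.smul_mem _ (b / deriv (fun s => w (γ s)) 0) (hγ.mem_tan hy),
      (map_smul _ _ _).trans (h1 ▸ div_mul_cancel₀ _ hd)⟩
  obtain ⟨σ, -, b1, -, b2, b3⟩ := hψ.submersion (f := fun t => w t.1)
    (hw.comp (f := fun z => (ψ z).1) hψ.an) h2 (Nat.sub_add_cancel
      (LinearMap.finrank_le_finrank_of_surjective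
        (f := (fderiv ℂ (fun z => w (ψ z).1) 0 : (Fin n → ℂ) →ₗ[ℂ] ℂ)) h2))
  rw [h0] at b1 b2 b3
  obtain ⟨v, b4, b5, -, b6, -⟩ := b2.exists_inv
  have b7 := b2.an
  simp only [b1] at b4 b5 b6
  obtain ⟨g, b8, b9⟩ := Holo.exists_div (w := (0, 0))
    (f := fun p : ℂ × (Fin _ → ℂ) × E => G ((ψ (σ (p.2.1, p.1))).1, p.2.2))
    (hG.comp_of_eq ((b7.comp_of_eq ((analyticAt_fst.comp analyticAt_snd).prod analyticAt_fst)
      rfl).prod (analyticAt_snd.comp analyticAt_snd)) (by rw [b1]))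
  have a1 : AnalyticAt ℂ (fun q : P × E => v q.1) ((ψ 0).1, 0) := b4.comp_of_eq analyticAt_fst rfl
  have a2 : AnalyticAt ℂ (fun q : P × E => ((v q.1).1, (0 : ℂ))) ((ψ 0).1, 0) :=
    (analyticAt_fst.comp a1).prod analyticAt_const
  have a3 := ((b7.comp_of_eq a2 (by rw [b5])).prod analyticAt_snd).continuousAt.tendsto
  have a4 := a1.continuousAt.tendsto
  have a5 := a2.continuousAt.tendsto
  simp only [comp_apply, b5, b1] at a3 a4 a5
  refine ⟨fun q => g ((v q.1).2, (v q.1).1, q.2), b8.comp_of_eq ((analyticAt_snd.comp a1).prod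
    ((analyticAt_fst.comp a1).prod analyticAt_snd)) (by rw [b5]), ?_⟩
  filter_upwards [a3.eventually hz, a4.eventually b3, a5.eventually b3,
    continuousAt_fst.eventually ((ev_sub (p := fun s => (ψ (σ (v s))).1 = s) hy).1
      (b6.mono fun _ k => congrArg Subtype.val k))] with q c1 c2 c3 c4 hq
  have c5 := b9 ((v q.1).2, (v q.1).1, q.2)
  simp only [Prod.mk.eta, c4 hq] at c2 c5
  rw [c5, c1 (ψ _).2 c3, zero_add, c2, smul_eq_mul]

namespace MultA

/-- **Hurwitz** -/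
theorem ne_zero {b : ℂ × ℂ → ℂ} (hb : AnalyticAt ℂ b (0, 0)) (h0 : ¬∀ᶠ z in 𝓝 0, b (0, z) = 0)
    (h : ∀ᶠ q in 𝓝 ((0 : ℂ), (0 : ℂ)), q.1 ≠ 0 → b q ≠ 0) : b (0, 0) ≠ 0 := by
  have a0 : AnalyticAt ℂ (fun z => b (0, z)) 0 := NeckP.slice analyticAt_id hb
  obtain ⟨u, g, g1, g2, g3⟩ := a0.exists_eventuallyEq_pow_smul_nonzero_iff.2 h0
  have v : Vz u (fun z => b (0, z)) (g 0) :=
    ⟨g, g1, rfl, (g3.filter_mono nhdsWithin_le_nhds).mono fun t k => by simpa using k⟩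
  obtain ⟨r₀, hr₀, E⟩ := exists_ball (h.and hb.eventually_analyticAt)
  obtain ⟨r, hr, V⟩ := (Eventually.and (Ioo_mem_nhdsGT hr₀) (eventually_vz hb g2 v)).exists
  obtain ⟨s, ⟨s1, s2⟩, s3⟩ := (((E.and V).filter_mono nhdsWithin_le_nhds).and
    (self_mem_nhdsWithin (s := {(0 : ℂ)}ᶜ))).exists
  obtain ⟨a, -, k, k1, -, k2⟩ := s2 fun z _ hz => (s1 z (hz.trans hr.2)).1 s3
  have k3 := s1 0 (by simpa using hr₀)
  have k4 := (Vz.ev_of_an (NeckP.slice analyticAt_id k3.2) k1 k2).self_of_nhds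
  rw [g3.self_of_nhds]
  rcases u with _ | u
  · simpa using g2
  · exact (k3.1 s3 (by simpa using k4)).elim

theorem dv {f k : ℂ → ℂ} (hk : AnalyticAt ℂ k 0) (e : ∀ᶠ s in 𝓝 0, f s = s * k s) :
    deriv f 0 = k 0 := by
  rw [EventuallyEq.deriv_eq e]
  simpa using ((hasDerivAt_id (0 : ℂ)).fun_mul hk.differentiableAt.hasDerivAt).deriv

theorem deriv_ne {g : ℂ × ℂ → ℂ} (hg : AnalyticAt ℂ g (0, 0)) (h1 : ∀ᶠ s in 𝓝 0, g (s, 0) = 0)
    (h2 : ∀ᶠ z in 𝓝 0, g (0, z) = 0) (h3 : ¬∀ᶠ z in 𝓝 0, deriv (fun s => g (s, z)) 0 = 0)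
    (h4 : ∀ᶠ q in 𝓝 ((0 : ℂ), (0 : ℂ)), q.1 ≠ 0 →
      (q.2 ≠ 0 → g q ≠ 0) ∧ deriv (fun z => g (q.1, z)) 0 ≠ 0) :
    deriv (fun s => deriv (fun z => g (s, z)) 0) 0 ≠ 0 := by
  obtain ⟨b, b1, b2⟩ := exists_div_axes hg h1 h2
  have b3 := b1.eventually_analyticAt.and b2.eventually_nhds
  have e1 : ∀ᶠ s in 𝓝 (0 : ℂ), deriv (fun z => g (s, z)) 0 = s * b (s, 0) :=
    ((tendsto_inl _ _).eventually b3).mono fun s k => dv (k := fun z => s * b (s, z))
      (analyticAt_const.mul (NeckP.slice analyticAt_id k.1))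
      (((tendsto_inr _ _).eventually k.2).mono fun z a => a.trans (by ring))
  have e2 : ∀ᶠ z in 𝓝 (0 : ℂ), deriv (fun s => g (s, z)) 0 = z * b (0, z) :=
    ((tendsto_inr _ _).eventually b3).mono fun z k => dv (k := fun s => z * b (s, z))
      (analyticAt_const.mul (k.1.comp_of_eq (analyticAt_id.prod analyticAt_const) rfl))
      (((tendsto_inl _ _).eventually k.2).mono fun s a => a.trans (by ring))
  rw [dv (b1.comp_of_eq (analyticAt_id.prod analyticAt_const) rfl) e1]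
  refine ne_zero b1 (fun k => h3 ((e2.and k).mono fun z a => by rw [a.1, a.2, mul_zero])) ?_
  filter_upwards [h4, b2, continuousAt_fst.eventually e1] with q a1 a2 a3 hq e
  rcases eq_or_ne q.2 0 with k | k
  · exact (a1 hq).2 (a3.trans
      (mul_eq_zero_of_right _ ((congrArg (fun z => b (q.1, z)) k).symm.trans e)))
  · exact (a1 hq).1 k (by rw [a2, e, mul_zero])

variable {ι : Type} [Fintype ι] {M : ι → ℕ} {o : ι} {G : V M → ℂ}
  (inv : ∀ (t : ι → ℂ) c, (∀ i, t i ≠ 0) → G (t • c) = G c)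
include inv

theorem orb {a b : V M} (h : Orb a b) : G b = G a :=
  let ⟨_, k, e⟩ := h
  e ▸ inv _ _ k

theorem an {a b : V M} (h : Orb a b) (hG : AnalyticAt ℂ G a) : AnalyticAt ℂ G b := by
  obtain ⟨t, k, e⟩ := h.symm
  exact (hG.comp_of_eq (an_smul (analyticAt_const (v := t)) analyticAt_id) e.symm).congr
    (.of_forall fun c => inv t c k)

/-- an invariant function that is a coordinate along one arc is a coordinate on the curve -/
theorem br_ne {C : Set (V M)} (hC : Nod o C) {γ δ : ℂ → V M} (hγ : IsBranch o C γ)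
    (hn : ¬IsNode o C (γ 0)) (hG : AnalyticAt ℂ G (γ 0)) (h1 : AnalyticAt ℂ δ 0)
    (h2 : ∀ᶠ z in 𝓝 0, δ z ∈ C) (h3 : Orb (δ 0) (γ 0)) (h4 : deriv (fun z => G (δ z)) 0 ≠ 0) :
    deriv (fun z => G (γ z)) 0 ≠ 0 := fun e => by
  obtain ⟨t, k, a⟩ := h3
  obtain ⟨-, s, ψ, s1, s2, s3, s4, s5, -⟩ := (hC.loc_of_branch hγ hn).lift
    (an_smul (analyticAt_const (v := t)) h1) (h2.mono fun _ => hC.cone t k _) a.symm
  have : (fun z => G (δ z)) =ᶠ[𝓝 0] (fun z => G (γ z)) ∘ ψ := by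
    filter_upwards [s5, eventually_all.2 fun i => (continuousAt_pi.1 s1.continuousAt i).eventually_ne
      (y := 0) (by simp [s3])] with z b d
    exact (inv t _ k).symm.trans ((congrArg G b).trans (inv _ _ d))
  refine h4 (this.deriv_eq.trans ((deriv_comp _ (by
    rw [s4]; exact (hG.comp hγ.holo).differentiableAt) s2.differentiableAt).trans ?_))
  rw [s4, e, zero_mul]

/-- such a function separates the orbits, uniformly in a family -/
theorem inj {T P : Type} [TopologicalSpace T] [NormedAddCommGroup P] [NormedSpace ℂ P]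
    [FiniteDimensional ℂ P] {C : T → Set (V M)} {π : T → P} {t : T} {σ : P × ℂ → V M}
    (hf : LocFam o C π t) (hσ : Chart o C π t σ fun _ => univ)
    (hG : AnalyticAt ℂ G (σ (π t, 0))) (hd : deriv (fun z => G (σ (π t, z))) 0 ≠ 0) :
    ∀ᶠ q : T × V M × V M in 𝓝 (t, σ (π t, 0), σ (π t, 0)), q.2.1 ∈ C q.1 → q.2.2 ∈ C q.1 →
      G q.2.2 = G q.2.1 → Orb q.2.1 q.2.2 := by
  obtain ⟨ρ, -, -, a, -⟩ := ift_fibre (θ := fun q : ℂ × P => G (σ q.swap)) (x := 0) (w := π t)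
    (hG.comp_of_eq (hσ.an.comp_of_eq (analyticAt_snd.prod analyticAt_fst) rfl) rfl)
    (bijective_of_injective _ ((injective_iff_map_eq_zero _).2 fun e k =>
      (smul_eq_zero.1 ((fderiv_eq_smul _ _ _).symm.trans k)).resolve_right hd) rfl)
  rw [nhds_prod_eq] at a
  obtain ⟨A, hA, B, hB, a⟩ := eventually_prod_iff.1 a
  have k := (hσ.sub _ hA).and (continuousAt_fst.eventually hf.ne_zero)
  filter_upwards [((by fun_prop : Continuous fun q : T × V M × V M => (q.1, q.2.1)).tendsto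
    _).eventually k, ((by fun_prop : Continuous fun q : T × V M × V M => (q.1, q.2.2)).tendsto
    _).eventually k, (hf.cont.self_of_nhds.comp continuousAt_fst).eventually hB]
    with q b1 b2 b3 c1 c2 e
  obtain ⟨s, z, d1, -, d2⟩ := b1.1 c1
  obtain ⟨s', z', d3, -, d4⟩ := b2.1 c2
  have o1 := Orb.of_smul (b1.2 _ c1) d2
  have o2 := Orb.of_smul (b2.2 _ c2) d4
  obtain rfl : z' = z := (a d3 b3).symm.trans (.trans (congrArg (fun v => ρ (v, _))
    ((orb inv o2).symm.trans (e.trans (orb inv o1)))) (a d1 b3))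
  exact o1.symm.trans o2

section arc

variable {C : ℂ → Set (V M)} {σ : ℂ × ℂ → V M} (hf : LocFam o C id 0)
include hf

omit inv hf in
variable (C G) in
/-- the derivative of `G` along the sections through `a` is `v` -/
def Dl (a : V M) (v : ℂ) : Prop := ∀ γ : ℂ → V M, AnalyticAt ℂ γ 0 → (∀ᶠ s in 𝓝 0, γ s ∈ C s) →
  Orb (γ 0) a → deriv (fun s => G (γ s)) 0 = v

theorem exists_dl (hσ : Chart o C id 0 σ fun _ => univ) (hG : AnalyticAt ℂ G (σ (0, 0)))
    (h0 : ∀ᶠ z in 𝓝 0, G (σ (0, z)) = 0) : ∃ v, Dl G C (σ (0, 0)) v := by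
  have n0 := hf.ne_zero.self_of_nhds _ (hσ.mem0.self_of_nhds trivial)
  obtain ⟨H, h1, h2⟩ := exists_div (hG.comp hσ.an)
  obtain ⟨ρ, r1, r2, -, r3⟩ := hσ.exists_mem_iff continuousAt_id n0 hf.cone
  refine ⟨H (0, 0), fun γ a b ⟨t, k, e⟩ => ?_⟩
  have c1 := analyticAt_id.prod (an_smul (analyticAt_const (v := t)) a)
  have c2 := c1.continuousAt.tendsto
  have c3 := analyticAt_snd.comp (r1.comp_of_eq c1 (Prod.ext rfl e.symm))
  have c4 : (ρ (0, t • γ 0)).2 = 0 := congrArg Prod.snd ((congrArg (fun c => ρ (0, c)) e).symm.trans r2)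
  have c5 := c3.continuousAt.tendsto
  simp only [comp_apply, id, c4] at c5
  simp only [id, ← e] at c2
  refine (dv (h1.comp_of_eq (analyticAt_id.prod c3) (Prod.ext rfl c4)) ?_).trans
    (congrArg H (Prod.ext rfl c4))
  filter_upwards [c2.eventually r3, c5.eventually h0, b, hf.cone, hf.ne_zero] with s d1 d2 d3 d4 d5
  have d6 := d4 t k _ d3
  have d7 := h2 (s, (ρ (s, t • γ s)).2)
  simp only [comp_apply] at d7 d2
  rw [d2, zero_add] at d7
  exact (inv t _ k).symm.trans ((orb inv (.of_smul (d5 _ d6) (d1.1 d6).2)).trans d7)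

/-- **the blow-up coordinate on a rational component is not locally constant** -/
theorem not_ev {X : Type} [TopologicalSpace X] [T2Space X] [CompactSpace X] {R : RS X} {N A π}
    (par : Par (R := R) o (C 0) N A π) {k : OnePoint ℂ → X} (hk : LIso P1 R k)
    (hs : ∀ z : ℂ, Sm N (k z) ∧ AnalyticAt ℂ G (π (k z)) ∧ G (π (k z)) = 0) {q : ℂ → V M}
    (q1 : AnalyticAt ℂ q 0) (q2 : ∀ᶠ s in 𝓝 0, q s ∈ C s) (q3 : Orb (q 0) (π (k (1 : ℂ))))
    (q4 : deriv (fun s => G (q s)) 0 ≠ 0) (hσ : Chart o C id 0 σ fun _ => univ)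
    (h0 : Orb (π (k (0 : ℂ))) (σ (0, 0))) :
    ¬∀ᶠ z in 𝓝 0, deriv (fun s => G (σ (s, z))) 0 = 0 := fun e => by
  have k0 : ∀ z : ℂ, SmAt o C id 0 (π (k z)) := fun z => hf.smAt (par.mem _) fun a =>
    (par.isNode_iff (t := 1) fun _ => one_ne_zero).1 (by rwa [one_smul]) (hs z).1
  have k1 : ∀ z : ℂ, ∃ v, Dl G C (π (k z)) v := fun z => by
    obtain ⟨τ, t1, t2⟩ := k0 z
    refine t1 ▸ exists_dl inv hf t2 (an inv (t1 ▸ Orb.refl _) (hs z).2.1) ?_
    have a := par.near (c := π (k z)) (p := fun y => G (π y) = 0) fun y s b => by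
      rw [(par.inj _ _ _ b).resolve_right fun d => sm_iff.1 (hs z).1 y (.symm d), ← hk.map_nhds,
        OnePoint.nhds_coe_eq, map_map, eventually_map]
      exact .of_forall fun z => (hs z).2.2
    rw [← t1] at a
    filter_upwards [t2.an0.continuousAt.eventually a, t2.mem0] with w b d
    obtain ⟨y, s, d1, d2⟩ := (par.img _).1 (d trivial)
    exact (congrArg G d2).trans ((inv _ _ d1).trans (b y s d2))
  choose h hh using k1
  have k2 : ∀ (z : ℂ) (τ : ℂ × ℂ → V M), (Chart o C id 0 τ fun _ => univ) →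
      Orb (π (k z)) (τ (0, 0)) → ∃ φ : ℂ → ℂ, AnalyticAt ℂ φ 0 ∧ φ 0 = 0 ∧
        ∀ᶠ t in 𝓝 0, h (t + z) = deriv (fun s => G (τ (s, φ t))) 0 := fun z τ a ⟨c, b, d⟩ => by
    obtain ⟨s, φ, -, s2, -, s4, s5, -⟩ := a.factor continuousAt_id
      (hf.ne_zero.self_of_nhds _ (a.mem0.self_of_nhds trivial)) hf.cone
      (an_smul (analyticAt_const (v := c)) ((an_br par.sec (k z)).comp_of_eq (hk.an z)
        (tr_zero _ _ _ _))) (by rw [comp_apply, tr_zero, br_zero]; exact d.symm)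
      (.of_forall fun t => par.cone _ b _ (par.br_mem _ _))
    have s6 := s2.continuousAt.tendsto
    rw [s4] at s6
    refine ⟨φ, s2, s4, ?_⟩
    filter_upwards [s5, (P1.tends_i z).eventually (hk.ev_src z), ((tendsto_inr _ _).comp
      s6).eventually (a.an.eventually_analyticAt.and a.mem.eventually_nhds)] with t f1 f2 f3
    refine (hh _ _ (f3.1.comp_of_eq (analyticAt_id.prod analyticAt_const) rfl)
      (((tendsto_inl _ _).eventually f3.2).mono fun _ g => g trivial) ?_).symm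
    exact ((Orb.of_smul (par.ne_zero _ (par.cone _ b _ (par.br_mem _ _))) f1.2).trans
      (.symm ⟨c, b, rfl⟩)).trans (.of_smul (par.ne _) (br_e f2))
  have k3 : AnalyticOnNhd ℂ h univ := fun z _ => by
    obtain ⟨τ, t1, t2⟩ := k0 z
    obtain ⟨φ, a, b, d⟩ := k2 z τ t2 (t1 ▸ Orb.refl _)
    have f := ((Ch.an_deriv_snd (G := fun q : ℂ × ℂ => G (τ q.swap)) (q := (0, 0))
      (((hs z).2.1.comp_of_eq t2.an t1).comp_of_eq (analyticAt_snd.prod analyticAt_fst)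
        rfl)).comp_of_eq (a.prod (analyticAt_const (v := 0))) (by rw [b])).congr
      (d.mono fun _ => Eq.symm)
    simpa [Function.comp_def] using AnalyticAt.comp_of_eq f
      (analyticAt_id.sub (analyticAt_const (v := z) (x := z))) (sub_self z)
  obtain ⟨φ, a, b, d⟩ := k2 0 σ hσ h0
  have f := a.continuousAt.tendsto
  rw [b] at f
  exact q4 ((hh 1 q q1 q2 q3).trans (k3.eqOn_zero_of_preconnected_of_eventuallyEq_zero
    isPreconnected_univ (mem_univ 0) ((d.and (f.eventually e)).mono fun t g => by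
      simpa [g.2] using g.1) (mem_univ 1)))

end arc

/-- **the differential of `G` at `p` vanishes to the first order where `G q = G p`** -/
theorem main {P : Type} [NormedAddCommGroup P] [NormedSpace ℂ P] [FiniteDimensional ℂ P] {T : Set P}
    {m : ℕ} {y : P} (hm : MfdAt T m y) {C : P → Set (V M)}
    (hf : LocFam o (fun y : T => C y) Subtype.val ⟨y, hm.mem⟩) {p q : P → V M}
    (p1 : AnalyticAt ℂ p y) (q1 : AnalyticAt ℂ q y) (hp : ∀ x ∈ T, p x ∈ C x ∧ q x ∈ C x)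
    {γ : ℂ → P} (hγ : Arc T y γ) (g1 : ∀ᶠ s in 𝓝 0, G (p (γ s)) = G (p y))
    (g2 : deriv (fun s => G (q (γ s))) 0 ≠ 0)
    {X : Type} [TopologicalSpace X] [T2Space X] [CompactSpace X] {R : RS X} {N A π}
    (par : Par (R := R) o (C y) N A π) {k : OnePoint ℂ → X} (hk : LIso P1 R k)
    (hs : ∀ z : ℂ, Sm N (k z) ∧ AnalyticAt ℂ G (π (k z)) ∧ G (π (k z)) = G (p y))
    (k0 : Orb (π (k (0 : ℂ))) (p y)) (k1 : Orb (π (k (1 : ℂ))) (q y))
    (h1 : ∀ᶠ x in 𝓝 y, x ∈ T → G (q x) = G (p x) → ∀ᶠ a in 𝓝 (p x), a ∈ C x → G a = G (p x))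
    (h2 : ∀ᶠ x : P × V M in 𝓝 (y, p y), x.1 ∈ T → x.2 ∈ C x.1 → G (q x.1) ≠ G (p x.1) →
      G x.2 = G (p x.1) → Orb (p x.1) x.2)
    (h3 : ∀ᶠ s in 𝓝 0, G (q (γ s)) ≠ G (p (γ s)) → ∀ δ, IsBranch o (C (γ s)) δ → δ 0 = p (γ s) →
      deriv (fun z => G (δ z)) 0 ≠ 0) :
    ∃ (σ : P × ℂ → V M) (u : P → ℂ), AnalyticAt ℂ σ (y, 0) ∧ AnalyticAt ℂ u y ∧ u y ≠ 0 ∧
      ∀ᶠ x in 𝓝 y, x ∈ T → (IsBranch o (C x) fun z => σ (x, z)) ∧ σ (x, 0) = p x ∧
        deriv (fun z => G (σ (x, z))) 0 = u x * (G (q x) - G (p x)) := by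
  have hy := hm.mem
  obtain ⟨t, t1, t2⟩ := id k0
  obtain ⟨σ, s1, s2⟩ := hf.exists_pts (y := fun _ : Unit => p)
    (fun _ => ⟨p1, .of_forall fun x => (hp _ x.2).1⟩) ⟨fun _ => (hp _ hy).1,
      fun _ a => (par.isNode_iff t1).1 (t2 ▸ a) (hs 0).1, fun _ _ _ => rfl⟩
  have s3 := s1.chart ()
  have s4 : ∀ᶠ x in 𝓝 y, x ∈ T → (IsBranch o (C x) fun z => σ () (x, z)) ∧ σ () (x, 0) = p x :=
    (ev_sub (p := fun x => (IsBranch o (C x) fun z => σ () (x, z)) ∧ σ () (x, 0) = p x) hy).1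
      ((((tendsto_inl _ _).eventually (s3.isBranch hf)).mono fun x a => by simpa using a).and (s2 ()))
  have s5 := (s4.self_of_nhds hy).2
  have a1 := an inv k0 (hs 0).2.1
  have a2 := (an inv k1 (hs 1).2.1).comp q1
  have a3 := a1.comp_of_eq s3.an s5
  have a4 : AnalyticAt ℂ (fun x => deriv (fun z => G (σ () (x, z))) 0) y :=
    (Ch.an_deriv_snd a3).comp_of_eq (analyticAt_id.prod analyticAt_const) rfl
  have e0 : G (q y) - G (p y) = 0 := sub_eq_zero.2 ((orb inv k1).trans (hs 1).2.2)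
  have e1 : (fun s => G (q (γ s)) - G (p (γ s))) =ᶠ[𝓝 0] fun s => G (q (γ s)) - G (p y) :=
    g1.mono fun s a => congrArg (G (q (γ s)) - ·) a
  have e2 := (e1.deriv_eq.trans (deriv_sub_const _)).trans_ne g2
  have e3 : ∀ᶠ x in 𝓝 y, x ∈ T → G (q x) - G (p x) = 0 → ∀ᶠ z in 𝓝 0, G (σ () (x, z)) = G (p x) := by
    filter_upwards [s4, h1] with x b1 b2 b3 b4
    have := b2 b3 (sub_eq_zero.1 b4)
    rw [← (b1 b3).2] at this ⊢
    filter_upwards [(b1 b3).1.holo.continuousAt.eventually this, (b1 b3).1.mem] with z c d using c d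
  obtain ⟨H, H1, H2⟩ := hm.exists_div (w := fun x => G (q x) - G (p x)) (a2.sub (a1.comp p1)) e0 hγ
    e2 (G := fun x : P × ℂ => deriv (fun z => G (σ () (x.1, z))) 0)
    (a4.comp_of_eq analyticAt_fst rfl) ((continuousAt_fst.eventually e3).mono fun x b c d =>
      (EventuallyEq.deriv_eq (b c d)).trans (deriv_const _ _))
  have H3 := H1.comp_of_eq (analyticAt_id.prod analyticAt_const) rfl
  have H4 := (tendsto_inl _ _).eventually H2
  refine ⟨σ (), _, s3.an, H3, fun e => ?_, by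
    filter_upwards [s4, H4] with x b c d using ⟨(b d).1, (b d).2, (c d).trans (mul_comm _ _)⟩⟩
  obtain ⟨v, v0, v1, v2, v3⟩ := hγ.exists_lift hy
  have f0 : (v 0).1 = y := congrArg Subtype.val v0
  have vγ : Arc T y fun s => (v s).1 := ⟨v2, f0, .of_forall fun s => (v s).2⟩
  rw [← v0] at hf s3 s1
  have f1 := hf.comp (π' := id) v1 (.of_forall fun _ => continuousAt_id) v2 (.of_forall fun _ => rfl)
  have f2 := s3.comp (π' := id) v1 v2 (.of_forall fun _ => rfl)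
  have w1 := a2.sub (a1.comp p1)
  have w2 := w1.comp_of_eq hγ.an hγ.zero
  have w3 : ∀ᶠ s in 𝓝 0, s ≠ 0 → G (q (γ s)) - G (p (γ s)) ≠ 0 :=
    eventually_nhdsWithin_iff.1 (w2.differentiableAt.hasDerivAt.eventually_ne e2)
  have e4 : ∀ᶠ z in 𝓝 0, G (σ () ((v 0).1, z)) - G (p y) = 0 :=
    (e3.self_of_nhds hy e0).mono fun z a => by rw [f0, a, sub_self]
  have c0 : AnalyticAt ℂ (fun x : ℂ × ℂ => (v x.1).1) (0, 0) := v2.comp_of_eq analyticAt_fst rfl
  refine deriv_ne (g := fun x => G (σ () ((v x.1).1, x.2)) - G (p y))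
    ((a3.comp_of_eq (c0.prod analyticAt_snd) (Prod.ext f0 rfl)).sub analyticAt_const) ?_ e4
    (not_ev (G := fun c => G c - G (p y)) (fun t c a => by rw [inv t c a]) f1 (f0 ▸ par) hk
      (fun z => ⟨(hs z).1, (hs z).2.1.sub analyticAt_const, sub_eq_zero.2 (hs z).2.2⟩)
      (q1.comp_of_eq v2 f0) (.of_forall fun s => (hp _ (v s).2).2) ((congrArg q f0).symm ▸ k1.symm :)
      ((EventuallyEq.deriv_eq (v3.mono fun s a => congrArg (fun x => G (q x) - G (p y)) a)).trans_ne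
        ((deriv_sub_const _).trans_ne g2)) f2
      (((congrArg (fun x => σ () (x, 0)) f0).trans s5).symm ▸ k0 :)) ?_ ?_
  · filter_upwards [vγ.ev s4, v3, g1] with s a b c
    rw [a.2, b, c, sub_self]
  · have c1 : Tendsto (fun x : ℂ × ℂ => (v x.1, x.2)) (𝓝 (0, 0)) (𝓝 (v 0, 0)) := tendsto_pm v1 0
    have c2 := c0.continuousAt.tendsto.prodMk_nhds (f2.tendsto continuousAt_id)
    simp only [id, f0, s5] at c2
    filter_upwards [c1.eventually (s1.eventually_off' hf ()), c2.eventually h2, f2.mem,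
      continuousAt_fst.eventually ((vγ.ev s4).and (v3.and (g1.and (w3.and h3))))]
      with x b1 b2 b3 ⟨b4, b5, b6, b7, b8⟩ hx
    have b9 := sub_ne_zero.1 (b7 hx)
    rw [← b5] at b6 b8 b9
    refine ⟨fun c d => b1 c () ?_, (deriv_sub_const _).trans_ne (b8 b9 _ b4.1 b4.2)⟩
    rw [ctr, b4.2]
    exact b2 (v _).2 (b3 trivial) b9 ((sub_eq_zero.1 d).trans b6.symm)
  · have w4 := w1.comp_of_eq v2 f0
    have w5 := H3.comp_of_eq v2 f0
    refine (EventuallyEq.deriv_eq ((vγ.ev H4).mono fun s a => (deriv_sub_const _).trans a)).trans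
      ((w4.differentiableAt.hasDerivAt.fun_mul w5.differentiableAt.hasDerivAt).deriv.trans ?_)
    simp only [comp_apply, f0, Pi.sub_apply, e0] at e ⊢
    rw [e, mul_zero, zero_mul, add_zero]

end MultA

namespace Cv.Ctr

variable {X X' : Type} [TopologicalSpace X] [TopologicalSpace X'] [T2Space X] [CompactSpace X]
  [T2Space X'] [CompactSpace X'] {ν : Type} [Fintype ν] {R : RS X} {R' : RS X'}
  {N : Finset (X × X)} {N' : Finset (X' × X')} {p : ν → X} {p' : Option ν → X'} {c : X}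
  {j : X → X'} {r : X' → X} (h : Ctr R R' N N' p p' c j r) {n : ν}
include h

/-- the parametrisation of a rational tail -/
theorem tailM (a : p' (some n) ∉ range j) : ∃ k : OnePoint ℂ → X', LIso P1 R' k ∧
    (∀ z : ℂ, Sm N' (k z) ∧ k z ∉ range j) ∧ k (0 : ℂ) = p' (some n) ∧ k (1 : ℂ) = p' none := by
  rcases h.alt with ⟨-, -, b⟩ | ⟨b, d, e, he, ⟨m, -, -, -, f⟩ | ⟨-, -, -, -, f, -⟩⟩
  · exact (a ⟨_, (b _).symm⟩).elim
  · have g : ∀ o, p' o ≠ e := fun o k =>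
      Cv.sm_iff.1 (h.sm' o) (j c) ((f _ _).2 (.inr (k ▸ Sym2.eq_swap)))
    obtain ⟨k, k1, k2, k3, k4, k5, k6⟩ :=
      b.exists_param a he d (g _) (h.inj'.ne (by simp)) (g _).symm
    have l : ∀ z, k z ∉ range j := fun z => k3.le ⟨z, rfl⟩
    refine ⟨k, k1, fun z => ⟨Cv.sm_iff.2 fun y t => ?_, l z⟩, k4, k6⟩
    rcases (f _ _).1 t with ⟨x, -, -, t, -⟩ | t
    · exact l z ⟨x, t.symm⟩
    · rcases Sym2.eq_iff.1 t with t | t
      exacts [l z ⟨c, t.1.symm⟩, OnePoint.coe_ne_infty z (k2 (t.1.trans k5.symm))]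
  · exact (a ⟨_, (f _).symm⟩).elim

theorem fibM (a : p' (some n) ∈ range j) {y : X'} (e : r y = p n) : y = j (p n) := by
  by_cases b : y ∈ range j
  · obtain ⟨x, rfl⟩ := b
    rw [← e, h.left]
  have d := e.symm.trans (h.out y b)
  rcases h.alt with ⟨f, -⟩ | ⟨-, -, -, -, ⟨m, f, g, -⟩ | ⟨_, -, -, f, -⟩⟩
  exacts [(b (f y)).elim, (g (h.inj (d.trans f.symm) ▸ a)).elim,
    (Cv.sm_iff.1 (h.sm n) _ (d ▸ f)).elim]

end Cv.Ctr

end Vale.Agent.P269
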