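import Vale.Agent.P269.Loc.Lam
import Vale.Agent.P269.Br.Fund
import Vale.Agent.P269.Ch.Hev

/-!
# Descendants on the universal curve: the formal part
-/

set_option linter.unusedSectionVars false

namespace Vale.Agent.P269.UcA

open P291Z Set Function Topology Filter Ch

theorem add_pow' {A : Type*} [CommRing A] {P T : A} (h : T * (P + T) = 0) (a : ℕ) :
    (P + T) ^ a = P ^ a + if a = 0 then 0 else T * P ^ (a - 1) := by
  rcases a with _ | a
  · simp
  rw [if_neg a.succ_ne_zero, Nat.add_sub_cancel]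
  induction a with
  | zero => simp
  | succ a ih => rw [pow_succ, ih]; linear_combination P ^ a * h

theorem prod_add' {A ι : Type*} [CommRing A] [DecidableEq ι] {Q U : ι → A}
    (h : ∀ s s', s ≠ s' → U s * U s' = 0) (S : Finset ι) :
    ∏ s ∈ S, (Q s + U s) = ∏ s ∈ S, Q s + ∑ s ∈ S, U s * ∏ s' ∈ S.erase s, Q s' := by
  induction S using Finset.induction_on with
  | empty => simp
  | insert a S ha ih =>
    have e : ∀ s ∈ S, (Q a + U a) * (U s * ∏ s' ∈ S.erase s, Q s') =
        U s * ∏ s' ∈ (insert a S).erase s, Q s' := fun s hs => by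
      have k : a ≠ s := fun e => ha (e ▸ hs)
      rw [Finset.erase_insert_of_ne k, Finset.prod_insert fun c => ha (Finset.mem_of_mem_erase c)]
      linear_combination (∏ s' ∈ S.erase s, Q s') * h a s k
    rw [Finset.prod_insert ha, Finset.prod_insert ha, Finset.sum_insert ha, ih, mul_add,
      Finset.mul_sum, Finset.sum_congr rfl e, Finset.erase_insert ha]
    ring

theorem prod_pow {A ι : Type*} [CommRing A] [Fintype ι] [DecidableEq ι] {P T : ι → A}
    (h1 : ∀ s, T s * (P s + T s) = 0) (h2 : ∀ s s', s ≠ s' → T s * T s' = 0) (a : ι → ℕ) :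
    ∏ s, (P s + T s) ^ a s = ∏ s, P s ^ a s +
      ∑ s, if a s = 0 then 0 else T s * ∏ s', P s' ^ update a s (a s - 1) s' := by
  simp only [add_pow' (h1 _)]
  rw [prod_add' fun s s' k => by
    split_ifs
    exacts [zero_mul _, zero_mul _, mul_zero _, by rw [mul_mul_mul_comm, h2 s s' k, zero_mul]]]
  refine congrArg _ (Finset.sum_congr rfl fun s _ => ?_)
  split_ifs
  · exact zero_mul _
  rw [← Finset.mul_prod_erase _ _ (Finset.mem_univ s), update_self, mul_assoc]
  exact congrArg (fun z => T s * (_ * z)) (Finset.prod_congr rfl fun s' k => by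
    rw [update_of_ne (Finset.ne_of_mem_erase k)])

theorem prod_pow_mem {A B ι G : Type*} [CommRing A] [CommRing B] [Fintype ι] [DecidableEq ι]
    [FunLike G B A] [RingHomClass G B A] (I : Ideal A) (π : G) {ψ : ι → B} {Ψ : ι → A} (h1 : ∀ s, Ψ s * (Ψ s - π (ψ s)) ∈ I)
    (h2 : ∀ s s', s ≠ s' → (Ψ s - π (ψ s)) * (Ψ s' - π (ψ s')) ∈ I) (a : ι → ℕ) :
    ∏ s, Ψ s ^ a s - (π (∏ s, ψ s ^ a s) + ∑ s, if a s = 0 then 0 else
      π (∏ s', ψ s' ^ update a s (a s - 1) s') * (Ψ s - π (ψ s))) ∈ I := by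
  have e := prod_pow (P := fun s => Ideal.Quotient.mk I (π (ψ s)))
    (T := fun s => Ideal.Quotient.mk I (Ψ s - π (ψ s)))
    (fun s => by
      rw [← map_add, ← map_mul, add_sub_cancel, mul_comm]
      exact Ideal.Quotient.eq_zero_iff_mem.2 (h1 s))
    (fun s s' b => by
      rw [← map_mul]
      exact Ideal.Quotient.eq_zero_iff_mem.2 (h2 s s' b)) a
  refine Ideal.Quotient.eq.1 ?_
  simpa only [map_add, map_sum, map_prod, map_pow, map_sub, add_sub_cancel, map_mul, map_zero,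
    apply_ite (Ideal.Quotient.mk I), mul_comm] using e

variable {M C : Type} [TopologicalSpace M] [TopologicalSpace C] [Nice M] [Nice C]

theorem prod_ofFn {n : ℕ} (z : Fin n → Hev M) (g : Fin n → H M) :
    (List.ofFn fun s => (z s).1 * g s).prod = (∏ s, z s).1 * (List.ofFn g).prod := by
  induction n with
  | zero => simp
  | succ n ih =>
    rw [List.ofFn_succ, List.ofFn_succ, List.prod_cons, List.prod_cons, ih, Fin.prod_univ_succ,
      Subalgebra.coe_mul, mul_assoc, mul_assoc, ← mul_assoc (g 0), ← Hev.commute (Subtype.prop _),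
      mul_assoc]

/-- the annihilator of a class -/
def ann (v : BM C) : Ideal (Hev C) where
  carrier := {a | cap a.1 v = 0}
  add_mem' {a b} h h' := ((pd v).map_add a.1 b.1).trans ((congrArg₂ (· + ·) h h').trans (add_zero _))
  zero_mem' := (pd v).map_zero
  smul_mem' c a h := (cap_mul c.1 a.1 v).trans ((congrArg _ h).trans (map_zero _))

variable [CompactSpace M] [CompactSpace C]

theorem intg_res {B : Set C} (hB : IsClosed B) (hB' : IsOpen B) (Φ : C(M, C))
    (hΦ : IsOpenEmbedding Φ) (h : B ⊆ range Φ) (v : BM C) (a : H C) :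
    Loc.intg v (hcls (ind B) * a) = Loc.intg (res Φ v) (H.map Φ (hcls (ind B) * a)) := by
  obtain ⟨a, rfl⟩ := H.mk_surj a
  have c := cocycle_ind ⟨hB, hB'⟩
  have c' := cocycle_mul c a.2
  rw [← hcls_val, ← hcls_mul c a.2, H.map_hcls _ c', Loc.intg_hcls _ c',
    Loc.intg_hcls _ (cocycle_pull Φ.continuous c')]
  refine (Orb.ev_res hΦ v ⟨(isClosed_supp _).isCompact, c'⟩
    fun x hx => h (by_contra fun k => notMem_supp.2 ⟨_, hB.isOpen_compl.mem_nhds k,
      fun l hl => if_neg ?_⟩ (supp_mul _ _ hx).1)).symm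
  rintro ⟨y, hy, rfl⟩
  exact hl y List.mem_cons_self hy

/-- **The comparison of the descendants.** -/
theorem main {ι : Type} [Fintype ι] [DecidableEq ι] {π : C(C, M)} {σ : ι → C(M, C)}
    (hσ : ∀ s z, π (σ s z) = z) {v : BM M} {vC : BM C} {ψ : ι → Hev M} {Ψ : ι → Hev C}
    (hT : ∀ s, cap (Ψ s - Hev.map π (ψ s)).1 vC = push (σ s) v)
    (h1 : ∀ s, cap (Hev.map (σ s) (Ψ s)).1 v = 0)
    (h2 : ∀ s s', s ≠ s' → Hev.map (σ s) (Ψ s' - Hev.map π (ψ s')) = 0) (a : ι → ℕ) (x : Hev C)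
    (y : H M) : Loc.intg vC (H.map π y * (x * ∏ s, Ψ s ^ a s).1) =
      Loc.intg (push π (cap x.1 vC)) (y * (∏ s, ψ s ^ a s).1) + ∑ s, if a s = 0 then 0 else
        Loc.intg v (y * (Hev.map (σ s) x * ∏ s', ψ s' ^ update a s (a s - 1) s').1) := by
  have k : ∀ s (z : Hev C), cap (z * (Ψ s - Hev.map π (ψ s))).1 vC =
      push (σ s) (cap (Hev.map (σ s) z).1 v) := fun s z =>
    (cap_mul _ _ _).trans ((congrArg _ (hT s)).trans
      (push_cap (.of_compact (σ s).continuous) _ _).symm)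
  have i : ∀ s z, H.map (σ s) (H.map π z) = z := fun s z =>
    (H.map_map _ _ _).trans (H.map_id (hσ s) z)
  have e : cap _ vC = 0 := prod_pow_mem (ann vC) (Hev.map π) (ψ := ψ) (Ψ := Ψ)
    (fun s => (k s _).trans ((congrArg _ (h1 s)).trans (map_zero _)))
    (fun s s' b => (k s' _).trans (by
      rw [h2 _ _ b.symm]
      exact (congrArg _ (pd v).map_zero).trans (map_zero _))) a
  obtain ⟨l, hl⟩ : ∃ l : Hev C →ₗ[ℂ] ℂ, ∀ z, l z = Loc.intg vC (H.map π y * (x * z).1) :=
    ⟨Loc.intg vC ∘ₗ LinearMap.mulLeft ℂ (H.map π y) ∘ₗ (Hev C).val.toLinearMap ∘ₗ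
      LinearMap.mulLeft ℂ x, fun _ => rfl⟩
  have e₂ : ∀ z : Hev C, cap z.1 vC = 0 → l z = 0 := fun z hz => by
    rw [hl, Subalgebra.coe_mul, ← mul_assoc, ← Loc.intg_cap, hz]
    rfl
  have e₃ := e₂ _ e
  rw [map_sub, map_add, map_sum, sub_eq_zero, hl] at e₃
  refine e₃.trans (congrArg₂ _ ?_ (Finset.sum_congr rfl fun s _ => ?_))
  · rw [hl, Loc.intg_push, Loc.intg_cap, map_mul (H.map π), mul_assoc, mul_comm x]
    rfl
  · split_ifs
    · exact map_zero l
    rw [hl, ← mul_assoc x, ← Loc.intg_cap, k, Loc.intg_push, Loc.intg_cap, i, map_mul (Hev.map _)]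
    exact congrArg (fun z => Loc.intg v (y * (_ * z))) (i s _)

end Vale.Agent.P269.UcA
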