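import Vale.Agent.P269.Fg.UcA
import Vale.Agent.P269.Fg.UcB
import Vale.Agent.P269.Fg.UcD
import Vale.Agent.P269.Fg.Dm
import Vale.Agent.P269.Grr.ChS
import Vale.Agent.P269.LG.HVs
import Vale.Agent.P269.Bas.NF

/-!
# Integrals over the universal curve
-/

set_option linter.unusedSectionVars false
set_option linter.style.haveILetI false

namespace Vale.Agent.P269

open P291Z Set Function Topology Filter

open Ch in
theorem UcA.fin {M C M' X : Type} [TopologicalSpace M] [TopologicalSpace C] [TopologicalSpace M']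
    [TopologicalSpace X] [Nice M] [Nice C] [Nice M'] [CompactSpace M] [CompactSpace C]
    [CompactSpace M'] {n : ℕ} {π : C(C, M)} {σ : Fin n → C(M, C)} (hσ : ∀ s z, π (σ s z) = z)
    {Φ : C(C, M')} (hΦ : IsOpenEmbedding Φ) {v : BM M} {v' : BM M'} {vC : BM C}
    (hv : res Φ v' = vC) {ψ : Fin n → Hev M}
    {ψ' : Fin (n + 1) → Hev M'} {a : Fin n → C(M, X)} {a' : Fin (n + 1) → C(M', X)} {u : C(C, X)}
    {B : Set M} {B' : Set M'} (hB : IsClopen B) (hB' : IsClopen B') (hs : Φ ⁻¹' B' = π ⁻¹' B)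
    (hr : B' ⊆ range Φ) {w : H M} {w' : H M'} (hw : H.map Φ w' = H.map π w)
    (hT : ∀ s, cap (Hev.map Φ (ψ' s.succ) - Hev.map π (ψ s)).1 vC = push (σ s) v)
    (h0 : ∀ s, cap (Hev.map (σ s) (Hev.map Φ (ψ' 0))).1 v = 0)
    (h1 : ∀ s, Hev.map (σ s) (Hev.map Φ (ψ' s.succ)) = Hev.map (σ s) (Hev.map Φ (ψ' 0)))
    (h2 : ∀ s s', s ≠ s' → Hev.map (σ s) (Hev.map Φ (ψ' s'.succ) - Hev.map π (ψ s')) = 0)
    (e0 : ∀ c, H.map Φ (H.map (a' 0) c) = H.map u c)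
    (es : ∀ s c, H.map Φ (H.map (a' s.succ) c) = H.map π (H.map (a s) c))
    (eu : ∀ s, u.comp (σ s) = a s) (f : Fin n → ℕ × H X) (r : ℕ) {c : H X} (hc : c ∈ Hev X)
    {ω c' : H C} (hω : (Hev.map Φ (ψ' 0)).1 = ω) (hc' : c' = H.map u c) :
    Loc.intg v' (hcls (ind B') * (w' * (List.ofFn fun s => H.map (a' s)
      (Fin.cons (α := fun _ => ℕ × H X) (r, c) f s).2).prod) *
        (∏ s, ψ' s ^ (Fin.cons (α := fun _ => ℕ × H X) (r, c) f s).1).1) =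
    Loc.intg (push π (cap (ω ^ r * c') vC))
      (hcls (ind B) * (w * (List.ofFn fun s => H.map (a s) (f s).2).prod) *
        (∏ s, ψ s ^ (f s).1).1) + if r = 0 then ∑ s, if (f s).1 = 0 then 0 else Loc.intg v
      (hcls (ind B) * (w * (List.ofFn fun s' => H.map (a s')
        (update f s ((f s).1 - 1, c * (f s).2) s').2).prod) *
          (∏ s', ψ s' ^ (update f s ((f s).1 - 1, c * (f s).2) s').1).1) else 0 := by
  subst hv hω hc'
  have m := UcA.main hσ hT (fun s => h1 s ▸ h0 s) h2 (fun s => (f s).1)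
    (Hev.map Φ (ψ' 0) ^ r * Hev.map u ⟨c, hc⟩)
    (hcls (ind B) * (w * (List.ofFn fun s => H.map (a s) (f s).2).prod))
  rw [mul_assoc, UcA.intg_res hB'.1 hB'.2 Φ hΦ hr]
  refine Eq.trans (congrArg _ ?_) (m.trans (congrArg₂ _ rfl ?_))
  · have c' := Hev.commute (map_mem_Hev u hc)
    simp only [map_mul, List.ofFn_succ, List.prod_cons, Fin.prod_univ_succ, Fin.cons_zero,
      Fin.cons_succ, map_list_prod, List.map_ofFn, Subalgebra.coe_mul, comp_def, e0, es, hw,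
      ← Hev.coe_map Φ, map_pow, map_prod]
    rw [H.map_hcls _ (cocycle_ind hB'), H.map_hcls _ (cocycle_ind hB), pull_ind, pull_ind, hs,
      c', mul_assoc, mul_assoc, mul_assoc, mul_assoc, mul_assoc, ← mul_assoc (H.map u c), c',
      mul_assoc]
    rfl
  · rcases r with _ | r
    · refine (Finset.sum_congr rfl fun s _ => ?_).trans (if_pos rfl).symm
      refine if_congr Iff.rfl rfl ?_
      have c' := Hev.commute (map_mem_Hev (a s) hc)
      rw [pow_zero, one_mul, Hev.map_map, eu, Subalgebra.coe_mul, ← mul_assoc, mul_assoc (hcls _),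
        mul_assoc w, Hev.coe_map, ← Qrr.Fc.prod_update c' _ s, ← map_mul]
      exact congrArg _ (congrArg₂ (fun a b => _ * (_ * (List.ofFn a).prod) * Subtype.val b)
        (funext (apply_update (fun s x => H.map (a s) x.2) f s ((f s).1 - 1, _))).symm
        (Finset.prod_congr rfl fun s' _ => congrArg _
          (apply_update (fun _ x => x.1) f s (_, c * (f s).2) s').symm))
    · refine (Finset.sum_eq_zero fun s _ => ?_).trans (if_neg r.succ_ne_zero).symm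
      refine ite_eq_left_iff.2 fun _ => ?_
      rw [pow_succ, mul_right_comm _ _ (Hev.map u _), map_mul (Hev.map _),
        mul_right_comm (Hev.map _ _), Subalgebra.coe_mul, ← mul_assoc, ← Loc.intg_cap, h0]
      rfl

variable {S Λ R J K ι ν κ ν' κ' : Type} [Fintype S] [Fintype Λ] [Fintype R] [Fintype J] [Fintype K]
  [Fintype ι] [DecidableEq ι] [Fintype ν] [Fintype κ] [Fintype ν'] [Fintype κ'] [DecidableEq R]

namespace Ch

variable {ch : Ch ι J} {F : Fam S Λ R J K} {ℓ : R → ι → ℤ} {Z O : Set (ch.WF ν κ Λ)}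
  {e : K → ι → ℕ} {d n r : ℕ}

theorem hm_oC (a : ι → ℤ) : Tq.Hm fun s : ch.AU ν κ S => ∏ i, s.2 i ^ a i :=
  ⟨by simp, fun s t _ _ => by simp [mul_zpow, Finset.prod_mul_distrib], fun s hs =>
    tendsto_finsetProd _ fun i _ => ((continuous_apply i).comp continuous_snd).continuousAt.zpow₀
      _ (.inl ((isUnitU_iff.1 hs).2 i))⟩

theorem Dmn.cap_sec (h : Dmn F e O d n r) (hz : GZ F ℓ (Z0 F ch ν κ)) (m : Mk ν κ) :
    cap (H.map (hz.secM m) (oC _ _ ch.χ)) (virF F e _) = 0 := by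
  haveI := h.gd.dom.isAct
  haveI := hz.act
  have a : Tq.Eqh (actC F.toWt) (actC F.toWt) (unv (Z0 F ch ν κ)) (unv O) (fun s => s) id :=
    ⟨.id, unv_mono h.gd.dom.sub, continuousOn_id, fun _ _ _ _ => rfl⟩
  have b := Grr.cap_secC_oC h.gd.dom.orb h.mf h.num h.ver m
  obtain ⟨t, t1, t2⟩ := hcls_surj (oC F.toWt O ch.χ)
  have c := (map_lcq (hz.cuts.orb_unv hz.base hz.orb) (hz.cuts.orb_unv h.ver.base h.gd.dom.orb) a
    (hm_oC ch.χ)).symm.trans (congrArg _ t2.symm)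
  rw [← t2, H.map_hcls _ t1] at b
  have k := h.gd.vr_cap (cocycle_pull (continuous_secC h.ver.base m) t1) (h.gd.fu d)
  rw [h.virF_eq, show oC _ _ ch.χ = _ from c, H.map_map, H.map_hcls _ t1]
  refine Eq.trans ?_ (k.symm.trans ((congrArg _ b).trans (map_zero _)))
  rw [pull_pull]
  exact congrArg (fun f => cap (hcls (pull f t)) _) (funext (Quot.ind fun _ => rfl))

namespace GZ

/-- the cotangent class as an even class -/
noncomputable def ψe (h : GZ F ℓ Z) (m : Mk ν κ) : Hev (Quo (actF F.toWt) Z) :=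
  ⟨hcls (psiF m), h.cl_psi_mem m⟩

theorem niceC (h : GZ F ℓ Z) : Nice (Quo (actC F.toWt) (unv Z)) :=
  haveI := h.act
  (presA (h.cuts.orb_unv h.base h.orb)).nice

theorem compactC (h : GZ F ℓ Z) [CompactSpace (Quo (actF F.toWt) Z)] :
    CompactSpace (Quo (actC F.toWt) (unv Z)) :=
  haveI := h.act
  ⟨(h.cuts.isPr_prC h.base h.orb).pre _ isCompact_univ⟩

theorem map_sec (h : GZ F ℓ Z) {m m' : Mk ν κ} (k : m ≠ m') {t : Coch (Quo (actC F.toWt) (unv Z))}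
    (h1 : supp (δ t) = ∅) (h2 : supp t ⊆ range (secC _ h.base m')) :
    H.map (h.secM m) (hcls t) = 0 := by
  haveI := h.act
  rw [H.map_hcls _ h1, hcls_eq_zero (cocycle_pull (h.secM m).continuous h1)]
  refine ⟨0, eq_empty_of_forall_notMem fun x hx => ?_⟩
  rw [map_zero, sub_zero] at hx
  exact disjoint_left.1 (disjoint_secC h.base k) ⟨x, rfl⟩ (h2 (supp_pull (h.secM m).continuous t hx))

theorem insC_eq {Z : Set (ch.WF (Fin n ⊕ Fin 0) (Fin 0) Λ)} (h : GZ F ℓ Z)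
    (f : Fin n → ℕ × H (F.X F.cone)) : insC F Z f = (∏ s, h.ψe (mk0 s) ^ (f s).1).1 *
      (List.ofFn fun s => H.map (h.evM (mk0 s)) (f s).2).prod := by
  haveI := h.nice
  rw [← UcA.prod_ofFn]
  exact congrArg _ (congrArg _ (funext fun s => congrArg₂ (· * ·) rfl (h.hcls_evF _ _)))

end GZ

end Ch

namespace Fam

section gen

variable {F : Fam S Λ R J K} {k D D' : ℕ} {g : ℤ} {d : R → ℤ} [IsEmpty κ] [IsEmpty κ']
  {e : Option (Ch.Mk ν κ) ≃ Ch.Mk ν' κ'}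
  {Φ : C(F.ModC ν κ k D g d, F.Mod κ' k D' g d (0 : ν' → J → ℕ))} (φ : Fgt e Φ)
  (hz : Ch.GZ F ℓs (F.Z0 ν κ k D g d)) (hz' : Ch.GZ F ℓs (F.Z0 ν' κ' k D' g d))
include φ

theorem Fgt.map_new (hk : (k : ℂ) ≠ 0) {q} (a : e none = q) : (Ch.Hev.map Φ (hz'.ψe q)).1 =
    (k : ℂ)⁻¹ • Ch.oC _ _ (F.sch ν κ k D g d).χ := by
  subst a
  exact (H.map_hcls Φ (hz'.cocycle_psi _)).trans ((eq_inv_smul_iff₀ hk).2 φ.new)

theorem Fgt.map_old {n : Ch.Mk ν κ} {q} (a : e (some n) = q) :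
    cap (Ch.Hev.map Φ (hz'.ψe q) - Ch.Hev.map (Ch.prM F _) (hz.ψe n)).1 (F.virC ν κ k D g d) =
      push (hz.secM n) (F.vir κ k D g d 0) ∧ ∀ m ≠ n, Ch.Hev.map (hz.secM m)
        (Ch.Hev.map Φ (hz'.ψe q) - Ch.Hev.map (Ch.prM F _) (hz.ψe n)) = 0 := by
  subst a
  obtain ⟨t, a, b, c, o⟩ := φ.old n
  have l : (Ch.Hev.map Φ (hz'.ψe (e (some n))) - Ch.Hev.map (Ch.prM F _) (hz.ψe n)).1 = hcls t :=
    sub_eq_iff_eq_add'.2 ((H.map_hcls Φ (hz'.cocycle_psi _)).trans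
      (c.trans (congrArg (· + _) (H.map_hcls (Ch.prM F _) (hz.cocycle_psi _)).symm)))
  exact ⟨(congrArg (cap · _) l).trans o, fun m k =>
    Subtype.ext ((congrArg _ l).trans (hz.map_sec k a b))⟩

theorem Fgt.map_tw (Θ) : H.map Φ (Qrr.evC (Ch.indC F.toWt (F.Z0 ν' κ' k D' g d)) Θ).1 =
    H.map (Ch.prM F _) (Qrr.evC (Ch.indC F.toWt (F.Z0 ν κ k D g d)) Θ).1 :=
  (congrArg _ (cl_tw Θ).symm).trans ((H.map_hcls Φ (Qrr.Fc.cocycle_rep _)).trans ((φ.tw Θ).trans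
    ((H.map_hcls (Ch.prM F _) (Qrr.Fc.cocycle_rep _)).symm.trans (congrArg _ (cl_tw Θ)))))

variable (hF : F.Good) (hA : F.Abs) (hk : F.Big k) (hD : F.BigD k D) (hD' : F.BigD k D')
include hF hA hk hD hD'

theorem Fgt.map_evN {q} (a : e none = q) (c : H (F.X F.cone)) :
    H.map Φ (H.map (hz'.evM q) c) = H.map hz.unM c :=
  (H.map_map _ _ _).trans (congrArg (H.map · c)
    (ContinuousMap.ext (a ▸ FgPt.ev φ.pt hF hA hk hD hD' hz hz' none)))

theorem Fgt.map_evO {n : Ch.Mk ν κ} {q} (a : e (some n) = q) (c : H (F.X F.cone)) :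
    H.map Φ (H.map (hz'.evM q) c) = H.map (Ch.prM F _) (H.map (hz.evM n) c) :=
  (H.map_map _ _ _).trans ((congrArg (H.map · c) (ContinuousMap.ext
    (a ▸ FgPt.ev φ.pt hF hA hk hD hD' hz hz' (some n)))).trans (H.map_map _ _ _).symm)

theorem Fgt.map_sec [DecidableEq (Ch.Mk ν κ)] {n : Ch.Mk ν κ} (h0 : (k : ℂ) ≠ 0)
    {Φ' : C(F.ModC ν κ k D g d, F.Mod κ' k D' g d (0 : ν' → J → ℕ))}
    (φ' : Fgt ((Equiv.swap none (some n)).trans e) Φ') {q q'} (a : e (some n) = q)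
    (a' : e none = q') : Ch.Hev.map (hz.secM n) (Ch.Hev.map Φ (hz'.ψe q)) =
      Ch.Hev.map (hz.secM n) (Ch.Hev.map Φ (hz'.ψe q')) := by
  refine Eq.trans ?_ (congrArg _ (Subtype.ext ((φ'.map_new hz' h0
    ((congrArg e (Equiv.swap_apply_left _ _)).trans a)).trans (φ.map_new hz' h0 a').symm)))
  rw [Ch.Hev.map_map, Ch.Hev.map_map]
  exact congrArg (Ch.Hev.map · _) (ContinuousMap.ext (FgPt.swap φ.pt hF hA hk hD hD' hz φ'.pt))

omit φ hk hD' in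
theorem Nice.cap_sec (hN : F.Nice 0) (hk : F.Big k) (m) {w : Ch.Hev (F.ModC ν κ k D g d)} {z : ℂ}
    (a : w.1 = z • Ch.oC _ _ (F.sch ν κ k D g d).χ) :
    cap (Ch.Hev.map (hz.secM m) w).1 (F.vir κ k D g d 0) = 0 := by
  obtain ⟨_, b⟩ := hN.reg
  obtain ⟨_, c⟩ := hN.sm
  obtain ⟨_, o⟩ := hF.ok' ν κ b c hk hD g d
  obtain ⟨_, _, _, _, -, dm⟩ := o.exists_dm hA
  rw [Ch.Hev.coe_map, a, H.map_smulC]
  exact ((pd _).map_smul _ _).trans (smul_eq_zero_of_right _ (dm.cap_sec hz m))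

end gen

variable {F : Fam Empty Λ R J K} {k D D' n : ℕ} {g : ℤ} {d : R → ℤ}

theorem One.intg_sel (h : F.One k) (hD : F.BigD k D)
    (hz : Ch.GZ F ℓs (F.Z0 (Fin n ⊕ Fin 0) (Fin 0) k D g d))
    {P : AM Λ R J (Fin n ⊕ Fin 0) (Fin 0) → Prop}
    (hP : IsClopen (F.sel P : Set (F.Mod (Fin 0) k D g d 0))) (v : BM (F.Mod (Fin 0) k D g d 0))
    (Θ) (f : Fin n → ℕ × H (F.X F.cone)) : F.intg v P (F.fsF _ Θ f) =
      Loc.intg v (hcls (ind (F.sel P)) * ((Qrr.evC (Ch.indC F.toWt _) Θ).1 *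
        (List.ofFn fun s => H.map (hz.evM (mk0 s)) (f s).2).prod) *
          (∏ s, hz.ψe (mk0 s) ^ (f s).1).1) := by
  haveI := h.compactSpace (ν := Fin n ⊕ Fin 0) (κ := Fin 0) (g := g) (d := d) (u := 0) hD
  rw [Fam.intg_sel hz v hP (hz.at_fsF Θ f), hz.prod_fsF, hz.insC_eq,
    Ch.Hev.commute (Subtype.prop (∏ s, hz.ψe (mk0 s) ^ (f s).1)), mul_assoc, mul_assoc]

/-- the comparison in fixed charts -/
theorem One.uc (h : F.One k) (hD : F.BigD k D) (hD' : F.BigD k D')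
    {e : Option (Ch.Mk (Fin n ⊕ Fin 0) (Fin 0)) ≃ Ch.Mk (Fin (n + 1) ⊕ Fin 0) (Fin 0)}
    (e0 : e none = mk0 0) (es : ∀ s, e (some (mk0 s)) = mk0 s.succ)
    {Φ : C(F.ModC _ _ k D g d, F.Mod (Fin 0) k D' g d 0)} (φ : Fgt e Φ)
    (φs : ∀ s : Fin n, ∃ Φ' : C(F.ModC _ _ k D g d, F.Mod (Fin 0) k D' g d 0),
      Fgt ((Equiv.swap none (some (mk0 s))).trans e) Φ')
    {P : AM Λ R J (Fin n ⊕ Fin 0) (Fin 0) → Prop}
    {P' : AM Λ R J (Fin (n + 1) ⊕ Fin 0) (Fin 0) → Prop}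
    (hP : IsClopen (F.sel P : Set (F.Mod (Fin 0) k D g d 0)))
    (hP' : IsClopen (F.sel P' : Set (F.Mod (Fin 0) k D' g d 0)))
    (hs : Φ ⁻¹' F.sel P' = Ch.prC _ _ ⁻¹' F.sel P) (hr : F.sel P' ⊆ range Φ) (Θ)
    (f : Fin n → ℕ × H (F.X F.cone)) (r : ℕ) {c : H (F.X F.cone)} (hc : c ∈ Ch.Hev _) :
    F.intg (F.vir (Fin 0) k D' g d 0) P' (F.fsF _ Θ (Fin.cons (r, c) f)) =
      F.intg (Ch.pshC F (F.tdeg (F.sch (Fin n ⊕ Fin 0) (Fin 0) k D g d))
        (F.cy0 (Fin n ⊕ Fin 0) (Fin 0) k D g d) (((k : ℂ)⁻¹ •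
          Ch.oC _ _ (F.sch (Fin n ⊕ Fin 0) (Fin 0) k D g d).χ) ^ r * Ch.eC F _ c)) P (F.fsF _ Θ f) +
      if r = 0 then ∑ s, if (f s).1 = 0 then 0 else F.intg (F.vir (Fin 0) k D g d 0) P
        (F.fsF _ Θ (update f s ((f s).1 - 1, c * (f s).2))) else 0 := by
  have hk : (k : ℂ) ≠ 0 := by
    obtain ⟨_, _, -, a⟩ := h.big
    exact Nat.cast_ne_zero.2 (by omega)
  have hz : Ch.GZ F ℓs (F.Z0 (Fin n ⊕ Fin 0) (Fin 0) k D g d) := h.gz' _ _ hD g d 0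
  have hz' : Ch.GZ F ℓs (F.Z0 (Fin (n + 1) ⊕ Fin 0) (Fin 0) k D' g d) := h.gz' _ _ hD' g d 0
  haveI := hz.nice
  haveI := hz'.nice
  haveI := hz.niceC
  haveI := h.compactSpace (ν := Fin n ⊕ Fin 0) (κ := Fin 0) (g := g) (d := d) (u := 0) hD
  haveI := h.compactSpace (ν := Fin (n + 1) ⊕ Fin 0) (κ := Fin 0) (g := g) (d := d) (u := 0) hD'
  haveI := hz.compactC
  have n0 := φ.map_new hz' hk e0
  have m := UcA.fin (π := Ch.prM F _) (σ := fun s => hz.secM (mk0 s))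
    (fun s => Ch.prC_secC hz.base _) φ.emb (v := F.vir (Fin 0) k D g d 0) φ.vir
    (ψ := fun s => hz.ψe (mk0 s)) (ψ' := fun s => hz'.ψe (mk0 s)) (a := fun s => hz.evM (mk0 s))
    (a' := fun s => hz'.evM (mk0 s)) (u := hz.unM) hP hP' hs hr (φ.map_tw Θ)
    (fun s => (φ.map_old hz hz' (es s)).1)
    (fun s => Nice.cap_sec hz h.good h.abs hD h.nice h.big _ n0)
    (fun s => let ⟨_, a⟩ := φs s
      φ.map_sec hz hz' h.good h.abs h.big hD hD' hk a (es s) e0)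
    (fun s s' k => (φ.map_old hz hz' (es s')).2 _
      fun e => k (Sum.inl_injective (Sum.inl_injective e)))
    (φ.map_evN hz hz' h.good h.abs h.big hD hD' e0)
    (fun s => φ.map_evO hz hz' h.good h.abs h.big hD hD' (es s)) (fun s => hz.unM_secM _) f r hc
    n0 (DilA.eC_eq hz c)
  exact (h.intg_sel hD' hz' hP' _ _ _).trans (m.trans (congrArg₂ _ (h.intg_sel hD hz hP _ _ _).symm
    (if_congr Iff.rfl (Finset.sum_congr rfl fun s _ =>
      if_congr Iff.rfl rfl (h.intg_sel hD hz hP _ _ _).symm) rfl)))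

end Fam

/-- **Integrals over the universal curve.** -/
theorem St.ucS (hF : St.Forget) (hW : St.Well) : St.UcS := by
  intro Λ R J K _ _ _ _ _ F k Θ d j n f r c P P' h hc hP hP' hu hPP
  obtain ⟨e, e0, es⟩ := exists_mkEquiv n
  filter_upwards [F.eventually_bigD k, hP.2, hF F k (j + 1) d e h.nice h.abs h.cp h.big,
    eventually_all.2 fun s : Fin n => hF F k (j + 1) d ((Equiv.swap none (some (mk0 s))).trans e)
      h.nice h.abs h.cp h.big, eventually_all.2 fun s : Fin n =>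
        h.corP_ev hW hP Θ (update f s ((f s).1 - 1, c * (f s).2))] with D hD cP h1 h2 h3
  obtain ⟨D', hD', cP', ⟨Φ, φ⟩, h4, h5⟩ := ((F.eventually_bigD k).and (hP'.2.and (h1.and
    ((eventually_all.2 h2).and (h.corP_ev hW hP' Θ (Fin.cons (r, c) f)))))).exists
  simp only [h3]
  rw [h5, h.uc hD hD' e0 es (Φ := ⟨Φ, φ.emb.continuous⟩) φ
    (fun s => let ⟨Φ', a⟩ := h4 s; ⟨⟨Φ', a.emb.continuous⟩, a⟩) cP cP'
    (Fam.FgPt.sel φ.pt h.good h.abs h.big hD hD' hP.1 hP'.1 fun _ _ _ _ _ => hPP e _ _ _ _ _ e0) (fun y hy => ?_) Θ f r hc,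
    add_sub_cancel_right]
  obtain ⟨x, m, rfl, a⟩ := Fam.exists_mk hD' y
  refine φ.range.ge (mt (Fam.mem_sel (AM.ivt_un _) a).1 (e0 ▸ hu m (Fam.Z0_sol h.good.toInv a)
    (Fam.rep_stable hD' a (Fam.Z0_base _ x.2)) (Fam.rep_typ a (Fam.Z0_base _ x.2))
    ((Fam.mem_sel hP'.1 a).1 hy)))

theorem St.ucP_of (h : St.UcS) : St.UcP := fun F k Θ d j _ f r c a b =>
  h F k Θ d j f r c _ _ a b .top (Fam.sel_un _).not (fun _ _ _ _ => id)
    fun _ _ _ _ _ _ e o _ s _ => iff_true_intro (e ▸ o.not_un s)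

theorem St.ucP (hF : St.Forget) (hW : St.Well) : St.UcP := St.ucP_of (St.ucS hF hW)

end Vale.Agent.P269
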