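import Vale.Agent.P269.Fg.Bun
import Vale.Agent.P269.Fg.Dict
import Vale.Agent.P269.Fg.Dm
import Vale.Agent.P269.Map.Tr

/-!
# The joint chart: comparison of the virtual classes
-/

set_option linter.unusedSectionVars false

namespace Vale.Agent.P269

open P291Z Set Function Topology Filter Cv Ch MvPolynomial Jc Holo

variable {S Λ R J K K' ν κ ν' κ' : Type} [Fintype S] [Fintype Λ] [Fintype R] [Fintype J] [Fintype K]
  [Fintype K'] [Fintype ν] [Fintype κ] [Fintype ν'] [Fintype κ'] [DecidableEq R]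

namespace FgW

section gen

variable {ι ι' J' R' : Type} [Fintype ι] [Fintype ι'] [Fintype J'] [Fintype R'] [DecidableEq ι]
  [DecidableEq ι'] {ch' : Ch ι' J'} {D : ch'.Res ι J} {F' : Fam S Λ R' J' K} {F : Fam S Λ R J K}
  {e : K → ι' → ℕ} {θ : ch'.AF ν' κ' S → D.ch.AF ν κ S} {f : ch'.WF ν' κ' Λ → D.ch.WF ν κ Λ}
  {O : Set (ch'.WF ν' κ' Λ)}

/-- the restriction of functions identifies the obstruction spaces -/
theorem lin (h : D.FRes F' e F) (h1 : ∀ s, (θ s).1 = s.1)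
    (h2 : ∀ s i, (θ s).2.1 i = s.2.1 (D.σ i)) (h3 : ∀ s l, (θ s).2.2.1 l = s.2.2.1 (D.τ l))
    (hl : ∀ x, (f x).1 = x.1) (hr : ∀ x ∈ O, D.Rel x.2 (f x).2) :
    (ch'.kd ν' κ' F' e).Lin (D.ch.kd ν κ F (D.e e)) θ f O (D.A K) ∧
      (ch'.kd ν' κ' F' e).Inj (D.ch.kd ν κ F (D.e e)) f O (D.A K) ∧
      (ch'.kd ν' κ' F' e).Srj (D.ch.kd ν κ F (D.e e)) f O (D.A K) :=
  ⟨⟨fun _ => h.A_pol, fun a _ _ hw => h.A_ρ hw (h1 a) (h2 a) (h3 a),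
    fun x hx _ => h.A_van (hl x) (hr x hx), fun x hx =>
      mem_of_eq_of_mem (sub_eq_zero.2 (h.A_sct (hl x) (hr x hx))) (zero_mem _),
    fun x hx _ _ => h.A_obs (hl x) (hr x hx)⟩, fun x hx _ => h.A_inj (hl x) (hr x hx),
    fun x hx _ hw =>
      let ⟨w, a, b⟩ := h.A_obs_surj (hl x) (hr x hx) hw
      ⟨w, a, mem_of_eq_of_mem (sub_eq_zero.2 b) (zero_mem _)⟩⟩

theorem ivt_baseF {ch : Ch ι J} (hF : F.Inv) : Ivt (actF F.toWt) (ch.baseF ν κ F.B) :=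
  fun _ hs _ a => actF_mem_baseF hs a (hF.invB _ (isUnit_S hs) _ a.1)

open Classical in
theorem det_isW' {ch : Ch ι J} {F' : Fam S Λ R J K'} {T : Set J} {φ : K → K'} {e : K' → ι → ℕ}
    {K₀ : Set K} {K₀' : Set K'} {ℓ : R → ι → ℤ} {S₀ S₃ : Set (ch.WF ν κ Λ)}
    (hS : S₃ = zr T ⁻¹' S₀) (h : F.Det F' T φ) (hs : ch.Std F (fun k => e (φ k)) K₀ ℓ)
    (hs' : ch.Std F' e K₀' ℓ) (hr : ch.rk F' ℓ K₀' = ch.rk F ℓ K₀ +
      ∑ j with j ∈ T, Module.finrank ℂ (ch.Th j) * ch.eu fun i => ch.a (some j) i)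
    (hA : S₀ ⊆ ch.adm ν κ F) (hi : Ivt (actF F.toWt) S₀) (hl : IsLocallyClosed S₀) {d : ℕ}
    [Nice (ModS F S₀)] {v : BM (ModS F S₀)}
    (hv : (ch.kd ν κ F fun k => e (φ k)).IsW (actF F.toWt) _ S₀ d v) :
    ∃ m : EqM (actF F.toWt) (actF F.toWt) (ch.solF ν κ F' ∩ S₃) (ch.solF ν κ F ∩ S₀) id (zr T),
      IsHomeomorph m.map ∧
        ∃ d', (ch.kd ν κ F' e).IsW (actF F.toWt) _ S₃ d' (res m.map v) := by
  subst hS
  exact ⟨det_eqM h S₀, det_isW h hs hs' hr hA hi hl hv⟩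

end gen

/-- cancellation of a homeomorphism -/
theorem cancel {X Y Z : Type} [TopologicalSpace X] [TopologicalSpace Y] [TopologicalSpace Z]
    [Nice X] [Nice Y] [Nice Z] {g : X → Y} {Φ : Y → Z} (hg : IsHomeomorph g)
    (h : IsOpenEmbedding (Φ ∘ g)) {α : BM Z} {β : BM Y} (e : res (Φ ∘ g) α = res g β) :
    IsOpenEmbedding Φ ∧ res Φ α = β := by
  have a : IsOpenEmbedding Φ := by
    have := h.comp (hg.homeomorph g).symm.isOpenEmbedding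
    rwa [comp_assoc, show g ∘ (hg.homeomorph g).symm = id from
      (hg.homeomorph g).self_comp_symm] at this
  exact ⟨a, by rw [← push_res_homeo hg β, ← e, ← res_res hg.isOpenEmbedding a, push_res_homeo hg]⟩

theorem disj {y : J ⊕ J → J3 J R} (hy : y = .inl) {A : Set (J3 J R)} (h : A ⊆ range y) :
    Disjoint A (range lk) := by
  refine disjoint_left.2 ?_
  rintro _ a ⟨o, rfl⟩
  obtain ⟨j, b⟩ := h a
  rw [hy] at b
  exact Sum.inl_ne_inr b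

theorem disj1 {A : Set (J3 J R)} (h : A ⊆ range y1) : Disjoint A (range lk) :=
  disj rfl (h.trans (range_comp_subset_range Sum.inl Sum.inl))

theorem disj2 {A : Set (J3 J R)} (h : A ⊆ range y2) : Disjoint A (range lk) :=
  disj rfl (h.trans (range_comp_subset_range Sum.inr Sum.inl))

end FgW

open FgW

namespace Jc

variable {c : Jc J R} {W : Wt S Λ R J} {F : Fam S Λ R J K} [IsEmpty κ] [IsEmpty κ']
  {e : Option (Mk ν κ) ≃ Mk ν' κ'} {x y : c.ch.WF ν' κ' Λ} {K₀ : Set K} {b : ℕ}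
  {U₁ : Set (c.D₁.ch.WF ν' κ' Λ)} {U₂ : Set (c.D₂.ch.WF ν κ Λ)}
  {Φ : Quo (actC F.toWt) (unv (Z0 F c.D₂.ch ν κ)) → Quo (actF F.toWt) (Z0 F c.D₁.ch ν' κ')}

theorem T₁_sub : c.T e F.j1 ⊆ c.T e (F.ja (range y1)) := fun _ hx =>
  have a := (mem_T (disj1 (image_subset_range _ _))).1 hx
  (mem_T (disj1 subset_rfl)).2 ⟨a.1, fun j k => a.2 j fun l => k (image_subset_range _ _ l)⟩

theorem T₂_sub : c.T e F.j2 ⊆ c.T e (F.ja (range y2)) := fun _ hx =>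
  have a := (mem_T (disj2 (image_subset_range _ _))).1 hx
  (mem_T (disj2 subset_rfl)).2 ⟨a.1, fun j k => a.2 j fun l => k (image_subset_range _ _ l)⟩

variable (P : c.Pk e F K₀ b U₁ U₂)
include P

theorem Pk.lc₁ : IsLocallyClosed (c.T e F.j1) :=
  P.ok.lc_T P.ok₁.sm (disj1 (image_subset_range _ _))

theorem Pk.lc₂ : IsLocallyClosed (c.T e F.j2) :=
  P.ok.lc_T P.ok₁.sm (disj2 (image_subset_range _ _))

theorem Pk.pl₁ : KD.Pl (c.ch.kd ν' κ' F.j1 fun k => c.e₃ F (.inl (.inl k)))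
    (c.D₁.ch.kd ν' κ' F (F.tdeg c.D₁.ch)) (actF F.toWt.jc) (actF F.toWt) (c.T e (F.ja (range y1)))
    (c.D₁.ch.baseF ν' κ' F.B) c.D₁.θF P.ok.L₁.fF (c.D₁.A K) (c.Z e F.j1) (c.T e F.j1)
    (Z0 F c.D₁.ch ν' κ') (c.D₁.ch.cyc κ' F (0 : ν' → J → ℕ)) := by
  have hF := P.ok₁.inv
  have B := P.ok.bun₁ (e := e) hF P.ok₁.sm
  obtain ⟨O, _, n, r, -, D⟩ := P.ok₁.exists_dm P.abs
  have i := ivt_T (c := c) (e := e) (Fam.inv_j1 hF)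
  have i' := ivt_T (c := c) (e := e) (Fam.inv_ja hF (range y1))
  obtain ⟨n', G⟩ := P.std₁.reg' T_adm i P.lc₁
  obtain ⟨l1, l2, l3⟩ := lin (O := c.T e (F.ja (range y1))) (θ := c.D₁.θF) (f := P.ok.L₁.fF)
    (fres₁ (F := F)) (fun _ => rfl) (fun _ _ => rfl) (fun _ _ => rfl) (fun _ => rfl) fun x hx =>
      (P.ok.dom₁ ((mem_T (disj1 subset_rfl)).1 hx).1).rel P.ok₁.cuts
  exact ⟨B, i', ivt_baseF hF, i, D.inv, fun _ a => a.2,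
    fun _ _ => .of_forall fun y => ⟨fun a => ⟨T₁_sub a, (P.ok.loc₁ hF P.abs (T₁_sub a)
      (B.maps (T₁_sub a))).1 a⟩, fun a => (P.ok.loc₁ hF P.abs a.1 (B.maps a.1)).2 a.2⟩,
    ⟨_, n', _, G, l1.mono inter_subset_right⟩, ⟨O, n, r, D.reg⟩, P.maps₁,
    fun x a => l2 x (T₁_sub a.2), fun x a => l3 x (T₁_sub a.2)⟩

theorem Pk.pl₂ : KD.Pl (c.ch.kd ν' κ' F.j2 fun k => c.e₃ F (.inl (.inr k)))
    (c.D₂.ch.kdC ν κ F (F.tdeg c.D₂.ch)) (actF F.toWt.jc) (actC F.toWt) (c.T e (F.ja (range y2)))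
    (unv (c.D₂.ch.baseF ν κ F.B)) (c.θ₂ S e) (P.ok.f₂ e) (c.D₂.A K) (c.Z e F.j2) (c.T e F.j2)
    (unv (Z0 F c.D₂.ch ν κ)) (unv (c.D₂.ch.cyc κ F (0 : ν → J → ℕ))) := by
  have hF := P.ok₁.inv
  have B := P.ok.bun₂ (e := e) hF P.ok₁.sm
  obtain ⟨O, _, n, r, -, D⟩ := P.ok₂.exists_dm P.abs
  have i := ivt_T (c := c) (e := e) (Fam.inv_j2 hF)
  have i' := ivt_T (c := c) (e := e) (Fam.inv_ja hF (range y2))
  obtain ⟨n', G⟩ := P.std₂.reg' T_adm i P.lc₂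
  obtain ⟨l1, l2, l3⟩ := lin (O := c.T e (F.ja (range y2))) (θ := fun s => (c.θ₂ S e s).1)
    (f := fun x => (P.ok.f₂ e x).1) (fres₂ (F := F)) (fun _ => rfl) (fun _ _ => rfl)
    (fun _ _ => rfl) (fun _ => rfl) fun x hx => P.ok.rel₂ ((mem_T (disj2 subset_rfl)).1 hx).1
  exact ⟨B, i', ivt_unv (ivt_baseF hF), i, ivt_unv D.inv,
    unv_mono fun _ a => a.2, fun _ _ => .of_forall fun y => ⟨fun a => ⟨T₂_sub a,
      (P.ok.loc₂ hF P.abs (T₂_sub a) (B.maps (T₂_sub a)).1).1 a, (B.maps (T₂_sub a)).2⟩,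
      fun a => (P.ok.loc₂ hF P.abs a.1 (B.maps a.1).1).2 a.2.1⟩,
    ⟨_, n', _, G, KD.Lin.mono ⟨l1.mem, l1.eqv, l1.van, l1.sec, l1.obs⟩ inter_subset_right⟩,
    ⟨_, n, r, D.regC⟩, P.maps₂, fun x a => l2 x (T₂_sub a.2), fun x a => l3 x (T₂_sub a.2)⟩

/-- **the comparison** -/
theorem Pk.cp (hΦ : FgP F e Φ) : Cp e P.ok Φ ∧ FgV F Φ := by
  have hF := P.ok₁.inv
  obtain ⟨_, _, _, _, -, D₁⟩ := P.ok₁.exists_dm P.abs
  obtain ⟨_, _, _, _, -, D₂⟩ := P.ok₂.exists_dm P.abs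
  have := D₁.gd.niceZ
  have := D₂.gdC.niceZ
  obtain ⟨o₁, w₁⟩ := P.pl₁.isW (Φ := P.pl₁.et.map) (fun _ => rfl) D₁.isW
  obtain ⟨o₂, w₂⟩ := P.pl₂.isW (Φ := P.pl₂.et.map) (fun _ => rfl) D₂.isWC
  have := w₁.choose_spec.choose_spec.choose_spec.choose.niceZ
  have := w₂.choose_spec.choose_spec.choose_spec.choose.niceZ
  obtain ⟨g₁, a₁, _, v₁⟩ := det_isW' (T₃_eq₁ hF P.abs) (Fam.det_j1 hF P.abs) P.std₁ P.std₃ P.rk₁
    T_adm (ivt_T (Fam.inv_j1 hF)) P.lc₁ w₁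
  obtain ⟨g₂, a₂, _, v₂⟩ := det_isW' (T₃_eq₂ hF P.abs) (Fam.det_j2 hF P.abs) P.std₂ P.std₃ P.rk₂
    T_adm (ivt_T (Fam.inv_j2 hF)) P.lc₂ w₂
  have z₁ : ∀ x, P.ok.L₁.fF (zr (y2 '' F.mov) x) = P.ok.L₁.fF (ν := ν') (κ := κ') x := fun _ =>
    P.ok.fF_zr (by simp)
  have z₂ : ∀ x, P.ok.f₂ e (zr (y1 '' F.mov) x) = P.ok.f₂ e x := fun _ =>
    P.ok.f₂_zr (by simp) (by simp)
  have e₁ : P.pl₁.et.map ∘ g₁.map = P.eqM₁.map :=
    P.eqM₁.eq_map fun x => congrArg (Quo.mk _) (Subtype.ext (z₁ x))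
  have e₂ : P.pl₂.et.map ∘ g₂.map = P.eqM₂.map :=
    P.eqM₂.eq_map fun x => congrArg (Quo.mk _) (Subtype.ext (z₂ x))
  have b₂ : IsHomeomorph P.eqM₂.map := e₂ ▸ (P.pl₂.isHomeomorph (fun _ => rfl) o₂ fun y hy =>
    let ⟨x, a, k⟩ := P.lift hy
    ⟨_, g₂.maps a, (z₂ x).trans k⟩).comp a₂
  have e₃ : P.pl₁.et.map ∘ g₁.map = Φ ∘ P.eqM₂.map := e₁.trans (funext (P.comm hΦ)).symm
  have u := v₁.unique' v₂
  obtain ⟨_, _, _, G, -⟩ := v₁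
  have := G.niceZ
  rw [res_res a₁.isOpenEmbedding o₁, res_res a₂.isOpenEmbedding o₂, e₂, e₃] at u
  obtain ⟨k₁, k₂⟩ := cancel b₂ (e₃ ▸ o₁.comp a₁.isOpenEmbedding) u
  exact ⟨⟨P.eqM₁, P.eqM₂, P.comm hΦ, b₂, k₁, G.isActZ, G.orbZ⟩, k₁, k₂⟩

end Jc

end Vale.Agent.P269
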